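import Vale.Agent.P226_h5.Defs

/-! P226 module 16-TRI: planar integrals. -/

open MeasureTheory ProbabilityTheory Set Filter Topology
open scoped ENNReal

namespace P226

/-- layer cake with sections -/
theorem tr_layer (h : ℝ → ℝ → ℝ) (hm : Measurable (Function.uncurry h)) :
    ∫⁻ a : ℝ, ∫⁻ b : ℝ, ENNReal.ofReal (h a b) =
      ∫⁻ s in Ioi (0:ℝ), ∫⁻ a : ℝ, volume {b : ℝ | s < h a b} := by
  have h1 : ∀ y : ℝ, ENNReal.ofReal y = ∫⁻ s in Ioi (0:ℝ), (Iio y).indicator 1 s := by
    intro y
    rw [lintegral_indicator_one measurableSet_Iio, Measure.restrict_apply measurableSet_Iio,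
      inter_comm, Ioi_inter_Iio, Real.volume_Ioo, sub_zero]
  have hset : MeasurableSet {x : (ℝ × ℝ) × ℝ | x.2 < h x.1.1 x.1.2} := by
    refine measurableSet_lt measurable_snd ?_
    exact hm.comp measurable_fst
  have hind : Measurable (fun x : (ℝ × ℝ) × ℝ => (Iio (h x.1.1 x.1.2)).indicator
      (1 : ℝ → ℝ≥0∞) x.2) := by
    have : (fun x : (ℝ × ℝ) × ℝ => (Iio (h x.1.1 x.1.2)).indicator (1 : ℝ → ℝ≥0∞) x.2) =
        {x : (ℝ × ℝ) × ℝ | x.2 < h x.1.1 x.1.2}.indicator 1 := by
      ext x; rfl
    rw [this]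
    exact measurable_one.indicator hset
  have h2 : ∀ a : ℝ, ∫⁻ b : ℝ, ENNReal.ofReal (h a b) =
      ∫⁻ s in Ioi (0:ℝ), volume {b : ℝ | s < h a b} := by
    intro a
    simp only [h1]
    rw [lintegral_lintegral_swap]
    · refine lintegral_congr fun s => ?_
      have e : (fun b => (Iio (h a b)).indicator (1 : ℝ → ℝ≥0∞) s) =
          {b : ℝ | s < h a b}.indicator 1 := by
        ext b; rfl
      rw [e, lintegral_indicator_one]
      exact measurableSet_lt measurable_const (hm.comp (by fun_prop : Measurable fun b => (a, b)))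
    · refine Measurable.aemeasurable ?_
      exact hind.comp (by fun_prop : Measurable fun x : ℝ × ℝ => ((a, x.1), x.2))
  simp only [h2]
  rw [lintegral_lintegral_swap]
  refine Measurable.aemeasurable ?_
  have h3 : (Function.uncurry fun (a s : ℝ) => volume {b : ℝ | s < h a b}) =
      fun x : ℝ × ℝ => ∫⁻ b, (Iio (h x.1 b)).indicator (1 : ℝ → ℝ≥0∞) x.2 := by
    ext x
    simp only [Function.uncurry]
    have e : (fun b => (Iio (h x.1 b)).indicator (1 : ℝ → ℝ≥0∞) x.2) =
          {b : ℝ | x.2 < h x.1 b}.indicator 1 := by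
        ext b; rfl
    rw [e, lintegral_indicator_one]
    exact measurableSet_lt measurable_const
      (hm.comp (by fun_prop : Measurable fun b => (x.1, b)))
  rw [h3]
  refine Measurable.lintegral_prod_right'
    (f := fun y : (ℝ × ℝ) × ℝ => (Iio (h y.1.1 y.2)).indicator (1 : ℝ → ℝ≥0∞) y.1.2) ?_
  exact hind.comp (by fun_prop : Measurable fun y : (ℝ × ℝ) × ℝ => ((y.1.1, y.2), y.1.2))

/-- integral of a nonnegative function with a primitive -/
theorem tr_Ioc (a b : ℝ) (hab : a ≤ b) (f F : ℝ → ℝ) (hF : ∀ x, HasDerivAt F (f x) x)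
    (hf : Continuous f) (hpos : ∀ x ∈ Ioc a b, 0 ≤ f x) :
    ∫⁻ x in Ioc a b, ENNReal.ofReal (f x) = ENNReal.ofReal (F b - F a) := by
  rw [← ofReal_integral_eq_lintegral_ofReal]
  · rw [← intervalIntegral.integral_of_le hab,
      intervalIntegral.integral_eq_sub_of_hasDerivAt (fun x _ => hF x)
        (hf.intervalIntegrable _ _)]
  · exact (hf.integrableOn_Icc).mono_set Ioc_subset_Icc_self
  · exact (ae_restrict_iff' measurableSet_Ioc).2 (Eventually.of_forall hpos)

theorem tr_lin2 (C X p k : ℝ) (hp : 0 < p) (hk : 0 ≤ k) (hX : 0 ≤ X) :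
    ∫⁻ a : ℝ, (if 0 < C + p * a ∧ C + p * a ≤ X then ENNReal.ofReal (k * (C + p * a)) else 0) ≤
      ENNReal.ofReal (k * X ^ 2 / (2 * p)) := by
  have e1 : (fun a : ℝ => if 0 < C + p * a ∧ C + p * a ≤ X then
      ENNReal.ofReal (k * (C + p * a)) else 0) =
      (Ioc (-C / p) ((X - C) / p)).indicator (fun a => ENNReal.ofReal (k * (C + p * a))) := by
    ext a
    by_cases h : 0 < C + p * a ∧ C + p * a ≤ X
    · rw [if_pos h, indicator_of_mem]
      rw [mem_Ioc, div_lt_iff₀ hp, le_div_iff₀ hp]
      constructor <;> linarith [h.1, h.2, mul_comm a p]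
    · rw [if_neg h, indicator_of_notMem]
      rw [mem_Ioc, div_lt_iff₀ hp, le_div_iff₀ hp]
      intro h'
      apply h
      constructor <;> linarith [h'.1, h'.2, mul_comm a p]
  rw [e1, lintegral_indicator measurableSet_Ioc,
    tr_Ioc (-C / p) ((X - C) / p) (by gcongr; linarith) (fun a => k * (C + p * a))
      (fun a => k * (C + p * a) ^ 2 / (2 * p))]
  · apply le_of_eq
    congr 1
    have h1 : C + p * ((X - C) / p) = X := by field_simp; ring
    have h2 : C + p * (-C / p) = 0 := by field_simp; ring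
    rw [h1, h2]; ring
  · intro x
    have h1 : HasDerivAt (fun a : ℝ => C + p * a) p x := by
      simpa using ((hasDerivAt_id' x).const_mul p).const_add C
    have h2 := ((h1.pow 2).const_mul k).div_const (2 * p)
    refine h2.congr_deriv ?_
    field_simp
    push_cast
    ring
  · fun_prop
  · intro x hx
    rw [mem_Ioc, div_lt_iff₀ hp] at hx
    exact mul_nonneg hk (by linarith [hx.1, mul_comm x p])

theorem tr_lin1 (C X p k : ℝ) (hp : 0 < p) (hk : 0 ≤ k) (hX : 0 ≤ X) :
    ∫⁻ a : ℝ, (if 0 < C - p * a ∧ C - p * a ≤ X then ENNReal.ofReal (k * (C - p * a)) else 0) ≤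
      ENNReal.ofReal (k * X ^ 2 / (2 * p)) := by
  rw [← lintegral_neg_eq_self]
  have := tr_lin2 C X p k hp hk hX
  simpa [sub_eq_add_neg] using this

theorem tr_cube (B k c : ℝ) (hk : 0 < k) (hc : 0 ≤ c) :
    ∫⁻ s in Ioi (0:ℝ), ENNReal.ofReal (c * (max (B - k * s) 0) ^ 2) ≤
      ENNReal.ofReal (c * (max B 0) ^ 3 / (3 * k)) := by
  rcases le_total B 0 with hB | hB
  · have h0 : ∀ s ∈ Ioi (0:ℝ), ENNReal.ofReal (c * (max (B - k * s) 0) ^ 2) = 0 := by
      intro s hs
      have hs' : 0 < s := hs
      have : B - k * s ≤ 0 := by nlinarith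
      rw [max_eq_right this]; simp
    rw [setLIntegral_congr_fun measurableSet_Ioi h0]
    simp
  · rw [← lintegral_indicator measurableSet_Ioi]
    calc ∫⁻ s, (Ioi (0:ℝ)).indicator (fun s => ENNReal.ofReal (c * (max (B - k * s) 0) ^ 2)) s
        ≤ ∫⁻ s, (Ioc (0:ℝ) (B / k)).indicator (fun s => ENNReal.ofReal (c * (B - k * s) ^ 2)) s := by
          refine lintegral_mono fun s => ?_
          by_cases hs : 0 < s
          · rw [indicator_of_mem (by exact hs)]
            by_cases hs2 : s ≤ B / k
            · rw [indicator_of_mem (show s ∈ Ioc (0:ℝ) (B / k) from ⟨hs, hs2⟩)]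
              rw [le_div_iff₀ hk] at hs2
              rw [max_eq_left (by linarith [mul_comm s k])]
            · rw [max_eq_right]
              · simp
              · rw [not_le, div_lt_iff₀ hk] at hs2
                linarith [mul_comm s k]
          · rw [indicator_of_notMem (by exact hs)]; exact zero_le
      _ = ENNReal.ofReal (c * (max B 0) ^ 3 / (3 * k)) := by
          rw [lintegral_indicator measurableSet_Ioc,
            tr_Ioc 0 (B / k) (by positivity) (fun s => c * (B - k * s) ^ 2)
              (fun s => -(c * (B - k * s) ^ 3 / (3 * k)))]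
          · congr 1
            rw [max_eq_left hB]
            have h1 : B - k * (B / k) = 0 := by field_simp; ring
            rw [h1]; ring
          · intro x
            have h1 : HasDerivAt (fun a : ℝ => B - k * a) (-k) x := by
              simpa using ((hasDerivAt_id' x).const_mul k).const_sub B
            have h2 := (((h1.pow 3).const_mul c).div_const (3 * k)).neg
            refine h2.congr_deriv ?_
            field_simp
            push_cast
            ring
          · fun_prop
          · intro x _; positivity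

/-- the length of a set on which an affine form is confined -/
theorem tr_len (S : Set ℝ) (k c R r : ℝ) (hk : 0 < k) (hr : 0 < r)
    (h : ∀ b ∈ S, |k * (r * b) + c| < R) :
    volume S ≤ ENNReal.ofReal (2 * R / (k * r)) := by
  have h1 : S ⊆ Ioo ((-R - c) / (k * r)) ((R - c) / (k * r)) := by
    intro b hb
    have := h b hb
    rw [abs_lt] at this
    have hkr : 0 < k * r := by positivity
    rw [mem_Ioo, div_lt_iff₀ hkr, lt_div_iff₀ hkr]
    constructor <;> nlinarith [this.1, this.2]
  refine (measure_mono h1).trans ?_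
  rw [Real.volume_Ioo]
  apply le_of_eq
  congr 1
  field_simp
  ring

theorem tri3 (p q r b1 b2 b3 : ℝ) (hp : 0 < p) (hr : 0 < r) :
    ∫⁻ a : ℝ, ∫⁻ b : ℝ, ENNReal.ofReal (min (b1 - p * a) (min (b2 - (q * a + r * b))
      (b3 + (p * a + (q * a + r * b))))) ≤
      ENNReal.ofReal ((max (b1 + b2 + b3) 0) ^ 3 / (18 * (p * r))) := by
  rw [tr_layer (fun a b => min (b1 - p * a) (min (b2 - (q * a + r * b))
      (b3 + (p * a + (q * a + r * b))))) (by
        unfold Function.uncurry
        fun_prop)]
  have hsec : ∀ s : ℝ, ∫⁻ a : ℝ, volume {b : ℝ | s < min (b1 - p * a)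
      (min (b2 - (q * a + r * b)) (b3 + (p * a + (q * a + r * b))))} ≤
      ENNReal.ofReal ((1 / (2 * (p * r))) * (max ((b1 + b2 + b3) - 3 * s) 0) ^ 2) := by
    intro s
    have h1 : ∀ a : ℝ, volume {b : ℝ | s < min (b1 - p * a)
      (min (b2 - (q * a + r * b)) (b3 + (p * a + (q * a + r * b))))} ≤
      (if 0 < (b2 + b3 - 2 * s) + p * a ∧
        (b2 + b3 - 2 * s) + p * a ≤ max ((b1 + b2 + b3) - 3 * s) 0 then
        ENNReal.ofReal ((1 / r) * ((b2 + b3 - 2 * s) + p * a)) else 0) := by
      intro a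
      split_ifs with hc
      · refine (tr_len _ 1 (q * a - (b2 - b3 - p * a) / 2) (((b2 + b3 - 2 * s) + p * a) / 2) r
          one_pos hr ?_).trans (le_of_eq ?_)
        · intro b hb
          simp only [mem_ofPred_eq, lt_min_iff] at hb
          rw [abs_lt]
          constructor <;> linarith [hb.2.1, hb.2.2]
        · congr 1
          field_simp
      · have : {b : ℝ | s < min (b1 - p * a)
            (min (b2 - (q * a + r * b)) (b3 + (p * a + (q * a + r * b))))} = ∅ := by
          rw [eq_empty_iff_forall_notMem]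
          intro b hb
          simp only [mem_ofPred_eq, lt_min_iff] at hb
          apply hc
          have h2 := hb.1
          have h3 := hb.2.1
          have h4 := hb.2.2
          exact ⟨by linarith, le_trans (by linarith) (le_max_left _ _)⟩
        rw [this, measure_empty]
    refine (lintegral_mono h1).trans ((tr_lin2 _ _ p (1 / r) hp (by positivity)
      (le_max_right _ _)).trans (le_of_eq ?_))
    congr 1
    field_simp
  refine (lintegral_mono fun s => hsec s).trans ((tr_cube _ 3 _ (by norm_num)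
    (by positivity)).trans (le_of_eq ?_))
  congr 1
  field_simp
  ring

/-- the area of the level set for four cells -/
theorem tr_area4 (p q r l μ ρ b1 b2 b3 b4 s : ℝ) (hp : 0 < p) (hr : 0 < r) (hμ : |μ| ≤ 1) :
    ∫⁻ a : ℝ, volume {b : ℝ | s <
      (min (min (b1 - ((p * a) + (q * a + r * b) + (l * (p * a) + μ * (q * a + r * b) + ρ)) / 2)
        (b2 - ((p * a) - (q * a + r * b) - (l * (p * a) + μ * (q * a + r * b) + ρ)) / 2))
        (min (b3 - ((q * a + r * b) - (p * a) - (l * (p * a) + μ * (q * a + r * b) + ρ)) / 2)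
        (b4 - ((l * (p * a) + μ * (q * a + r * b) + ρ) - (p * a) - (q * a + r * b)) / 2)))} ≤
      ENNReal.ofReal ((1 / (2 * (p * r))) * (max ((b1 + b2 + b3 + b4) - 4 * s) 0) ^ 2) := by
  rw [abs_le] at hμ
  set S : ℝ := max ((b1 + b2 + b3 + b4) - 4 * s) 0 with hS
  have hS0 : 0 ≤ S := le_max_right _ _
  have hS1 : (b1 + b2 + b3 + b4) - 4 * s ≤ S := le_max_left _ _
  set C1 : ℝ := b1 + b2 - 2 * s with hC1
  set C2 : ℝ := b3 + b4 - 2 * s with hC2
  set k1 : ℝ := if μ = -1 then 0 else 2 / ((1 + μ) * r) with hk1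
  set k2 : ℝ := if μ = 1 then 0 else 2 / ((1 - μ) * r) with hk2
  have hk1' : 0 ≤ k1 := by
    rw [hk1]; split_ifs with h
    · exact le_rfl
    · have : 0 < 1 + μ := lt_of_le_of_ne (by linarith) (fun h' => h (by linarith))
      positivity
  have hk2' : 0 ≤ k2 := by
    rw [hk2]; split_ifs with h
    · exact le_rfl
    · have : 0 < 1 - μ := lt_of_le_of_ne (by linarith) (fun h' => h (by linarith))
      positivity
  have h1 : ∀ a : ℝ, volume {b : ℝ | s <
      (min (min (b1 - ((p * a) + (q * a + r * b) + (l * (p * a) + μ * (q * a + r * b) + ρ)) / 2)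
        (b2 - ((p * a) - (q * a + r * b) - (l * (p * a) + μ * (q * a + r * b) + ρ)) / 2))
        (min (b3 - ((q * a + r * b) - (p * a) - (l * (p * a) + μ * (q * a + r * b) + ρ)) / 2)
        (b4 - ((l * (p * a) + μ * (q * a + r * b) + ρ) - (p * a) - (q * a + r * b)) / 2)))} ≤
      (if 0 < C1 - p * a ∧ C1 - p * a ≤ S * (1 + μ) / 2 then
        ENNReal.ofReal (k1 * (C1 - p * a)) else 0) +
      (if 0 < C2 + p * a ∧ C2 + p * a ≤ S * (1 - μ) / 2 then
        ENNReal.ofReal (k2 * (C2 + p * a)) else 0) := by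
    intro a
    set T : Set ℝ := {b : ℝ | s <
      (min (min (b1 - ((p * a) + (q * a + r * b) + (l * (p * a) + μ * (q * a + r * b) + ρ)) / 2)
        (b2 - ((p * a) - (q * a + r * b) - (l * (p * a) + μ * (q * a + r * b) + ρ)) / 2))
        (min (b3 - ((q * a + r * b) - (p * a) - (l * (p * a) + μ * (q * a + r * b) + ρ)) / 2)
        (b4 - ((l * (p * a) + μ * (q * a + r * b) + ρ) - (p * a) - (q * a + r * b)) / 2)))} with hT
    have hmem : ∀ b ∈ T, |(1 + μ) * (r * b) + ((1 + μ) * (q * a) + l * (p * a) + ρ - (b1 - b2))| <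
          C1 - p * a ∧
        |(1 - μ) * (r * b) + ((1 - μ) * (q * a) - l * (p * a) - ρ - (b3 - b4))| <
          C2 + p * a := by
      intro b hb
      simp only [hT, mem_ofPred_eq, lt_min_iff] at hb
      obtain ⟨⟨e1, e2⟩, e3, e4⟩ := hb
      rw [abs_lt, abs_lt]
      refine ⟨⟨?_, ?_⟩, ?_, ?_⟩ <;> simp only [hC1, hC2] <;> linarith
    by_cases hne : T.Nonempty
    · obtain ⟨b, hb⟩ := hne
      obtain ⟨m1, m2⟩ := hmem b hb
      have p1 : 0 < C1 - p * a := (abs_nonneg _).trans_lt m1
      have p2 : 0 < C2 + p * a := (abs_nonneg _).trans_lt m2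
      by_cases hx : C1 - p * a ≤ S * (1 + μ) / 2
      · have hμ1 : 0 < 1 + μ := by
          by_contra hcon
          have : S * (1 + μ) ≤ 0 := mul_nonpos_of_nonneg_of_nonpos hS0 (not_lt.1 hcon)
          linarith
        have hne1 : μ ≠ -1 := by intro h; linarith
        rw [if_pos ⟨p1, hx⟩]
        refine le_trans ?_ le_self_add
        refine (tr_len T (1 + μ) _ (C1 - p * a) r hμ1 hr fun b hb => (hmem b hb).1).trans
          (le_of_eq ?_)
        rw [hk1, if_neg hne1]
        congr 1
        field_simp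
      · rw [not_le] at hx
        have hy : C2 + p * a ≤ S * (1 - μ) / 2 := by
          have : C1 + C2 ≤ S := by simp only [hC1, hC2]; linarith
          linarith
        have hμ1 : 0 < 1 - μ := by
          by_contra hcon
          have : S * (1 - μ) ≤ 0 := mul_nonpos_of_nonneg_of_nonpos hS0 (not_lt.1 hcon)
          linarith
        have hne1 : μ ≠ 1 := by intro h; linarith
        rw [if_pos (⟨p2, hy⟩ : 0 < C2 + p * a ∧ C2 + p * a ≤ S * (1 - μ) / 2)]
        refine le_trans ?_ le_add_self
        refine (tr_len T (1 - μ) _ (C2 + p * a) r hμ1 hr fun b hb => (hmem b hb).2).trans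
          (le_of_eq ?_)
        rw [hk2, if_neg hne1]
        congr 1
        field_simp
    · rw [not_nonempty_iff_eq_empty] at hne
      rw [hne, measure_empty]
      exact zero_le
  refine (lintegral_mono h1).trans ?_
  rw [lintegral_add_left']
  · have e1 := tr_lin1 C1 (S * (1 + μ) / 2) p k1 hp hk1' (by
      have : 0 ≤ S * (1 + μ) := mul_nonneg hS0 (by linarith)
      linarith)
    have e2 := tr_lin2 C2 (S * (1 - μ) / 2) p k2 hp hk2' (by
      have : 0 ≤ S * (1 - μ) := mul_nonneg hS0 (by linarith)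
      linarith)
    refine (add_le_add e1 e2).trans ?_
    have f1 : k1 * (S * (1 + μ) / 2) ^ 2 / (2 * p) = S ^ 2 * (1 + μ) / (4 * (p * r)) := by
      rw [hk1]; split_ifs with h
      · rw [h]; simp
      · have : 1 + μ ≠ 0 := fun h' => h (by linarith)
        field_simp
        ring
    have f2 : k2 * (S * (1 - μ) / 2) ^ 2 / (2 * p) = S ^ 2 * (1 - μ) / (4 * (p * r)) := by
      rw [hk2]; split_ifs with h
      · rw [h]; simp
      · have : 1 - μ ≠ 0 := fun h' => h (by linarith)
        field_simp
        ring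
    rw [f1, f2, ← ENNReal.ofReal_add]
    · apply le_of_eq
      congr 1
      field_simp
      ring
    · have : 0 ≤ 1 + μ := by linarith
      positivity
    · have : 0 ≤ 1 - μ := by linarith
      positivity
  · refine Measurable.aemeasurable ?_
    refine Measurable.ite ?_ (by fun_prop) measurable_const
    exact (measurableSet_lt (f := fun _ => (0:ℝ)) (g := fun a : ℝ => C1 - p * a)
      measurable_const (by fun_prop)).inter
      (measurableSet_le (f := fun a : ℝ => C1 - p * a) (g := fun _ => S * (1 + μ) / 2)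
        (by fun_prop) measurable_const)

theorem tri4 (p q r l μ ρ b1 b2 b3 b4 : ℝ) (hp : 0 < p) (hr : 0 < r) (hμ : |μ| ≤ 1) :
    ∫⁻ a : ℝ, ∫⁻ b : ℝ, ENNReal.ofReal
      (min (min (b1 - ((p * a) + (q * a + r * b) + (l * (p * a) + μ * (q * a + r * b) + ρ)) / 2)
        (b2 - ((p * a) - (q * a + r * b) - (l * (p * a) + μ * (q * a + r * b) + ρ)) / 2))
        (min (b3 - ((q * a + r * b) - (p * a) - (l * (p * a) + μ * (q * a + r * b) + ρ)) / 2)
        (b4 - ((l * (p * a) + μ * (q * a + r * b) + ρ) - (p * a) - (q * a + r * b)) / 2))) ≤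
      ENNReal.ofReal ((max (b1 + b2 + b3 + b4) 0) ^ 3 / (24 * (p * r))) := by
  rw [tr_layer (fun a b =>
      (min (min (b1 - ((p * a) + (q * a + r * b) + (l * (p * a) + μ * (q * a + r * b) + ρ)) / 2)
        (b2 - ((p * a) - (q * a + r * b) - (l * (p * a) + μ * (q * a + r * b) + ρ)) / 2))
        (min (b3 - ((q * a + r * b) - (p * a) - (l * (p * a) + μ * (q * a + r * b) + ρ)) / 2)
        (b4 - ((l * (p * a) + μ * (q * a + r * b) + ρ) - (p * a) - (q * a + r * b)) / 2)))) (by
        unfold Function.uncurry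
        fun_prop)]
  refine (lintegral_mono fun s => tr_area4 p q r l μ ρ b1 b2 b3 b4 s hp hr hμ).trans
    ((tr_cube _ 4 _ (by norm_num) (by positivity)).trans (le_of_eq ?_))
  congr 1
  field_simp
  ring

theorem tri4crude (p q r l μ ρ b1 b2 b3 b4 b5 : ℝ) (hp : 0 < p) (hr : 0 < r) (hμ : |μ| ≤ 1) :
    ∫⁻ a : ℝ, ∫⁻ b : ℝ, ENNReal.ofReal
      (min b5 (min (min (b1 - ((p * a) + (q * a + r * b) + (l * (p * a) + μ * (q * a + r * b) + ρ)) / 2)
        (b2 - ((p * a) - (q * a + r * b) - (l * (p * a) + μ * (q * a + r * b) + ρ)) / 2))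
        (min (b3 - ((q * a + r * b) - (p * a) - (l * (p * a) + μ * (q * a + r * b) + ρ)) / 2)
        (b4 - ((l * (p * a) + μ * (q * a + r * b) + ρ) - (p * a) - (q * a + r * b)) / 2)))) ≤
      ENNReal.ofReal ((max (b1 + b2 + b3 + b4 + b5) 0) ^ 3 / (30 * (p * r))) := by
  rw [tr_layer (fun a b => (min b5
      (min (min (b1 - ((p * a) + (q * a + r * b) + (l * (p * a) + μ * (q * a + r * b) + ρ)) / 2)
        (b2 - ((p * a) - (q * a + r * b) - (l * (p * a) + μ * (q * a + r * b) + ρ)) / 2))
        (min (b3 - ((q * a + r * b) - (p * a) - (l * (p * a) + μ * (q * a + r * b) + ρ)) / 2)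
        (b4 - ((l * (p * a) + μ * (q * a + r * b) + ρ) - (p * a) - (q * a + r * b)) / 2))))) (by
        unfold Function.uncurry
        fun_prop)]
  have hsec : ∀ s : ℝ, ∫⁻ a : ℝ, volume {b : ℝ | s < (min b5
      (min (min (b1 - ((p * a) + (q * a + r * b) + (l * (p * a) + μ * (q * a + r * b) + ρ)) / 2)
        (b2 - ((p * a) - (q * a + r * b) - (l * (p * a) + μ * (q * a + r * b) + ρ)) / 2))
        (min (b3 - ((q * a + r * b) - (p * a) - (l * (p * a) + μ * (q * a + r * b) + ρ)) / 2)
        (b4 - ((l * (p * a) + μ * (q * a + r * b) + ρ) - (p * a) - (q * a + r * b)) / 2))))} ≤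
      ENNReal.ofReal ((1 / (2 * (p * r))) *
        (max ((b1 + b2 + b3 + b4 + b5) - 5 * s) 0) ^ 2) := by
    intro s
    by_cases hs : s < b5
    · refine (lintegral_mono fun a => measure_mono ?_).trans
        ((tr_area4 p q r l μ ρ b1 b2 b3 b4 s hp hr hμ).trans ?_)
      · intro b hb
        simp only [mem_ofPred_eq, lt_min_iff] at hb ⊢
        exact hb.2
      · apply ENNReal.ofReal_le_ofReal
        refine mul_le_mul_of_nonneg_left ?_ (by positivity)
        refine pow_le_pow_left₀ (le_max_right _ _) ?_ 2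
        exact max_le_max (by linarith) le_rfl
    · have : ∀ a : ℝ, volume {b : ℝ | s < (min b5
      (min (min (b1 - ((p * a) + (q * a + r * b) + (l * (p * a) + μ * (q * a + r * b) + ρ)) / 2)
        (b2 - ((p * a) - (q * a + r * b) - (l * (p * a) + μ * (q * a + r * b) + ρ)) / 2))
        (min (b3 - ((q * a + r * b) - (p * a) - (l * (p * a) + μ * (q * a + r * b) + ρ)) / 2)
        (b4 - ((l * (p * a) + μ * (q * a + r * b) + ρ) - (p * a) - (q * a + r * b)) / 2))))} = 0 := by
        intro a
        convert measure_empty (μ := (volume : Measure ℝ))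
        rw [eq_empty_iff_forall_notMem]
        intro b hb
        simp only [mem_ofPred_eq, lt_min_iff] at hb
        exact hs hb.1
      simp only [this, lintegral_zero]
      exact zero_le
  refine (lintegral_mono fun s => hsec s).trans ((tr_cube _ 5 _ (by norm_num)
    (by positivity)).trans (le_of_eq ?_))
  congr 1
  field_simp
  ring

end P226
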