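import Vale.Agent.P226_h16.Plane
import Vale.Agent.P226_h16.Tri

/-! P226 module 16-AREA. -/

open MeasureTheory ProbabilityTheory Set Filter Topology
open scoped RealInnerProductSpace ENNReal

namespace P226

variable {E : Type*} [NormedAddCommGroup E] [InnerProductSpace ℝ E] [FiniteDimensional ℝ E]
  [MeasurableSpace E] [BorelSpace E]

omit [FiniteDimensional ℝ E] [MeasurableSpace E] [BorelSpace E] in
/-- Gram-Schmidt for two vectors with positive Gram determinant -/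
theorem ar_gs (P Q : E) (δ : ℝ) (hδ : 0 < δ)
    (h : δ ^ 2 = ‖P‖ ^ 2 * ‖Q‖ ^ 2 - ⟪P, Q⟫ ^ 2) :
    ∃ (u v : E) (p q r : ℝ), ‖u‖ = 1 ∧ ‖v‖ = 1 ∧ ⟪u, v⟫ = 0 ∧ 0 < p ∧ 0 < r ∧ p * r = δ ∧
      P = p • u ∧ Q = q • u + r • v ∧
      ∀ z : E, ⟪z, P⟫ = 0 → ⟪z, Q⟫ = 0 → ⟪z, u⟫ = 0 ∧ ⟪z, v⟫ = 0 := by
  have hP : P ≠ 0 := by
    rintro rfl
    simp at h
    exact absurd h hδ.ne'
  have hp : 0 < ‖P‖ := norm_pos_iff.2 hP
  obtain ⟨u, hu1, hPu⟩ : ∃ u : E, ‖u‖ = 1 ∧ P = ‖P‖ • u := by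
    refine ⟨(‖P‖)⁻¹ • P, ?_, ?_⟩
    · rw [norm_smul, norm_inv, norm_norm, inv_mul_cancel₀ hp.ne']
    · rw [smul_smul, mul_inv_cancel₀ hp.ne', one_smul]
  have huu : ⟪u, u⟫ = 1 := by rw [real_inner_self_eq_norm_sq, hu1]; norm_num
  obtain ⟨q, hq⟩ : ∃ q : ℝ, q = ⟪u, Q⟫ := ⟨_, rfl⟩
  have hPQ : ⟪P, Q⟫ = ‖P‖ * q := by
    have : ⟪P, Q⟫ = ⟪‖P‖ • u, Q⟫ := by rw [← hPu]
    rw [this, real_inner_smul_left, hq]
  have hQ' : ‖Q - q • u‖ ^ 2 = ‖Q‖ ^ 2 - q ^ 2 := by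
    rw [norm_sub_sq_real, norm_smul, hu1, real_inner_smul_right, real_inner_comm, ← hq,
      Real.norm_eq_abs, mul_one, sq_abs]
    ring
  have hr2 : (‖P‖ * ‖Q - q • u‖) ^ 2 = δ ^ 2 := by
    rw [mul_pow, hQ', h, hPQ]; ring
  have hr3 : ‖P‖ * ‖Q - q • u‖ = δ := by
    have := (sq_eq_sq₀ (by positivity) hδ.le).1 hr2
    exact this
  have hr : 0 < ‖Q - q • u‖ := by
    by_contra hcon
    have : ‖Q - q • u‖ = 0 := le_antisymm (not_lt.1 hcon) (norm_nonneg _)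
    rw [this, mul_zero] at hr3
    exact hδ.ne hr3
  obtain ⟨r, hrdef⟩ : ∃ r : ℝ, r = ‖Q - q • u‖ := ⟨_, rfl⟩
  rw [← hrdef] at hr hr3
  obtain ⟨v, hv⟩ : ∃ v : E, v = r⁻¹ • (Q - q • u) := ⟨_, rfl⟩
  refine ⟨u, v, ‖P‖, q, r, hu1, ?_, ?_, hp, hr, hr3, hPu, ?_, ?_⟩
  · rw [hv, norm_smul, norm_inv, Real.norm_eq_abs, abs_of_pos hr, ← hrdef,
      inv_mul_cancel₀ hr.ne']
  · rw [hv, real_inner_smul_right, inner_sub_right, real_inner_smul_right, huu, ← hq]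
    ring
  · rw [hv, smul_smul, mul_inv_cancel₀ hr.ne', one_smul]; abel
  · intro z hzP hzQ
    have h1 : ⟪z, u⟫ = 0 := by
      rw [hPu, real_inner_smul_right] at hzP
      exact (mul_eq_zero.1 hzP).resolve_left hp.ne'
    refine ⟨h1, ?_⟩
    rw [hv, real_inner_smul_right, inner_sub_right, real_inner_smul_right, hzQ, h1]
    ring

omit [FiniteDimensional ℝ E] [MeasurableSpace E] [BorelSpace E] in
theorem ar_eval (z u v y : E) (a b : ℝ) :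
    ⟪z, a • u + b • v + (y - ⟪u, y⟫ • u - ⟪v, y⟫ • v)⟫ =
      a * ⟪z, u⟫ + b * ⟪z, v⟫ + (⟪z, y⟫ - ⟪u, y⟫ * ⟪z, u⟫ - ⟪v, y⟫ * ⟪z, v⟫) := by
  rw [inner_add_right, inner_add_right, inner_sub_right, inner_sub_right,
    real_inner_smul_right, real_inner_smul_right, real_inner_smul_right, real_inner_smul_right]

theorem ar_meas {n : ℕ} [NeZero n] (e : E) (Z : Fin n → E) (o : Fin n → ℝ) :
    Measurable fun x : E => Finset.univ.inf' Finset.univ_nonempty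
        (fun l : Fin n => o l * ⟪e, x⟫ - ⟪Z l, x⟫) := by
  refine Continuous.measurable ?_
  exact Continuous.finset_inf'_apply _ fun l _ => by fun_prop

/-- final integration: `∫ ofReal ((max ⟪v0,y⟫ 0)^3 / κ)` -/
theorem ar_final (v0 : E) (κ : ℝ) (hκ : 0 < κ) :
    ENNReal.ofReal (1 / (2 * Real.pi)) *
      ∫⁻ y, ENNReal.ofReal ((max ⟪v0, y⟫ 0) ^ 3 / κ) ∂(stdGaussian E) =
      ENNReal.ofReal (Real.sqrt (2 / Real.pi) * ‖v0‖ ^ 3 / (2 * Real.pi * κ)) := by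
  have h1 : ∀ y : E, ENNReal.ofReal ((max ⟪v0, y⟫ 0) ^ 3 / κ) =
      ENNReal.ofReal (1 / κ) * ENNReal.ofReal ((max ⟪v0, y⟫ 0) ^ 3) := by
    intro y
    rw [← ENNReal.ofReal_mul (by positivity)]
    congr 1; ring
  rw [lintegral_congr h1, lintegral_const_mul _ (by fun_prop), lintegral_cube,
    ← ENNReal.ofReal_mul (by positivity), ← ENNReal.ofReal_mul (by positivity)]
  congr 1
  field_simp

theorem area3 (e W : E) (V' : Fin 3 → E) (c o : Fin 3 → ℝ) (he : ‖e‖ = 1) (hWe : ⟪W, e⟫ = 0)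
    (hVe : ∀ l, ⟪V' l, e⟫ = 0) (hVW : ∀ l, ⟪V' l, W⟫ = 0) (hs : ∑ l, V' l = 0)
    (hc : (∑ l, c l) • W = -W) (χ : ℝ) (hχ : 0 < χ)
    (hχ2 : χ ^ 2 = ‖V' 0‖ ^ 2 * ‖V' 1‖ ^ 2 - ⟪V' 0, V' 1⟫ ^ 2) :
    ∫⁻ x, ENNReal.ofReal (Finset.univ.inf' Finset.univ_nonempty
        (fun l : Fin 3 => o l * ⟪e, x⟫ - ⟪V' l + c l • W, x⟫)) ∂(stdGaussian E) ≤
      ENNReal.ofReal (Real.sqrt (2 / Real.pi) *
        (Real.sqrt ((∑ l, o l) ^ 2 + ‖W‖ ^ 2)) ^ 3 / (36 * Real.pi * χ)) := by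
  obtain ⟨u, v, p, q, r, hu, hv, huv, hp, hr, hpr, hP, hQ, horth⟩ := ar_gs (V' 0) (V' 1) χ hχ hχ2
  have hvu : ⟪v, u⟫ = 0 := by rw [real_inner_comm]; exact huv
  have huu : ⟪u, u⟫ = 1 := by rw [real_inner_self_eq_norm_sq, hu]; norm_num
  have hvv : ⟪v, v⟫ = 1 := by rw [real_inner_self_eq_norm_sq, hv]; norm_num
  obtain ⟨heu, hev⟩ := horth e (by rw [real_inner_comm]; exact hVe 0)
    (by rw [real_inner_comm]; exact hVe 1)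
  obtain ⟨hWu, hWv⟩ := horth W (by rw [real_inner_comm]; exact hVW 0)
    (by rw [real_inner_comm]; exact hVW 1)
  set v0 : E := (∑ l, o l) • e + W with hv0
  have hv0n : ‖v0‖ = Real.sqrt ((∑ l, o l) ^ 2 + ‖W‖ ^ 2) := by
    rw [eq_comm, Real.sqrt_eq_iff_mul_self_eq (by positivity) (norm_nonneg _), ← pow_two, hv0,
      norm_add_sq_real, norm_smul, he, real_inner_smul_left, real_inner_comm, hWe,
      Real.norm_eq_abs, mul_one, sq_abs]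
    ring
  have hf := (ar_meas e (fun l => V' l + c l • W) o).ennreal_ofReal
  refine (lintegral_le_plane u v hu hv huv hf).trans ?_
  have hin : ∀ y : E, (∫⁻ a : ℝ, ∫⁻ b : ℝ, ENNReal.ofReal (Finset.univ.inf' Finset.univ_nonempty
        (fun l : Fin 3 => o l * ⟪e, a • u + b • v + (y - ⟪u, y⟫ • u - ⟪v, y⟫ • v)⟫ -
          ⟪V' l + c l • W, a • u + b • v + (y - ⟪u, y⟫ • u - ⟪v, y⟫ • v)⟫))) ≤
      ENNReal.ofReal ((max ⟪v0, y⟫ 0) ^ 3 / (18 * (p * r))) := by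
    intro y
    have hsum : ⟪v0, y⟫ = (o 0 * ⟪e, y⟫ - c 0 * ⟪W, y⟫) + (o 1 * ⟪e, y⟫ - c 1 * ⟪W, y⟫) +
        (o 2 * ⟪e, y⟫ - c 2 * ⟪W, y⟫) := by
      have h1 : ⟪(∑ l, c l) • W, y⟫ = -⟪W, y⟫ := by rw [hc, inner_neg_left]
      rw [real_inner_smul_left, Fin.sum_univ_three] at h1
      rw [hv0, inner_add_left, real_inner_smul_left, Fin.sum_univ_three]
      linarith
    rw [hsum]
    refine le_trans (lintegral_mono fun a => lintegral_mono fun b => ?_)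
      (tri3 p q r _ _ _ hp hr)
    apply ENNReal.ofReal_le_ofReal
    set x : E := a • u + b • v + (y - ⟪u, y⟫ • u - ⟪v, y⟫ • v) with hx
    have xe : ⟪e, x⟫ = ⟪e, y⟫ := by rw [hx, ar_eval, heu, hev]; ring
    have xW : ⟪W, x⟫ = ⟪W, y⟫ := by rw [hx, ar_eval, hWu, hWv]; ring
    have xu : ⟪u, x⟫ = a := by rw [hx, ar_eval, huu, huv]; ring
    have xv : ⟪v, x⟫ = b := by rw [hx, ar_eval, hvv, hvu]; ring
    have x0 : ⟪V' 0, x⟫ = p * a := by rw [hP, real_inner_smul_left, xu]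
    have x1 : ⟪V' 1, x⟫ = q * a + r * b := by
      rw [hQ, inner_add_left, real_inner_smul_left, real_inner_smul_left, xu, xv]
    have x2 : ⟪V' 2, x⟫ = -(p * a) - (q * a + r * b) := by
      have h2 : ⟪∑ l, V' l, x⟫ = 0 := by rw [hs, inner_zero_left]
      rw [Fin.sum_univ_three, inner_add_left, inner_add_left, x0, x1] at h2
      linarith
    have key : ∀ l : Fin 3, Finset.univ.inf' Finset.univ_nonempty
        (fun l : Fin 3 => o l * ⟪e, x⟫ - ⟪V' l + c l • W, x⟫) ≤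
        (o l * ⟪e, y⟫ - c l * ⟪W, y⟫) - ⟪V' l, x⟫ := by
      intro l
      refine (Finset.inf'_le _ (Finset.mem_univ l)).trans (le_of_eq ?_)
      rw [inner_add_left, real_inner_smul_left, xe, xW]; ring
    refine le_min ((key 0).trans (le_of_eq ?_)) (le_min ((key 1).trans (le_of_eq ?_))
      ((key 2).trans (le_of_eq ?_)))
    · rw [x0]
    · rw [x1]
    · rw [x2]; ring
  refine (mul_le_mul_right (lintegral_mono hin) _).trans (le_of_eq ?_)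
  rw [ar_final v0 _ (by positivity), hv0n, hpr]
  congr 1
  have : 2 * Real.pi * (18 * χ) = 36 * Real.pi * χ := by ring
  rw [this]

/-- common part of the four cell cases: coordinates adapted to the plane. -/
theorem ar_four (e W : E) (V' : Fin 4 → E) (hWe : ⟪W, e⟫ = 0)
    (hVe : ∀ l, ⟪V' l, e⟫ = 0) (hVW : ∀ l, ⟪V' l, W⟫ = 0) (hs : ∑ l, V' l = 0)
    (δ : ℝ) (hδ : 0 < δ)
    (hδ2 : δ ^ 2 = ‖V' 0 + V' 1‖ ^ 2 * ‖V' 0 + V' 2‖ ^ 2 - ⟪V' 0 + V' 1, V' 0 + V' 2⟫ ^ 2)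
    (hmax : ‖V' 0 + V' 1‖ ^ 2 * ‖V' 0 + V' 3‖ ^ 2 - ⟪V' 0 + V' 1, V' 0 + V' 3⟫ ^ 2 ≤ δ ^ 2) :
    ∃ (u v : E) (p q r l μ : ℝ), ‖u‖ = 1 ∧ ‖v‖ = 1 ∧ ⟪u, v⟫ = 0 ∧ 0 < p ∧ 0 < r ∧ p * r = δ ∧
      |μ| ≤ 1 ∧ ∀ y : E, ∃ ρ : ℝ, ∀ a b : ℝ, ∀ x : E,
        x = a • u + b • v + (y - ⟪u, y⟫ • u - ⟪v, y⟫ • v) →
        ⟪e, x⟫ = ⟪e, y⟫ ∧ ⟪W, x⟫ = ⟪W, y⟫ ∧
        ⟪V' 0, x⟫ = ((p * a) + (q * a + r * b) + (l * (p * a) + μ * (q * a + r * b) + ρ)) / 2 ∧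
        ⟪V' 1, x⟫ = ((p * a) - (q * a + r * b) - (l * (p * a) + μ * (q * a + r * b) + ρ)) / 2 ∧
        ⟪V' 2, x⟫ = ((q * a + r * b) - (p * a) - (l * (p * a) + μ * (q * a + r * b) + ρ)) / 2 ∧
        ⟪V' 3, x⟫ = ((l * (p * a) + μ * (q * a + r * b) + ρ) - (p * a) - (q * a + r * b)) / 2 := by
  have _ := hWe
  obtain ⟨u, v, p, q, r, hu, hv, huv, hp, hr, hpr, hP, hQ, horth⟩ :=
    ar_gs (V' 0 + V' 1) (V' 0 + V' 2) δ hδ hδ2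
  have hvu : ⟪v, u⟫ = 0 := by rw [real_inner_comm]; exact huv
  have huu : ⟪u, u⟫ = 1 := by rw [real_inner_self_eq_norm_sq, hu]; norm_num
  have hvv : ⟪v, v⟫ = 1 := by rw [real_inner_self_eq_norm_sq, hv]; norm_num
  obtain ⟨heu, hev⟩ := horth e
    (by rw [real_inner_comm, inner_add_left, hVe, hVe, add_zero])
    (by rw [real_inner_comm, inner_add_left, hVe, hVe, add_zero])
  obtain ⟨hWu, hWv⟩ := horth W
    (by rw [real_inner_comm, inner_add_left, hVW, hVW, add_zero])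
    (by rw [real_inner_comm, inner_add_left, hVW, hVW, add_zero])
  obtain ⟨R, hR⟩ : ∃ R : E, R = V' 0 + V' 3 := ⟨_, rfl⟩
  obtain ⟨A, hA⟩ : ∃ A : ℝ, A = ⟪R, u⟫ := ⟨_, rfl⟩
  obtain ⟨B, hB⟩ : ∃ B : ℝ, B = ⟪R, v⟫ := ⟨_, rfl⟩
  refine ⟨u, v, p, q, r, (A - B / r * q) / p, B / r, hu, hv, huv, hp, hr, hpr, ?_, fun y =>
    ⟨⟪R, y⟫ - ⟪u, y⟫ * A - ⟪v, y⟫ * B, fun a b x hx => ?_⟩⟩
  · -- `|μ| ≤ 1`
    have h1 : A ^ 2 + B ^ 2 ≤ ‖R‖ ^ 2 := by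
      have h2 : 0 ≤ ‖R - A • u - B • v‖ ^ 2 := sq_nonneg _
      have h3 : ‖R - A • u - B • v‖ ^ 2 = ‖R‖ ^ 2 - A ^ 2 - B ^ 2 := by
        rw [← real_inner_self_eq_norm_sq, ← real_inner_self_eq_norm_sq]
        have e1 : ⟪u, R⟫ = A := by rw [real_inner_comm, hA]
        have e2 : ⟪v, R⟫ = B := by rw [real_inner_comm, hB]
        simp only [inner_sub_left, inner_sub_right, real_inner_smul_left, real_inner_smul_right,
          huu, hvv, huv, hvu, e1, e2, ← hA, ← hB]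
        ring
      linarith
    have hPn : ‖V' 0 + V' 1‖ ^ 2 = p ^ 2 := by
      rw [hP, norm_smul, hu, Real.norm_eq_abs, mul_one, sq_abs]
    have hPR : ⟪V' 0 + V' 1, V' 0 + V' 3⟫ = p * A := by
      rw [hP, real_inner_smul_left, ← hR, real_inner_comm, ← hA]
    rw [hPn, hPR, ← hR, ← hpr] at hmax
    have h2 : p ^ 2 * B ^ 2 ≤ p ^ 2 * r ^ 2 := by
      have : p ^ 2 * (A ^ 2 + B ^ 2) ≤ p ^ 2 * ‖R‖ ^ 2 :=
        mul_le_mul_of_nonneg_left h1 (sq_nonneg p)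
      nlinarith
    have h3 : B ^ 2 ≤ r ^ 2 := le_of_mul_le_mul_left h2 (by positivity)
    have h4 : |B| ≤ r := abs_le_of_sq_le_sq h3 hr.le
    rw [abs_div, abs_of_pos hr, div_le_one hr]
    exact h4
  · have xe : ⟪e, x⟫ = ⟪e, y⟫ := by rw [hx, ar_eval, heu, hev]; ring
    have xW : ⟪W, x⟫ = ⟪W, y⟫ := by rw [hx, ar_eval, hWu, hWv]; ring
    have xu : ⟪u, x⟫ = a := by rw [hx, ar_eval, huu, huv]; ring
    have xv : ⟪v, x⟫ = b := by rw [hx, ar_eval, hvv, hvu]; ring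
    have xR : ⟪R, x⟫ = a * A + b * B + (⟪R, y⟫ - ⟪u, y⟫ * A - ⟪v, y⟫ * B) := by
      rw [hx, ar_eval, ← hA, ← hB]
    have xP : ⟪V' 0, x⟫ + ⟪V' 1, x⟫ = p * a := by
      rw [← inner_add_left, hP, real_inner_smul_left, xu]
    have xQ : ⟪V' 0, x⟫ + ⟪V' 2, x⟫ = q * a + r * b := by
      rw [← inner_add_left, hQ, inner_add_left, real_inner_smul_left, real_inner_smul_left, xu, xv]
    have xR' : ⟪V' 0, x⟫ + ⟪V' 3, x⟫ = (A - B / r * q) / p * (p * a) + B / r * (q * a + r * b) +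
        (⟪R, y⟫ - ⟪u, y⟫ * A - ⟪v, y⟫ * B) := by
      rw [← inner_add_left, ← hR, xR]
      field_simp
      ring
    have xs : ⟪V' 0, x⟫ + ⟪V' 1, x⟫ + ⟪V' 2, x⟫ + ⟪V' 3, x⟫ = 0 := by
      have h2 : ⟪∑ l, V' l, x⟫ = 0 := by rw [hs, inner_zero_left]
      rw [Fin.sum_univ_four, inner_add_left, inner_add_left, inner_add_left] at h2
      exact h2
    exact ⟨xe, xW, by linarith, by linarith, by linarith, by linarith⟩

theorem area4 (e W : E) (V' : Fin 4 → E) (c o : Fin 4 → ℝ) (he : ‖e‖ = 1) (hWe : ⟪W, e⟫ = 0)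
    (hVe : ∀ l, ⟪V' l, e⟫ = 0) (hVW : ∀ l, ⟪V' l, W⟫ = 0) (hs : ∑ l, V' l = 0)
    (hc : (∑ l, c l) • W = -W) (δ : ℝ) (hδ : 0 < δ)
    (hδ2 : δ ^ 2 = ‖V' 0 + V' 1‖ ^ 2 * ‖V' 0 + V' 2‖ ^ 2 - ⟪V' 0 + V' 1, V' 0 + V' 2⟫ ^ 2)
    (hmax : ‖V' 0 + V' 1‖ ^ 2 * ‖V' 0 + V' 3‖ ^ 2 - ⟪V' 0 + V' 1, V' 0 + V' 3⟫ ^ 2 ≤ δ ^ 2) :
    ∫⁻ x, ENNReal.ofReal (Finset.univ.inf' Finset.univ_nonempty
        (fun l : Fin 4 => o l * ⟪e, x⟫ - ⟪V' l + c l • W, x⟫)) ∂(stdGaussian E) ≤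
      ENNReal.ofReal (Real.sqrt (2 / Real.pi) *
        (Real.sqrt ((∑ l, o l) ^ 2 + ‖W‖ ^ 2)) ^ 3 / (48 * Real.pi * δ)) := by
  obtain ⟨u, v, p, q, r, l, μ, hu, hv, huv, hp, hr, hpr, hμ, hy⟩ :=
    ar_four e W V' hWe hVe hVW hs δ hδ hδ2 hmax
  set v0 : E := (∑ l, o l) • e + W with hv0
  have hv0n : ‖v0‖ = Real.sqrt ((∑ l, o l) ^ 2 + ‖W‖ ^ 2) := by
    rw [eq_comm, Real.sqrt_eq_iff_mul_self_eq (by positivity) (norm_nonneg _), ← pow_two, hv0,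
      norm_add_sq_real, norm_smul, he, real_inner_smul_left, real_inner_comm, hWe,
      Real.norm_eq_abs, mul_one, sq_abs]
    ring
  have hf := (ar_meas e (fun l => V' l + c l • W) o).ennreal_ofReal
  refine (lintegral_le_plane u v hu hv huv hf).trans ?_
  have hin : ∀ y : E, (∫⁻ a : ℝ, ∫⁻ b : ℝ, ENNReal.ofReal (Finset.univ.inf' Finset.univ_nonempty
        (fun l : Fin 4 => o l * ⟪e, a • u + b • v + (y - ⟪u, y⟫ • u - ⟪v, y⟫ • v)⟫ -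
          ⟪V' l + c l • W, a • u + b • v + (y - ⟪u, y⟫ • u - ⟪v, y⟫ • v)⟫))) ≤
      ENNReal.ofReal ((max ⟪v0, y⟫ 0) ^ 3 / (24 * (p * r))) := by
    intro y
    obtain ⟨ρ, hρ⟩ := hy y
    have hsum : ⟪v0, y⟫ = (o 0 * ⟪e, y⟫ - c 0 * ⟪W, y⟫) + (o 1 * ⟪e, y⟫ - c 1 * ⟪W, y⟫) +
        (o 2 * ⟪e, y⟫ - c 2 * ⟪W, y⟫) + (o 3 * ⟪e, y⟫ - c 3 * ⟪W, y⟫) := by
      have h1 : ⟪(∑ l, c l) • W, y⟫ = -⟪W, y⟫ := by rw [hc, inner_neg_left]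
      rw [real_inner_smul_left, Fin.sum_univ_four] at h1
      rw [hv0, inner_add_left, real_inner_smul_left, Fin.sum_univ_four]
      linarith
    rw [hsum]
    refine le_trans (lintegral_mono fun a => lintegral_mono fun b => ?_)
      (tri4 p q r l μ ρ _ _ _ _ hp hr hμ)
    apply ENNReal.ofReal_le_ofReal
    obtain ⟨xe, xW, x0, x1, x2, x3⟩ := hρ a b _ rfl
    have key : ∀ l : Fin 4, Finset.univ.inf' Finset.univ_nonempty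
        (fun l : Fin 4 => o l * ⟪e, a • u + b • v + (y - ⟪u, y⟫ • u - ⟪v, y⟫ • v)⟫ -
          ⟪V' l + c l • W, a • u + b • v + (y - ⟪u, y⟫ • u - ⟪v, y⟫ • v)⟫) ≤
        (o l * ⟪e, y⟫ - c l * ⟪W, y⟫) -
          ⟪V' l, a • u + b • v + (y - ⟪u, y⟫ • u - ⟪v, y⟫ • v)⟫ := by
      intro l
      refine (Finset.inf'_le _ (Finset.mem_univ l)).trans (le_of_eq ?_)
      rw [inner_add_left (𝕜 := ℝ), real_inner_smul_left, xe, xW]; ring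
    refine le_min (le_min ((key 0).trans (le_of_eq ?_)) ((key 1).trans (le_of_eq ?_)))
      (le_min ((key 2).trans (le_of_eq ?_)) ((key 3).trans (le_of_eq ?_)))
    · rw [x0]
    · rw [x1]
    · rw [x2]
    · rw [x3]
  refine (mul_le_mul_right (lintegral_mono hin) _).trans (le_of_eq ?_)
  rw [ar_final v0 _ (by positivity), hv0n, hpr]
  congr 1
  have : 2 * Real.pi * (24 * δ) = 48 * Real.pi * δ := by ring
  rw [this]

theorem area4crude (e W : E) (V' : Fin 4 → E) (c o : Fin 4 → ℝ) (o5 : ℝ) (he : ‖e‖ = 1)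
    (hWe : ⟪W, e⟫ = 0)
    (hVe : ∀ l, ⟪V' l, e⟫ = 0) (hVW : ∀ l, ⟪V' l, W⟫ = 0) (hs : ∑ l, V' l = 0)
    (hc : (∑ l, c l) • W = -W) (δ : ℝ) (hδ : 0 < δ)
    (hδ2 : δ ^ 2 = ‖V' 0 + V' 1‖ ^ 2 * ‖V' 0 + V' 2‖ ^ 2 - ⟪V' 0 + V' 1, V' 0 + V' 2⟫ ^ 2)
    (hmax : ‖V' 0 + V' 1‖ ^ 2 * ‖V' 0 + V' 3‖ ^ 2 - ⟪V' 0 + V' 1, V' 0 + V' 3⟫ ^ 2 ≤ δ ^ 2)
    (ho : 0 ≤ (∑ l, o l) + o5) :
    ∫⁻ x, ENNReal.ofReal (min (o5 * ⟪e, x⟫ - ⟪W, x⟫) (Finset.univ.inf' Finset.univ_nonempty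
        (fun l : Fin 4 => o l * ⟪e, x⟫ - ⟪V' l + c l • W, x⟫))) ∂(stdGaussian E) ≤
      ENNReal.ofReal (Real.sqrt (2 / Real.pi) *
        ((∑ l, o l) + o5) ^ 3 / (60 * Real.pi * δ)) := by
  obtain ⟨u, v, p, q, r, l, μ, hu, hv, huv, hp, hr, hpr, hμ, hy⟩ :=
    ar_four e W V' hWe hVe hVW hs δ hδ hδ2 hmax
  set v0 : E := ((∑ l, o l) + o5) • e with hv0
  have hv0n : ‖v0‖ = (∑ l, o l) + o5 := by
    rw [hv0, norm_smul, he, Real.norm_eq_abs, abs_of_nonneg ho, mul_one]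
  have hf : Measurable fun x : E => ENNReal.ofReal (min (o5 * ⟪e, x⟫ - ⟪W, x⟫)
      (Finset.univ.inf' Finset.univ_nonempty
        (fun l : Fin 4 => o l * ⟪e, x⟫ - ⟪V' l + c l • W, x⟫))) := by
    have h1 : Measurable fun x : E => o5 * ⟪e, x⟫ - ⟪W, x⟫ := by fun_prop
    exact (h1.min (ar_meas e (fun l => V' l + c l • W) o)).ennreal_ofReal
  refine (lintegral_le_plane u v hu hv huv hf).trans ?_
  have hin : ∀ y : E, (∫⁻ a : ℝ, ∫⁻ b : ℝ, ENNReal.ofReal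
        (min (o5 * ⟪e, a • u + b • v + (y - ⟪u, y⟫ • u - ⟪v, y⟫ • v)⟫ -
          ⟪W, a • u + b • v + (y - ⟪u, y⟫ • u - ⟪v, y⟫ • v)⟫)
        (Finset.univ.inf' Finset.univ_nonempty
        (fun l : Fin 4 => o l * ⟪e, a • u + b • v + (y - ⟪u, y⟫ • u - ⟪v, y⟫ • v)⟫ -
          ⟪V' l + c l • W, a • u + b • v + (y - ⟪u, y⟫ • u - ⟪v, y⟫ • v)⟫)))) ≤
      ENNReal.ofReal ((max ⟪v0, y⟫ 0) ^ 3 / (30 * (p * r))) := by
    intro y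
    obtain ⟨ρ, hρ⟩ := hy y
    have hsum : ⟪v0, y⟫ = (o 0 * ⟪e, y⟫ - c 0 * ⟪W, y⟫) + (o 1 * ⟪e, y⟫ - c 1 * ⟪W, y⟫) +
        (o 2 * ⟪e, y⟫ - c 2 * ⟪W, y⟫) + (o 3 * ⟪e, y⟫ - c 3 * ⟪W, y⟫) +
        (o5 * ⟪e, y⟫ - ⟪W, y⟫) := by
      have h1 : ⟪(∑ l, c l) • W, y⟫ = -⟪W, y⟫ := by rw [hc, inner_neg_left]
      rw [real_inner_smul_left, Fin.sum_univ_four] at h1
      rw [hv0, real_inner_smul_left, Fin.sum_univ_four]
      linarith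
    rw [hsum]
    refine le_trans (lintegral_mono fun a => lintegral_mono fun b => ?_)
      (tri4crude p q r l μ ρ _ _ _ _ _ hp hr hμ)
    apply ENNReal.ofReal_le_ofReal
    obtain ⟨xe, xW, x0, x1, x2, x3⟩ := hρ a b _ rfl
    have key : ∀ l : Fin 4, Finset.univ.inf' Finset.univ_nonempty
        (fun l : Fin 4 => o l * ⟪e, a • u + b • v + (y - ⟪u, y⟫ • u - ⟪v, y⟫ • v)⟫ -
          ⟪V' l + c l • W, a • u + b • v + (y - ⟪u, y⟫ • u - ⟪v, y⟫ • v)⟫) ≤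
        (o l * ⟪e, y⟫ - c l * ⟪W, y⟫) -
          ⟪V' l, a • u + b • v + (y - ⟪u, y⟫ • u - ⟪v, y⟫ • v)⟫ := by
      intro l
      refine (Finset.inf'_le _ (Finset.mem_univ l)).trans (le_of_eq ?_)
      rw [inner_add_left (𝕜 := ℝ), real_inner_smul_left, xe, xW]; ring
    refine min_le_min (le_of_eq ?_) (le_min (le_min ((key 0).trans (le_of_eq ?_))
      ((key 1).trans (le_of_eq ?_)))
      (le_min ((key 2).trans (le_of_eq ?_)) ((key 3).trans (le_of_eq ?_))))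
    · rw [xe, xW]
    · rw [x0]
    · rw [x1]
    · rw [x2]
    · rw [x3]
  refine (mul_le_mul_right (lintegral_mono hin) _).trans (le_of_eq ?_)
  rw [ar_final v0 _ (by positivity), hv0n, hpr]
  congr 1
  have : 2 * Real.pi * (30 * δ) = 60 * Real.pi * δ := by ring
  rw [this]

end P226
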