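import Vale.Agent.P226_h16.Defs16
import Vale.Agent.P226_h5.Split

/-! P226 module CELLS: the cells of an optimal partition are cones up to null sets. -/

open MeasureTheory ProbabilityTheory Set
open scoped RealInnerProductSpace ENNReal

namespace P226

variable {E : Type*} [NormedAddCommGroup E] [InnerProductSpace ℝ E] [FiniteDimensional ℝ E]
  [MeasurableSpace E] [BorelSpace E]

theorem opt_cone (k : ℕ) (w : Fin k → E) (A : Fin k → Set E) (hA : IsPart A)
    (hmax : ∀ i, ∀ x ∈ A i, ∀ j, ⟪w j, x⟫ ≤ ⟪w i, x⟫) (hinj : Function.Injective w) (i : Fin k) :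
    ∃ A' : Set E, MeasurableSet A' ∧ IsCone A' ∧ mom A' = mom (A i) ∧
      (stdGaussian E).real A' = (stdGaussian E).real (A i) := by
  have hae : ({x : E | ∀ j, ⟪w j, x⟫ ≤ ⟪w i, x⟫} : Set E) =ᵐ[stdGaussian E] A i := by
    have hsub : A i ⊆ {x : E | ∀ j, ⟪w j, x⟫ ≤ ⟪w i, x⟫} := fun x hx => hmax i x hx
    have hnull : stdGaussian E ({x : E | ∀ j, ⟪w j, x⟫ ≤ ⟪w i, x⟫} \ A i) = 0 := by
      have hcov : {x : E | ∀ j, ⟪w j, x⟫ ≤ ⟪w i, x⟫} \ A i ⊆
          ⋃ j : {j : Fin k // j ≠ i}, {x : E | ⟪w i - w j.1, x⟫ = 0} := by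
        rintro x ⟨hx, hxi⟩
        have hxu : x ∈ ⋃ j, A j := by rw [hA.cover]; exact mem_univ x
        obtain ⟨j, hj⟩ := mem_iUnion.1 hxu
        have hji : j ≠ i := by
          rintro rfl
          exact hxi hj
        refine mem_iUnion.2 ⟨⟨j, hji⟩, ?_⟩
        have h1 : (⟪w i, x⟫ : ℝ) ≤ ⟪w j, x⟫ := hmax j x hj i
        have h2 : (⟪w j, x⟫ : ℝ) ≤ ⟪w i, x⟫ := hx j
        show (⟪w i - w j, x⟫ : ℝ) = 0
        rw [inner_sub_left]
        linarith
      refine measure_mono_null hcov (measure_iUnion_null fun j => ?_)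
      refine stdGaussian_hyperplane _ (sub_ne_zero.2 fun h => j.2 (hinj h).symm) 0
    have h1 : A i ≤ᵐ[stdGaussian E] {x : E | ∀ j, ⟪w j, x⟫ ≤ ⟪w i, x⟫} :=
      hsub.eventuallyLE
    have h2 : ({x : E | ∀ j, ⟪w j, x⟫ ≤ ⟪w i, x⟫} : Set E) ≤ᵐ[stdGaussian E] A i :=
      ae_le_set.2 hnull
    exact h2.antisymm h1
  refine ⟨{x : E | ∀ j, ⟪w j, x⟫ ≤ ⟪w i, x⟫}, ?_, ?_, ?_, ?_⟩
  · have : {x : E | ∀ j, ⟪w j, x⟫ ≤ ⟪w i, x⟫} = ⋂ j, {x : E | ⟪w j, x⟫ ≤ ⟪w i, x⟫} := by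
      ext x; simp
    rw [this]
    exact MeasurableSet.iInter fun j =>
      (isClosed_le (by fun_prop) (by fun_prop)).measurableSet
  · intro x hx r hr j
    have := hx j
    rw [real_inner_smul_right, real_inner_smul_right]
    exact mul_le_mul_of_nonneg_left this hr.le
  · unfold mom
    exact setIntegral_congr_set hae
  · exact measureReal_congr hae

theorem sum_real_part (k : ℕ) (A : Fin k → Set E) (hA : IsPart A) :
    ∑ i, (stdGaussian E).real (A i) = 1 := by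
  rw [← measureReal_iUnion_fintype hA.disj hA.meas, hA.cover, probReal_univ]

end P226
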