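import Vale.Agent.P226_h16.ConeScale

/-! Module CONE: moment and measure of circular cones. -/

open MeasureTheory ProbabilityTheory Set Module Filter
open scoped RealInnerProductSpace ENNReal NNReal Topology

namespace P226

variable {E : Type*} [NormedAddCommGroup E] [InnerProductSpace ℝ E] [FiniteDimensional ℝ E]
  [MeasurableSpace E] [BorelSpace E]

/-- projection orthogonal to `e` -/
noncomputable def PP (e y : E) : E := y - ⟪e, y⟫ • e

omit [FiniteDimensional ℝ E] [MeasurableSpace E] [BorelSpace E] in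
lemma continuous_PP (e : E) : Continuous (PP e) := by
  unfold PP
  fun_prop

omit [FiniteDimensional ℝ E] [MeasurableSpace E] [BorelSpace E] in
lemma inner_split (e : E) (he : ‖e‖ = 1) (u : ℝ) (y : E) :
    ⟪e, u • e + (y - ⟪e, y⟫ • e)⟫ = u := by
  rw [inner_add_right, inner_sub_right, real_inner_smul_right, real_inner_smul_right,
    real_inner_self_eq_norm_sq, he]
  ring

omit [FiniteDimensional ℝ E] [MeasurableSpace E] [BorelSpace E] in
lemma PP_split (e : E) (he : ‖e‖ = 1) (u : ℝ) (y : E) :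
    PP e (u • e + (y - ⟪e, y⟫ • e)) = PP e y := by
  unfold PP
  rw [inner_split e he]
  abel

omit [FiniteDimensional ℝ E] [MeasurableSpace E] [BorelSpace E] in
lemma norm_split (e : E) (he : ‖e‖ = 1) (u : ℝ) (y : E) :
    ‖u • e + (y - ⟪e, y⟫ • e)‖ ^ 2 = u ^ 2 + ‖PP e y‖ ^ 2 := by
  have h1 : ⟪u • e, y - ⟪e, y⟫ • e⟫ = 0 := by
    rw [real_inner_smul_left, inner_sub_right, real_inner_smul_right, real_inner_self_eq_norm_sq,
      he]
    ring
  rw [norm_add_sq_real, h1, norm_smul, he]
  simp [PP]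

omit [FiniteDimensional ℝ E] [MeasurableSpace E] [BorelSpace E] in
lemma PP_smul (e : E) (r : ℝ) (y : E) : PP e (r • y) = r • PP e y := by
  unfold PP
  rw [real_inner_smul_right, smul_sub, smul_smul]

omit [FiniteDimensional ℝ E] [MeasurableSpace E] [BorelSpace E] in
lemma norm_PP_le (e : E) (he : ‖e‖ = 1) (y : E) : ‖PP e y‖ ≤ ‖y‖ := by
  have h : ‖y‖ ^ 2 = ⟪e, y⟫ ^ 2 + ‖PP e y‖ ^ 2 := by
    have := norm_split e he ⟪e, y⟫ y
    rw [show ⟪e, y⟫ • e + (y - ⟪e, y⟫ • e) = y by abel] at this
    exact this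
  have h2 : ‖PP e y‖ ^ 2 ≤ ‖y‖ ^ 2 := by
    rw [h]
    have := sq_nonneg (⟪e, y⟫ : ℝ)
    linarith
  exact (sq_le_sq₀ (norm_nonneg _) (norm_nonneg _)).1 h2

lemma integrable_norm_std : Integrable (fun y : E => ‖y‖) (stdGaussian E) :=
  (IsGaussian.integrable_id (μ := stdGaussian E)).norm

lemma integral_exp_phi (c : ℝ) : ∫ u : ℝ, Real.exp (-c ^ 2 * u ^ 2 / 2) * phi u = sc c := by
  have h1 : ∀ u : ℝ, Real.exp (-c ^ 2 * u ^ 2 / 2) * phi u
      = sc c * gaussianPDFReal 0 (scv c) u := by
    intro u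
    rw [phi_eq_gaussianPDFReal, mul_comm, pdf_scale]
  simp_rw [h1]
  rw [integral_const_mul, integral_gaussianPDFReal_eq_one, mul_one]
  intro h
  have h1 := scv_coe c
  rw [h] at h1
  have hs := sc_pos c
  have h2 : 0 < sc c ^ 2 := by positivity
  rw [← h1] at h2
  exact lt_irrefl _ h2

/-- scaling orthogonally to `e` -/
theorem perp_scale (e : E) (he : ‖e‖ = 1) (c : ℝ) {h : E → ℝ} (hm : Measurable h)
    (hi : Integrable (fun y => h (PP e y)) (stdGaussian E)) :
    sc c * ∫ y, h (PP e y) * Real.exp (-c ^ 2 * ‖PP e y‖ ^ 2 / 2) ∂(stdGaussian E)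
      = sc c ^ (finrank ℝ E) * ∫ y, h (sc c • PP e y) ∂(stdGaussian E) := by
  have hPm : Measurable (fun y => PP e y) := (continuous_PP e).measurable
  have h1 := gauss_scale (E := E) c (f := fun y => h (PP e y)) (hm.comp hPm)
  simp only [PP_smul] at h1
  rw [← h1]
  have hexp : ∀ y : E, ‖Real.exp (-c ^ 2 * ‖y‖ ^ 2 / 2)‖ ≤ 1 := by
    intro y
    rw [Real.norm_eq_abs, abs_of_pos (Real.exp_pos _), Real.exp_le_one_iff]
    have := mul_nonneg (sq_nonneg c) (sq_nonneg ‖y‖)
    nlinarith
  have hi2 : Integrable (fun y => h (PP e y) * Real.exp (-c ^ 2 * ‖y‖ ^ 2 / 2))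
      (stdGaussian E) := by
    refine hi.mul_bdd (c := 1) (by fun_prop) (Filter.Eventually.of_forall hexp)
  rw [integral_split e he hi2, ← integral_const_mul]
  apply integral_congr_ae
  refine Filter.Eventually.of_forall fun y => ?_
  simp only
  rw [← integral_exp_phi c, ← integral_mul_const]
  apply integral_congr_ae
  refine Filter.Eventually.of_forall fun u => ?_
  simp only
  rw [PP_split e he, norm_split e he]
  have : Real.exp (-c ^ 2 * (u ^ 2 + ‖PP e y‖ ^ 2) / 2)
      = Real.exp (-c ^ 2 * u ^ 2 / 2) * Real.exp (-c ^ 2 * ‖PP e y‖ ^ 2 / 2) := by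
    rw [← Real.exp_add]
    congr 1
    ring
  rw [this]
  ring

lemma phi_mul_eq (c r : ℝ) : phi (c * r) = phi 0 * Real.exp (-c ^ 2 * r ^ 2 / 2) := by
  unfold phi
  rw [mul_assoc, ← Real.exp_add]
  congr 2
  ring

lemma perp_one (e : E) (he : ‖e‖ = 1) (c : ℝ) :
    sc c * ∫ y, phi (c * ‖PP e y‖) ∂(stdGaussian E) = phi 0 * sc c ^ (finrank ℝ E) := by
  have h := perp_scale e he c (h := fun _ => 1) measurable_const (integrable_const _)
  simp only [one_mul, integral_const, smul_eq_mul, mul_one] at h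
  simp_rw [phi_mul_eq]
  rw [integral_const_mul]
  have h2 : (stdGaussian E).real univ = 1 := by simp
  rw [h2] at h
  calc sc c * (phi 0 * ∫ y, Real.exp (-c ^ 2 * ‖PP e y‖ ^ 2 / 2) ∂(stdGaussian E))
      = phi 0 * (sc c * ∫ y, Real.exp (-c ^ 2 * ‖PP e y‖ ^ 2 / 2) ∂(stdGaussian E)) := by ring
    _ = _ := by rw [h]; ring

lemma perp_norm (e : E) (he : ‖e‖ = 1) (c : ℝ) :
    ∫ y, ‖PP e y‖ * phi (c * ‖PP e y‖) ∂(stdGaussian E)
      = (phi 0 * ∫ y, ‖PP e y‖ ∂(stdGaussian E)) * sc c ^ (finrank ℝ E) := by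
  have hi : Integrable (fun y => ‖PP e y‖) (stdGaussian E) := by
    refine Integrable.mono' integrable_norm_std (by
      exact (continuous_PP e).norm.aestronglyMeasurable) (Filter.Eventually.of_forall fun y => ?_)
    rw [norm_norm]
    exact norm_PP_le e he y
  have h := perp_scale e he c (h := fun y => ‖y‖) measurable_norm hi
  have hs := sc_pos c
  have h1 : ∀ y : E, ‖sc c • PP e y‖ = sc c * ‖PP e y‖ := by
    intro y
    rw [norm_smul, Real.norm_eq_abs, abs_of_pos hs]
  simp_rw [h1] at h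
  rw [integral_const_mul] at h
  have h2 : ∀ y : E, ‖PP e y‖ * phi (c * ‖PP e y‖)
      = phi 0 * (‖PP e y‖ * Real.exp (-c ^ 2 * ‖PP e y‖ ^ 2 / 2)) := by
    intro y
    rw [phi_mul_eq]
    ring
  simp_rw [h2]
  rw [integral_const_mul]
  have h3 : ∫ y, ‖PP e y‖ * Real.exp (-c ^ 2 * ‖PP e y‖ ^ 2 / 2) ∂(stdGaussian E)
      = sc c ^ (finrank ℝ E) * ∫ y, ‖PP e y‖ ∂(stdGaussian E) := by
    apply mul_left_cancel₀ hs.ne'
    rw [h]
    ring
  rw [h3]
  ring

/-! ### the cone -/

omit [FiniteDimensional ℝ E] [MeasurableSpace E] [BorelSpace E] in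
lemma mem_CC_split (e : E) (he : ‖e‖ = 1) (c u : ℝ) (y : E) :
    u • e + (y - ⟪e, y⟫ • e) ∈ CC e c ↔ c * ‖PP e y‖ ≤ u := by
  have h := PP_split e he u y
  unfold PP at h
  simp only [CC, Set.mem_ofPred_eq]
  rw [h, inner_split e he]
  rfl

/-- moment of the circular cone -/
theorem inner_mom_CC (e : E) (he : ‖e‖ = 1) (c : ℝ) :
    ⟪e, mom (CC e c)⟫ = ∫ y, phi (c * ‖PP e y‖) ∂(stdGaussian E) := by
  have hCm := (isClosed_CC e c).measurableSet
  have hid : Integrable (fun x : E => x) (stdGaussian E) := IsGaussian.integrable_id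
  have hin : Integrable (fun x : E => (⟪e, x⟫ : ℝ)) (stdGaussian E) := hid.const_inner e
  unfold mom
  rw [← integral_inner hid.integrableOn, ← integral_indicator hCm,
    integral_split e he (hin.indicator hCm)]
  apply integral_congr_ae
  refine Filter.Eventually.of_forall fun y => ?_
  simp only
  rw [← integral_Ioi_mul_phi, ← integral_Ici_eq_integral_Ioi, ← integral_indicator measurableSet_Ici]
  apply integral_congr_ae
  refine Filter.Eventually.of_forall fun u => ?_
  simp only
  by_cases h : c * ‖PP e y‖ ≤ u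
  · rw [Set.indicator_of_mem ((mem_CC_split e he c u y).2 h), inner_split e he,
      Set.indicator_of_mem (Set.mem_Ici.2 h)]
  · have hn : u ∉ Ici (c * ‖PP e y‖) := fun h' => h h'
    rw [Set.indicator_of_notMem (fun h' => h ((mem_CC_split e he c u y).1 h')),
      Set.indicator_of_notMem hn, zero_mul]

/-- measure of the circular cone -/
theorem real_CC (e : E) (he : ‖e‖ = 1) (c : ℝ) :
    (stdGaussian E).real (CC e c) = ∫ y, tail (c * ‖PP e y‖) ∂(stdGaussian E) := by
  have hCm := (isClosed_CC e c).measurableSet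
  have hint : Integrable ((CC e c).indicator (fun _ : E => (1 : ℝ))) (stdGaussian E) :=
    (integrable_const (1 : ℝ)).indicator hCm
  have h1 : (stdGaussian E).real (CC e c) = ∫ x, (CC e c).indicator (fun _ : E => (1 : ℝ)) x
      ∂(stdGaussian E) := by
    rw [integral_indicator hCm]
    simp
  rw [h1, integral_split e he hint]
  apply integral_congr_ae
  refine Filter.Eventually.of_forall fun y => ?_
  simp only
  unfold tail
  rw [← integral_Ici_eq_integral_Ioi, ← integral_indicator measurableSet_Ici]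
  apply integral_congr_ae
  refine Filter.Eventually.of_forall fun u => ?_
  simp only
  by_cases h : c * ‖PP e y‖ ≤ u
  · rw [Set.indicator_of_mem ((mem_CC_split e he c u y).2 h),
      Set.indicator_of_mem (Set.mem_Ici.2 h), one_mul]
  · have hn : u ∉ Ici (c * ‖PP e y‖) := fun h' => h h'
    rw [Set.indicator_of_notMem (fun h' => h ((mem_CC_split e he c u y).1 h')),
      Set.indicator_of_notMem hn, zero_mul]

/-- derivative of the measure in `c` -/
theorem hasDerivAt_real_CC (e : E) (he : ‖e‖ = 1) (c : ℝ) :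
    HasDerivAt (fun c => (stdGaussian E).real (CC e c))
      (-(phi 0 * ∫ y, ‖PP e y‖ ∂(stdGaussian E)) * sc c ^ (finrank ℝ E)) c := by
  have hPn : Continuous (fun y => ‖PP e y‖) := (continuous_PP e).norm
  have hi : Integrable (fun y => ‖PP e y‖) (stdGaussian E) := by
    refine Integrable.mono' integrable_norm_std hPn.aestronglyMeasurable
      (Filter.Eventually.of_forall fun y => ?_)
    rw [norm_norm]
    exact norm_PP_le e he y
  have hmain : HasDerivAt (fun c => ∫ y, tail (c * ‖PP e y‖) ∂(stdGaussian E))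
      (∫ y, -(‖PP e y‖ * phi (c * ‖PP e y‖)) ∂(stdGaussian E)) c := by
    refine (hasDerivAt_integral_of_dominated_loc_of_deriv_le (s := univ) Filter.univ_mem
      (bound := fun y => ‖PP e y‖)
      (F := fun c y => tail (c * ‖PP e y‖)) (F' := fun c y => -(‖PP e y‖ * phi (c * ‖PP e y‖)))
      ?_ ?_ ?_ ?_ hi ?_).2
    · refine Filter.Eventually.of_forall fun c' => ?_
      exact (continuous_tail.comp (continuous_const.mul hPn)).aestronglyMeasurable
    · refine Integrable.mono' (integrable_const (1 : ℝ))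
        (continuous_tail.comp (continuous_const.mul hPn)).aestronglyMeasurable
        (Filter.Eventually.of_forall fun y => ?_)
      rw [Real.norm_eq_abs, abs_of_nonneg (tail_nonneg _)]
      exact tail_le_one _
    · exact (hPn.mul (continuous_phi.comp (continuous_const.mul hPn))).neg.aestronglyMeasurable
    · refine Filter.Eventually.of_forall fun y => fun c' _ => ?_
      rw [norm_neg, Real.norm_eq_abs, abs_of_nonneg (mul_nonneg (norm_nonneg _) (phi_nonneg _))]
      calc ‖PP e y‖ * phi (c' * ‖PP e y‖) ≤ ‖PP e y‖ * 1 := by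
            gcongr
            exact phi_le_one _
        _ = ‖PP e y‖ := mul_one _
    · refine Filter.Eventually.of_forall fun y => fun c' _ => ?_
      have h1 := (hasDerivAt_tail (c' * ‖PP e y‖)).comp c'
        ((hasDerivAt_id c').mul_const ‖PP e y‖)
      refine h1.congr_deriv ?_
      ring
  rw [integral_neg, perp_norm e he] at hmain
  have hfun : (fun c => (stdGaussian E).real (CC e c))
      = fun c => ∫ y, tail (c * ‖PP e y‖) ∂(stdGaussian E) := funext fun c => real_CC e he c
  rw [hfun]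
  refine hmain.congr_deriv ?_
  ring

lemma real_CC_zero (e : E) (he : ‖e‖ = 1) : (stdGaussian E).real (CC e 0) = 1 / 2 := by
  rw [real_CC e he]
  simp_rw [zero_mul, tail_zero]
  simp

lemma PP_ne_zero_ae (hd : 2 ≤ finrank ℝ E) (e : E) :
    ∀ᵐ y ∂(stdGaussian E), PP e y ≠ 0 := by
  -- a vector orthogonal to `e`
  obtain ⟨v, hv0, hv⟩ : ∃ v : E, v ≠ 0 ∧ ⟪v, e⟫ = 0 := by
    have h1 : finrank ℝ (Submodule.span ℝ {e}) ≤ 1 := by
      simpa using finrank_span_le_card (R := ℝ) ({e} : Set E)
    have h2 := Submodule.finrank_add_finrank_orthogonal (Submodule.span ℝ {e})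
    have h3 : 0 < finrank ℝ (Submodule.span ℝ {e})ᗮ := by omega
    have h4 : Nontrivial (Submodule.span ℝ {e})ᗮ := Module.finrank_pos_iff.1 h3
    obtain ⟨w, hw⟩ := exists_ne (0 : (Submodule.span ℝ {e})ᗮ)
    refine ⟨w, fun h => hw (Subtype.ext h), ?_⟩
    rw [real_inner_comm]
    exact Submodule.mem_orthogonal_singleton_iff_inner_right.1 w.2
  have h := stdGaussian_hyperplane v hv0 0
  rw [← nonpos_iff_eq_zero] at h
  have h2 : ∀ᵐ y ∂(stdGaussian E), ⟪v, y⟫ ≠ 0 := by
    rw [ae_iff]
    simpa using h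
  filter_upwards [h2] with y hy hP
  apply hy
  have : y = ⟪e, y⟫ • e := by
    have := hP
    unfold PP at this
    exact sub_eq_zero.1 this
  rw [this, real_inner_smul_right, hv, mul_zero]

lemma tendsto_tail_atTop : Tendsto tail atTop (𝓝 0) :=
  tendsto_integral_Ioi_zero tendsto_id

lemma tendsto_real_CC (hd : 2 ≤ finrank ℝ E) (e : E) (he : ‖e‖ = 1) :
    Tendsto (fun c => (stdGaussian E).real (CC e c)) atTop (𝓝 0) := by
  have hPn : Continuous (fun y => ‖PP e y‖) := (continuous_PP e).norm
  have h : Tendsto (fun c => ∫ y, tail (c * ‖PP e y‖) ∂(stdGaussian E)) atTop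
      (𝓝 (∫ _y : E, (0 : ℝ) ∂(stdGaussian E))) := by
    apply tendsto_integral_filter_of_dominated_convergence (bound := fun _ => (1 : ℝ))
    · refine Filter.Eventually.of_forall fun c' => ?_
      exact (continuous_tail.comp (continuous_const.mul hPn)).aestronglyMeasurable
    · refine Filter.Eventually.of_forall fun c' => Filter.Eventually.of_forall fun y => ?_
      rw [Real.norm_eq_abs, abs_of_nonneg (tail_nonneg _)]
      exact tail_le_one _
    · exact integrable_const _
    · filter_upwards [PP_ne_zero_ae hd e] with y hy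
      apply tendsto_tail_atTop.comp
      exact tendsto_id.atTop_mul_const (norm_pos_iff.2 hy)
  rw [integral_zero] at h
  refine h.congr fun c => ?_
  rw [real_CC e he]

/-- closed form from an antiderivative of `(1+c²)^(-d/2)` -/
theorem real_CC_eq (hd : 2 ≤ finrank ℝ E) (e : E) (he : ‖e‖ = 1) (A : ℝ → ℝ)
    (hA : ∀ c, HasDerivAt A (sc c ^ (finrank ℝ E)) c) (hA0 : A 0 = 0) (L : ℝ) (hL0 : 0 < L)
    (hL : Tendsto A atTop (𝓝 L)) (c : ℝ) :
    (stdGaussian E).real (CC e c) = 1 / 2 - A c / (2 * L) := by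
  set K := phi 0 * ∫ y, ‖PP e y‖ ∂(stdGaussian E) with hK
  have hconst : ∀ c, (stdGaussian E).real (CC e c) + K * A c = 1 / 2 := by
    have hder : ∀ c, HasDerivAt (fun c => (stdGaussian E).real (CC e c) + K * A c) 0 c := by
      intro c
      have h := (hasDerivAt_real_CC e he c).add ((hA c).const_mul K)
      refine h.congr_deriv ?_
      ring
    intro c
    have h1 := is_const_of_deriv_eq_zero (fun c => (hder c).differentiableAt)
      (fun c => (hder c).deriv) c 0
    rw [h1, hA0, mul_zero, add_zero, real_CC_zero e he]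
  have hlim : Tendsto (fun c => (stdGaussian E).real (CC e c) + K * A c) atTop
      (𝓝 (0 + K * L)) := (tendsto_real_CC hd e he).add (hL.const_mul K)
  have h2 : K * L = 1 / 2 := by
    have h3 : (fun c => (stdGaussian E).real (CC e c) + K * A c) = fun _ => (1 / 2 : ℝ) :=
      funext hconst
    rw [h3] at hlim
    have := tendsto_nhds_unique hlim tendsto_const_nhds
    linarith
  have h3 : K = 1 / (2 * L) := by
    field_simp
    linarith
  have h4 := hconst c
  rw [h3] at h4
  field_simp at h4 ⊢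
  linarith

end P226
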