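import Vale.Agent.P226_h16.ConeA
import Vale.Agent.P226_h16.ConeB

/-! Module CONE: final statements. -/

open MeasureTheory ProbabilityTheory Set Module Filter
open scoped RealInnerProductSpace ENNReal NNReal Topology

namespace P226

variable {E : Type*} [NormedAddCommGroup E] [InnerProductSpace ℝ E] [FiniteDimensional ℝ E]
  [MeasurableSpace E] [BorelSpace E]

lemma sc_pow_sub_one {d : ℕ} (hd : 1 ≤ d) (c : ℝ) : sc c ^ d = sc c * sc c ^ (d - 1) := by
  obtain ⟨k, rfl⟩ : ∃ k, d = k + 1 := ⟨d - 1, by omega⟩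
  rw [Nat.add_sub_cancel, pow_succ]
  ring

omit [MeasurableSpace E] [BorelSpace E] in
lemma finrank_pos_of_unit (e : E) (he : ‖e‖ = 1) : 1 ≤ finrank ℝ E := by
  have : Nontrivial E := ⟨e, 0, fun h => by rw [h, norm_zero] at he; exact zero_ne_one he⟩
  exact Module.finrank_pos

/-- moment of the circular cone -/
theorem inner_mom_CC' (e : E) (he : ‖e‖ = 1) (c : ℝ) :
    ⟪e, mom (CC e c)⟫ = phi 0 * sc c ^ (finrank ℝ E - 1) := by
  have h := perp_one e he c
  rw [← inner_mom_CC e he, sc_pow_sub_one (finrank_pos_of_unit e he)] at h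
  have hs := sc_pos c
  apply mul_left_cancel₀ hs.ne'
  rw [h]
  ring

theorem cone_inner_le (A : Set E) (hA : MeasurableSet A) (hc : IsCone A) (e : E) (he : ‖e‖ = 1)
    (c : ℝ) (hg : (stdGaussian E).real A = (stdGaussian E).real (CC e c)) :
    ⟪e, mom A⟫ ≤ phi 0 * sc c ^ (finrank ℝ E - 1) :=
  (bathtub A hA hc e he c hg).trans (le_of_eq (inner_mom_CC' e he c))

theorem cone_moment_le (A : Set E) (hA : MeasurableSet A) (hc : IsCone A) (e : E) (he : ‖e‖ = 1)
    (c : ℝ) (hg : (stdGaussian E).real A =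
      (stdGaussian E).real {x : E | c * ‖x - ⟪e, x⟫ • e‖ ≤ ⟪e, x⟫}) :
    ⟪e, mom A⟫ ≤ (Real.sqrt (2 * Real.pi))⁻¹ *
      (1 + c ^ 2) ^ (-((Module.finrank ℝ E : ℝ) - 1) / 2) := by
  refine (cone_inner_le A hA hc e he c hg).trans (le_of_eq ?_)
  have h1 : phi 0 = (Real.sqrt (2 * Real.pi))⁻¹ := by
    unfold phi
    simp
  rw [h1]
  congr 1
  have hd := finrank_pos_of_unit e he
  have hpos : (0 : ℝ) < 1 + c ^ 2 := by positivity
  unfold sc
  rw [Real.sqrt_eq_rpow, ← Real.rpow_neg hpos.le, ← Real.rpow_natCast, ← Real.rpow_mul hpos.le]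
  congr 1
  rw [Nat.cast_sub hd]
  push_cast
  ring

/-- null sets have moment `0`, and so have their complements -/
lemma mom_eq_zero_of_null {A : Set E} (h : (stdGaussian E).real A = 0) : mom A = 0 := by
  have h1 : stdGaussian E A = 0 := by
    rw [measureReal_def, ENNReal.toReal_eq_zero_iff] at h
    exact h.resolve_right (measure_ne_top _ _)
  unfold mom
  rw [Measure.restrict_eq_zero.2 h1, integral_zero_measure]

lemma mom_eq_zero_of_full {A : Set E} (hA : MeasurableSet A) (h : (stdGaussian E).real A = 1) :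
    mom A = 0 := by
  have hid : Integrable (fun x : E => x) (stdGaussian E) := IsGaussian.integrable_id
  have h1 : (stdGaussian E).real Aᶜ = 0 := by
    rw [measureReal_compl hA, h]
    simp
  have h2 := integral_add_compl hA hid
  have h3 : ∫ x in Aᶜ, x ∂(stdGaussian E) = 0 := mom_eq_zero_of_null h1
  rw [h3, add_zero] at h2
  unfold mom
  rw [h2]
  exact integral_id_stdGaussian

omit [BorelSpace E] in
/-- from the directional bound to the norm -/
lemma norm_mom_le (A : Set E) (B : ℝ)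
    (h : ∀ e : E, ‖e‖ = 1 → ⟪e, mom A⟫ ≤ B) : ‖mom A‖ ^ 2 ≤ B ^ 2 := by
  rcases eq_or_ne (mom A) 0 with h0 | h0
  · rw [h0, norm_zero, zero_pow two_ne_zero]
    positivity
  · have hpos : 0 < ‖mom A‖ := norm_pos_iff.2 h0
    have h1 := h (‖mom A‖⁻¹ • mom A) (by
      rw [norm_smul, norm_inv, norm_norm, inv_mul_cancel₀ hpos.ne'])
    rw [real_inner_smul_left, real_inner_self_eq_norm_sq] at h1
    have h2 : ‖mom A‖⁻¹ * ‖mom A‖ ^ 2 = ‖mom A‖ := by
      rw [sq, ← mul_assoc, inv_mul_cancel₀ hpos.ne', one_mul]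
    rw [h2] at h1
    exact pow_le_pow_left₀ hpos.le h1 2

lemma phi_zero_sq : phi 0 ^ 2 = 1 / (2 * Real.pi) := by
  unfold phi
  have : (0 : ℝ) < 2 * Real.pi := by positivity
  rw [mul_pow, inv_pow, Real.sq_sqrt this.le]
  simp

/-- abstract form of `cone3/4/5` -/
lemma cone_bound (A : Set E) (hA : MeasurableSet A) (hc : IsCone A) (c : ℝ)
    (hg : ∀ e : E, ‖e‖ = 1 → (stdGaussian E).real A = (stdGaussian E).real (CC e c)) :
    ‖mom A‖ ^ 2 ≤ (sc c ^ (finrank ℝ E - 1)) ^ 2 / (2 * Real.pi) := by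
  have h := norm_mom_le A (phi 0 * sc c ^ (finrank ℝ E - 1))
    (fun e he => cone_inner_le A hA hc e he c (hg e he))
  refine h.trans (le_of_eq ?_)
  rw [mul_pow, phi_zero_sq]
  ring

/-! ### derivatives -/

lemma hasDerivAt_sc (c : ℝ) : HasDerivAt sc (-c * sc c ^ 3) c := by
  have hpos : (0 : ℝ) < 1 + c ^ 2 := by positivity
  have h1 : HasDerivAt (fun c : ℝ => 1 + c ^ 2) (2 * c) c := by
    have := (hasDerivAt_pow 2 c).const_add 1
    refine this.congr_deriv ?_
    norm_num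
  have h2 := (h1.sqrt hpos.ne').inv (Real.sqrt_pos.2 hpos).ne'
  refine h2.congr_deriv ?_
  unfold sc
  have h3 : Real.sqrt (1 + c ^ 2) ≠ 0 := (Real.sqrt_pos.2 hpos).ne'
  field_simp

lemma hasDerivAt_A3 (c : ℝ) : HasDerivAt (fun c => c * sc c) (sc c ^ 3) c := by
  have h := (hasDerivAt_id c).mul (hasDerivAt_sc c)
  refine h.congr_deriv ?_
  simp only [id]
  have hs := sc_sq_mul c
  have : sc c = sc c * (sc c ^ 2 * (1 + c ^ 2)) := by rw [hs, mul_one]
  nth_rewrite 1 [this]
  ring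

lemma hasDerivAt_A4 (c : ℝ) :
    HasDerivAt (fun c => (c * sc c ^ 2 + Real.arctan c) / 2) (sc c ^ 4) c := by
  have h1 := ((hasDerivAt_id c).mul ((hasDerivAt_sc c).pow 2)).add (Real.hasDerivAt_arctan c)
  have h2 := h1.div_const 2
  refine h2.congr_deriv ?_
  have hs := sc_sq_mul c
  have hs2 : 1 / (1 + c ^ 2) = sc c ^ 2 := by rw [sc_sq, one_div]
  rw [hs2]
  simp only [id, Pi.pow_apply]
  have : sc c ^ 2 = sc c ^ 2 * (sc c ^ 2 * (1 + c ^ 2)) := by rw [hs, mul_one]
  norm_num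
  linear_combination this

lemma hasDerivAt_A5 (c : ℝ) :
    HasDerivAt (fun c => c * sc c - (c * sc c) ^ 3 / 3) (sc c ^ 5) c := by
  have h1 := (hasDerivAt_A3 c).sub (((hasDerivAt_A3 c).pow 3).div_const 3)
  refine h1.congr_deriv ?_
  have hs := sc_sq_mul c
  norm_num
  have : sc c ^ 3 * 1 = sc c ^ 3 * (sc c ^ 2 * (1 + c ^ 2)) := by rw [hs]
  linear_combination this

lemma tendsto_c_sc : Tendsto (fun c => c * sc c) atTop (𝓝 1) := by
  have h1 : Tendsto (fun c : ℝ => Real.sqrt (1 - sc c ^ 2)) atTop (𝓝 1) := by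
    have h2 : Tendsto (fun c : ℝ => sc c ^ 2) atTop (𝓝 0) := by
      have h3 : (fun c : ℝ => sc c ^ 2) = fun c => (1 + c ^ 2)⁻¹ := funext sc_sq
      rw [h3]
      apply Tendsto.inv_tendsto_atTop
      exact tendsto_atTop_add_const_left _ _ (tendsto_pow_atTop two_ne_zero)
    have h4 : Tendsto (fun c : ℝ => Real.sqrt (1 - sc c ^ 2)) atTop (𝓝 (Real.sqrt (1 - 0))) :=
      (Real.continuous_sqrt.tendsto _).comp (tendsto_const_nhds.sub h2)
    simpa using h4
  refine h1.congr' ?_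
  filter_upwards [eventually_ge_atTop (0 : ℝ)] with c hc
  have hs := sc_pos c
  have h2 : 1 - sc c ^ 2 = (c * sc c) ^ 2 := by
    have := sc_sq_mul c
    linear_combination (-1 : ℝ) * this
  rw [h2, Real.sqrt_sq (by positivity)]

lemma tendsto_sc : Tendsto sc atTop (𝓝 0) := by
  unfold sc
  apply Tendsto.inv_tendsto_atTop
  apply Real.tendsto_sqrt_atTop.comp
  exact tendsto_atTop_add_const_left _ _ (tendsto_pow_atTop two_ne_zero)

/-! ### parametrisations -/

lemma sc_of_sin {s k : ℝ} (hs : 0 < s) (h : s ^ 2 + k ^ 2 = 1) : sc (k / s) = s := by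
  unfold sc
  have h1 : 1 + (k / s) ^ 2 = (s⁻¹) ^ 2 := by
    field_simp
    linarith
  rw [h1, Real.sqrt_sq (by positivity), inv_inv]

/-- existence of the parameter `c` for `t ∈ (-1,1)` -/
lemma exists_c_of_t {t : ℝ} (h1 : -1 < t) (h2 : t < 1) :
    ∃ c, c * sc c = t ∧ sc c ^ 2 = 1 - t ^ 2 := by
  have hpos : 0 < 1 - t ^ 2 := by nlinarith
  have hs : 0 < Real.sqrt (1 - t ^ 2) := Real.sqrt_pos.2 hpos
  have hsq := Real.sq_sqrt hpos.le
  have h3 : sc (t / Real.sqrt (1 - t ^ 2)) = Real.sqrt (1 - t ^ 2) :=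
    sc_of_sin hs (by rw [hsq]; ring)
  refine ⟨t / Real.sqrt (1 - t ^ 2), ?_, ?_⟩
  · rw [h3]
    field_simp
  · rw [h3, hsq]

theorem cone3 (hd : Module.finrank ℝ E = 3) (A : Set E) (hA : MeasurableSet A) (hc : IsCone A) :
    ∃ t ∈ Icc (-1 : ℝ) 1, (stdGaussian E).real A = (1 - t) / 2 ∧
      ‖mom A‖ ^ 2 ≤ (1 - t ^ 2) ^ 2 / (2 * Real.pi) := by
  have h0 : 0 ≤ (stdGaussian E).real A := measureReal_nonneg
  have h1 : (stdGaussian E).real A ≤ 1 := measureReal_le_one
  refine ⟨1 - 2 * (stdGaussian E).real A, ⟨by linarith, by linarith⟩, by ring, ?_⟩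
  rcases eq_or_lt_of_le h0 with h | h
  · rw [mom_eq_zero_of_null h.symm, norm_zero, zero_pow two_ne_zero]
    positivity
  rcases eq_or_lt_of_le h1 with h' | h'
  · rw [mom_eq_zero_of_full hA h', norm_zero, zero_pow two_ne_zero]
    positivity
  obtain ⟨c, hc1, hc2⟩ := exists_c_of_t (t := 1 - 2 * (stdGaussian E).real A)
    (by linarith) (by linarith)
  have hb := cone_bound A hA hc c (by
    intro e he
    rw [real_CC_eq (by rw [hd]; norm_num) e he (fun c => c * sc c)
      (by rw [hd]; exact hasDerivAt_A3) (by simp) 1 one_pos tendsto_c_sc, hc1]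
    ring)
  rw [hd, show 3 - 1 = 2 by norm_num, hc2] at hb
  exact hb

theorem cone4 (hd : Module.finrank ℝ E = 4) (A : Set E) (hA : MeasurableSet A) (hc : IsCone A) :
    ∃ α ∈ Icc (0 : ℝ) Real.pi, (stdGaussian E).real A =
        (α - Real.sin α * Real.cos α) / Real.pi ∧
      ‖mom A‖ ^ 2 ≤ Real.sin α ^ 6 / (2 * Real.pi) := by
  have h0 : 0 ≤ (stdGaussian E).real A := measureReal_nonneg
  have h1 : (stdGaussian E).real A ≤ 1 := measureReal_le_one
  have hcont : ContinuousOn (fun α : ℝ => (α - Real.sin α * Real.cos α) / Real.pi)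
      (Icc 0 Real.pi) := by fun_prop
  have hivt := intermediate_value_Icc Real.pi_pos.le hcont
  have hmem : (stdGaussian E).real A ∈ Icc ((fun α : ℝ => (α - Real.sin α * Real.cos α) / Real.pi) 0)
      ((fun α : ℝ => (α - Real.sin α * Real.cos α) / Real.pi) Real.pi) := by
    constructor
    · simp
    · simp [Real.pi_ne_zero]
  obtain ⟨α, hα, hαeq⟩ := hivt hmem
  refine ⟨α, hα, hαeq.symm, ?_⟩
  simp only at hαeq
  rcases eq_or_lt_of_le hα.1 with h | h
  · have h2 : (stdGaussian E).real A = 0 := by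
      rw [← hαeq, ← h]
      simp
    rw [mom_eq_zero_of_null h2, norm_zero, zero_pow two_ne_zero]
    positivity
  rcases eq_or_lt_of_le hα.2 with h' | h'
  · have h2 : (stdGaussian E).real A = 1 := by
      rw [← hαeq, h']
      simp [Real.pi_ne_zero]
    rw [mom_eq_zero_of_full hA h2, norm_zero, zero_pow two_ne_zero]
    positivity
  have hsin : 0 < Real.sin α := Real.sin_pos_of_pos_of_lt_pi h h'
  have hsc : sc (Real.cos α / Real.sin α) = Real.sin α :=
    sc_of_sin hsin (Real.sin_sq_add_cos_sq α)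
  have harc : Real.arctan (Real.cos α / Real.sin α) = Real.pi / 2 - α := by
    have h2 : Real.cos α / Real.sin α = Real.tan (Real.pi / 2 - α) := by
      rw [Real.tan_eq_sin_div_cos, Real.sin_pi_div_two_sub, Real.cos_pi_div_two_sub]
    rw [h2, Real.arctan_tan (by linarith) (by linarith)]
  have hlim : Tendsto (fun c => (c * sc c ^ 2 + Real.arctan c) / 2) atTop (𝓝 (Real.pi / 4)) := by
    have h2 : Tendsto (fun c => (c * sc c) * sc c) atTop (𝓝 (1 * 0)) :=
      tendsto_c_sc.mul tendsto_sc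
    have h3 : Tendsto Real.arctan atTop (𝓝 (Real.pi / 2)) :=
      Real.tendsto_arctan_atTop.mono_right nhdsWithin_le_nhds
    have h4 := (h2.add h3).div_const 2
    have h5 : (1 * 0 + Real.pi / 2) / 2 = Real.pi / 4 := by ring
    rw [h5] at h4
    refine h4.congr fun c => ?_
    ring
  have hb := cone_bound A hA hc (Real.cos α / Real.sin α) (by
    intro e he
    rw [real_CC_eq (by rw [hd]; norm_num) e he (fun c => (c * sc c ^ 2 + Real.arctan c) / 2)
      (by rw [hd]; exact hasDerivAt_A4) (by simp) (Real.pi / 4) (by positivity) hlim]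
    rw [hsc, harc, ← hαeq]
    have hpi := Real.pi_ne_zero
    field_simp
    ring)
  rw [hd, show 4 - 1 = 3 by norm_num, hsc, ← pow_mul] at hb
  exact hb

theorem cone5 (hd : Module.finrank ℝ E = 5) (A : Set E) (hA : MeasurableSet A) (hc : IsCone A) :
    ∃ t ∈ Icc (-1 : ℝ) 1, (stdGaussian E).real A = (2 - 3 * t + t ^ 3) / 4 ∧
      ‖mom A‖ ^ 2 ≤ (1 - t ^ 2) ^ 4 / (2 * Real.pi) := by
  have h0 : 0 ≤ (stdGaussian E).real A := measureReal_nonneg
  have h1 : (stdGaussian E).real A ≤ 1 := measureReal_le_one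
  have hcont : ContinuousOn (fun t : ℝ => (2 - 3 * t + t ^ 3) / 4) (Icc (-1) 1) := by fun_prop
  have hivt := intermediate_value_Icc' (by norm_num : (-1 : ℝ) ≤ 1) hcont
  have hmem : (stdGaussian E).real A ∈ Icc ((fun t : ℝ => (2 - 3 * t + t ^ 3) / 4) 1)
      ((fun t : ℝ => (2 - 3 * t + t ^ 3) / 4) (-1)) := by
    constructor
    · norm_num
    · norm_num
  obtain ⟨t, ht, hteq⟩ := hivt hmem
  refine ⟨t, ht, hteq.symm, ?_⟩
  simp only at hteq
  rcases eq_or_lt_of_le ht.1 with h | h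
  · have h2 : (stdGaussian E).real A = 1 := by
      rw [← hteq, ← h]
      norm_num
    rw [mom_eq_zero_of_full hA h2, norm_zero, zero_pow two_ne_zero]
    positivity
  rcases eq_or_lt_of_le ht.2 with h' | h'
  · have h2 : (stdGaussian E).real A = 0 := by
      rw [← hteq, h']
      norm_num
    rw [mom_eq_zero_of_null h2, norm_zero, zero_pow two_ne_zero]
    positivity
  obtain ⟨c, hc1, hc2⟩ := exists_c_of_t h h'
  have hlim : Tendsto (fun c => c * sc c - (c * sc c) ^ 3 / 3) atTop (𝓝 (2 / 3)) := by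
    have h4 := tendsto_c_sc.sub ((tendsto_c_sc.pow 3).div_const 3)
    have h5 : (1 : ℝ) - 1 ^ 3 / 3 = 2 / 3 := by norm_num
    rw [h5] at h4
    exact h4
  have hb := cone_bound A hA hc c (by
    intro e he
    rw [real_CC_eq (by rw [hd]; norm_num) e he (fun c => c * sc c - (c * sc c) ^ 3 / 3)
      (by rw [hd]; exact hasDerivAt_A5) (by simp) (2 / 3) (by norm_num) hlim]
    rw [hc1, ← hteq]
    ring)
  rw [hd, show 5 - 1 = 2 * 2 by norm_num, pow_mul, hc2, ← pow_mul] at hb
  exact hb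

end P226
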