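import Vale.Agent.P226_h5.Opt
import Vale.Agent.P226_h5.Alg

/-! P226 module DIMRED: reduction to dimension `n` for `n + 1` cells. -/

open MeasureTheory ProbabilityTheory Set
open scoped RealInnerProductSpace

namespace P226

section dimred

variable {E : Type*} [NormedAddCommGroup E] [InnerProductSpace ℝ E] [FiniteDimensional ℝ E]
  [MeasurableSpace E] [BorelSpace E]
  {F : Type*} [NormedAddCommGroup F] [InnerProductSpace ℝ F] [FiniteDimensional ℝ F]
  [MeasurableSpace F] [BorelSpace F]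
  {k : ℕ}

/-- the coordinates `⟪w i, x⟫` as a vector -/
noncomputable def dr_T (w : Fin k → E) (x : E) : EuclideanSpace ℝ (Fin k) :=
  WithLp.toLp 2 (fun i => (⟪w i, x⟫ : ℝ))

omit [FiniteDimensional ℝ E] [MeasurableSpace E] [BorelSpace E] in
theorem dr_T_continuous (w : Fin k → E) : Continuous (dr_T w) := by
  unfold dr_T
  exact (PiLp.continuous_toLp 2 _).comp (continuous_pi fun i => by fun_prop)

omit [FiniteDimensional ℝ E] [MeasurableSpace E] [BorelSpace E] in
theorem dr_T_inner (w : Fin k → E) (x : E) (t : EuclideanSpace ℝ (Fin k)) :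
    (⟪dr_T w x, t⟫ : ℝ) = ⟪x, ∑ i, t i • w i⟫ := by
  rw [PiLp.inner_apply, inner_sum]
  refine Finset.sum_congr rfl fun i _ => ?_
  rw [real_inner_smul_right]
  simp only [dr_T]
  rw [real_inner_comm x (w i)]
  simp [mul_comm]

theorem dr_charFun (w : Fin k → E) (t : EuclideanSpace ℝ (Fin k)) :
    charFun ((stdGaussian E).map (dr_T w)) t =
      Complex.exp (-(‖∑ i, t i • w i‖ : ℂ) ^ 2 / 2) := by
  rw [charFun_apply, integral_map (dr_T_continuous w).measurable.aemeasurable
    (by fun_prop : Measurable _).aestronglyMeasurable]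
  simp_rw [dr_T_inner]
  rw [← charFun_apply, charFun_stdGaussian]

omit [FiniteDimensional ℝ E] [MeasurableSpace E] [BorelSpace E]
  [FiniteDimensional ℝ F] [MeasurableSpace F] [BorelSpace F] in
theorem dr_norm_eq (w : Fin k → E) (w' : Fin k → F)
    (h : ∀ i j, (⟪w i, w j⟫ : ℝ) = ⟪w' i, w' j⟫) (t : Fin k → ℝ) :
    ‖∑ i, t i • w i‖ = ‖∑ i, t i • w' i‖ := by
  have h1 : ‖∑ i, t i • w i‖ ^ 2 = ‖∑ i, t i • w' i‖ ^ 2 := by
    rw [← real_inner_self_eq_norm_sq, ← real_inner_self_eq_norm_sq]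
    simp only [sum_inner, inner_sum, real_inner_smul_left, real_inner_smul_right, h]
  exact (sq_eq_sq₀ (norm_nonneg _) (norm_nonneg _)).1 h1

theorem dr_map_eq (w : Fin k → E) (w' : Fin k → F)
    (h : ∀ i j, (⟪w i, w j⟫ : ℝ) = ⟪w' i, w' j⟫) :
    (stdGaussian E).map (dr_T w) = (stdGaussian F).map (dr_T w') := by
  have : IsProbabilityMeasure ((stdGaussian E).map (dr_T w)) :=
    Measure.isProbabilityMeasure_map (dr_T_continuous w).measurable.aemeasurable
  have : IsProbabilityMeasure ((stdGaussian F).map (dr_T w')) :=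
    Measure.isProbabilityMeasure_map (dr_T_continuous w').measurable.aemeasurable
  apply Measure.ext_of_charFun (E := EuclideanSpace ℝ (Fin k))
  ext t
  rw [dr_charFun, dr_charFun, dr_norm_eq w w' h]

variable [NeZero k]

/-- maximum of the coordinates -/
noncomputable def dr_mx (y : EuclideanSpace ℝ (Fin k)) : ℝ :=
  Finset.univ.sup' Finset.univ_nonempty (fun i => y i)

theorem dr_mx_continuous : Continuous (dr_mx : EuclideanSpace ℝ (Fin k) → ℝ) := by
  unfold dr_mx
  exact Continuous.finset_sup'_apply _ fun l _ => by fun_prop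

omit [FiniteDimensional ℝ E] [MeasurableSpace E] [BorelSpace E] in
theorem dr_mx_T (w : Fin k → E) (x : E) : dr_mx (dr_T w x) = op_mx w x := rfl

theorem dr_Phi_map (w : Fin k → E) :
    op_Phi w = ∫ y, dr_mx y ∂((stdGaussian E).map (dr_T w)) := by
  rw [integral_map (dr_T_continuous w).measurable.aemeasurable
    dr_mx_continuous.aestronglyMeasurable]
  rfl

theorem dr_Phi_eq (w : Fin k → E) (w' : Fin k → F)
    (h : ∀ i j, (⟪w i, w j⟫ : ℝ) = ⟪w' i, w' j⟫) : op_Phi w = op_Phi w' := by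
  rw [dr_Phi_map, dr_Phi_map, dr_map_eq w w' h]

omit [NeZero k]

/-- a space of dimension `≤ n` embeds isometrically in `ℝⁿ` -/
theorem dr_exists_isometry (S : Type*) [NormedAddCommGroup S] [InnerProductSpace ℝ S]
    [FiniteDimensional ℝ S] (n : ℕ) (h : Module.finrank ℝ S ≤ n) :
    Nonempty (S →ₗᵢ[ℝ] EuclideanSpace ℝ (Fin n)) := by
  let b := stdOrthonormalBasis ℝ S
  let e : Fin (Module.finrank ℝ S) → EuclideanSpace ℝ (Fin n) :=
    fun i => EuclideanSpace.single (Fin.castLE h i) (1 : ℝ)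
  have he : Orthonormal ℝ e := by
    have h1 := (EuclideanSpace.basisFun (Fin n) ℝ).orthonormal
    have h2 := h1.comp (Fin.castLE h) (Fin.castLE_injective h)
    have h3 : e = (⇑(EuclideanSpace.basisFun (Fin n) ℝ) ∘ Fin.castLE h) := by
      funext i
      simp [e, EuclideanSpace.basisFun_apply]
    rw [h3]
    exact h2
  let f : S →ₗ[ℝ] EuclideanSpace ℝ (Fin n) := b.toBasis.constr ℝ e
  refine ⟨f.isometryOfOrthonormal (v := b.toBasis) ?_ ?_⟩
  · rw [OrthonormalBasis.coe_toBasis]; exact b.orthonormal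
  · have : (f ∘ b.toBasis) = e := by
      funext i
      simp only [Function.comp, f]
      rw [Module.Basis.constr_basis]
    rw [this]
    exact he

omit [MeasurableSpace E] [BorelSpace E] in
/-- vectors with sum zero have the Gram matrix of vectors in one dimension less -/
theorem dr_exists_gram (n : ℕ) (w : Fin (n + 1) → E) (h0 : ∑ i, w i = 0) :
    ∃ w' : Fin (n + 1) → EuclideanSpace ℝ (Fin n),
      ∀ i j, (⟪w i, w j⟫ : ℝ) = ⟪w' i, w' j⟫ := by
  let S : Submodule ℝ E := Submodule.span ℝ (range fun i : Fin n => w i.succ)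
  have hS : ∀ i, w i ∈ S := by
    intro i
    refine Fin.cases ?_ (fun j => ?_) i
    · have h1 : w 0 = -∑ i : Fin n, w i.succ := by
        rw [Fin.sum_univ_succ] at h0
        exact eq_neg_of_add_eq_zero_left h0
      rw [h1]
      exact S.neg_mem (S.sum_mem fun i _ => Submodule.subset_span ⟨i, rfl⟩)
    · exact Submodule.subset_span ⟨j, rfl⟩
  have hfin : Module.finrank ℝ S ≤ n := by
    have := finrank_range_le_card (R := ℝ) (fun i : Fin n => w i.succ)
    simpa [Set.finrank] using this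
  obtain ⟨L⟩ := dr_exists_isometry S n hfin
  refine ⟨fun i => L ⟨w i, hS i⟩, fun i j => ?_⟩
  rw [L.inner_map_map]
  rfl

end dimred

variable {E : Type*} [NormedAddCommGroup E] [InnerProductSpace ℝ E] [FiniteDimensional ℝ E]
  [MeasurableSpace E] [BorelSpace E]

theorem dim_red (n : ℕ) (c : ℝ)
    (h : ∀ B : Fin (n + 1) → Set (EuclideanSpace ℝ (Fin n)), IsPart B →
      ∑ i, ‖mom (B i)‖ ^ 2 ≤ c)
    (A : Fin (n + 1) → Set E) (hA : IsPart A) : ∑ i, ‖mom (A i)‖ ^ 2 ≤ c := by
  set w : Fin (n + 1) → E := fun i => mom (A i) with hw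
  obtain ⟨w', hw'⟩ := dr_exists_gram n w (sum_w n w A hA fun i => rfl)
  set B := op_cell w' with hB
  have hBp : IsPart B := op_cell_part w'
  set V : ℝ := ∑ i, ‖w i‖ ^ 2 with hV
  set V' : ℝ := ∑ i, ‖mom (B i)‖ ^ 2 with hV'
  have hnorm : ∀ i, ‖w' i‖ ^ 2 = ‖w i‖ ^ 2 := fun i => by
    rw [← real_inner_self_eq_norm_sq, ← real_inner_self_eq_norm_sq, hw']
  have h1 : V ≤ op_Phi w := by
    have := op_le_Phi w hA
    refine le_trans (le_of_eq ?_) this
    exact Finset.sum_congr rfl fun i _ => (real_inner_self_eq_norm_sq _).symm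
  have h2 : op_Phi w = ∑ i, (⟪w' i, mom (B i)⟫ : ℝ) := by
    rw [dr_Phi_eq w w' hw', ← op_eq_Phi]
  have h3 : 2 * ∑ i, (⟪w' i, mom (B i)⟫ : ℝ) ≤ V + V' := by
    rw [hV, hV', ← Finset.sum_add_distrib, Finset.mul_sum]
    refine Finset.sum_le_sum fun i _ => ?_
    have h4 := norm_sub_sq_real (w' i) (mom (B i))
    have h5 := sq_nonneg ‖w' i - mom (B i)‖
    rw [← hnorm i]
    linarith
  have h6 : V ≤ V' := by linarith
  exact h6.trans (h B hBp)

end P226
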