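import Vale.Agent.P226_h16.BBDefs

/-! P226: generic tools for the branch and bound. -/

open Set

namespace P226
namespace BB

/-- evaluation forcing -/
def fc {α : Type} (n : Nat) (f : Nat → α) : α :=
  match n with
  | 0 => f 0
  | k + 1 => f (k + 1)

theorem fc_eq {α : Type} (n : Nat) (f : Nat → α) : fc n f = f n := by
  cases n <;> rfl

theorem seg_lower {s : Set ℝ} {f : ℝ → ℝ} {K A B x : ℝ}
    (hc : ConcaveOn ℝ s (fun x => f x - K / 2 * x ^ 2)) (hA : A ∈ s) (hB : B ∈ s)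
    (hAx : A ≤ x) (hxB : x ≤ B) (hK : 0 ≤ K) :
    min (f A) (f B) - K / 8 * (B - A) ^ 2 ≤ f x := by
  rcases eq_or_lt_of_le (hAx.trans hxB) with hAB | hAB
  · have hx : x = A := by linarith
    subst hx
    rw [hAB]
    have : min (f B) (f B) = f B := min_self _
    rw [this]; nlinarith [sq_nonneg (B - B)]
  · have hBA : 0 < B - A := by linarith
    have h1 : 0 ≤ (B - x) / (B - A) := div_nonneg (by linarith) hBA.le
    have h2 : 0 ≤ (x - A) / (B - A) := div_nonneg (by linarith) hBA.le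
    have h3 : (B - x) / (B - A) + (x - A) / (B - A) = 1 := by field_simp; ring
    have h4 := hc.2 hA hB h1 h2 h3
    have h5 : ((B - x) / (B - A)) • A + ((x - A) / (B - A)) • B = x := by
      simp only [smul_eq_mul]; field_simp; ring
    rw [h5] at h4
    simp only [smul_eq_mul] at h4
    set l := (x - A) / (B - A) with hl
    have hl1 : (B - x) / (B - A) = 1 - l := by linarith
    rw [hl1] at h4 h1
    have hx : x = A + l * (B - A) := by rw [hl]; field_simp; ring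
    have hm : min (f A) (f B) ≤ (1 - l) * f A + l * f B := by
      have e1 : (1 - l) * min (f A) (f B) ≤ (1 - l) * f A := mul_le_mul_of_nonneg_left (min_le_left _ _) h1
      have e2 : l * min (f A) (f B) ≤ l * f B := mul_le_mul_of_nonneg_left (min_le_right _ _) h2
      nlinarith
    have h6 : K / 2 * (((1 - l) * A ^ 2 + l * B ^ 2) - x ^ 2) ≤ K / 8 * (B - A) ^ 2 := by
      have e3 : ((1 - l) * A ^ 2 + l * B ^ 2) - x ^ 2 = l * (1 - l) * (B - A) ^ 2 := by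
        rw [hx]; ring
      rw [e3]
      have e4 : l * (1 - l) ≤ 1 / 4 := by nlinarith [sq_nonneg (l - 1 / 2)]
      have e5 : l * (1 - l) * (B - A) ^ 2 ≤ 1 / 4 * (B - A) ^ 2 :=
        mul_le_mul_of_nonneg_right e4 (sq_nonneg _)
      nlinarith
    nlinarith

theorem in_max {h x y : ℝ} {a b : Nat} (ha : (a : ℝ) * h ≤ x) (hb : (b : ℝ) * h ≤ y)
    (hxy : x ≤ y) : ((max a b : ℕ) : ℝ) * h ≤ y := by
  rcases le_total a b with hab | hab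
  · rw [max_eq_right hab]; exact hb
  · rw [max_eq_left hab]; exact ha.trans hxy

theorem in_min {h x y : ℝ} {a b : Nat} (ha : x ≤ (a : ℝ) * h) (hb : y ≤ (b : ℝ) * h)
    (hxy : x ≤ y) : x ≤ ((min a b : ℕ) : ℝ) * h := by
  rcases le_total a b with hab | hab
  · rw [min_eq_left hab]; exact ha
  · rw [min_eq_right hab]; exact hxy.trans hb

theorem cast_sub_le {A B : Nat} {y : ℝ} (h : (A : ℝ) - (B : ℝ) ≤ y) (hy : 0 ≤ y) :
    ((A - B : ℕ) : ℝ) ≤ y := by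
  rcases le_total B A with hAB | hAB
  · rw [Nat.cast_sub hAB]; exact h
  · rw [Nat.sub_eq_zero_of_le hAB]; simpa using hy

theorem ceil_div_ge (v D : Nat) (hD : 0 < D) : (v : ℝ) / D ≤ (((v + (D - 1)) / D : ℕ) : ℝ) := by
  rw [div_le_iff₀ (by exact_mod_cast hD)]
  have h1 := Nat.div_add_mod (v + (D - 1)) D
  have h2 := Nat.mod_lt (v + (D - 1)) hD
  have h3 : v ≤ ((v + (D - 1)) / D) * D := by
    rw [mul_comm]; omega
  exact_mod_cast h3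

theorem floor_div_le (v D : Nat) (hD : 0 < D) : ((v / D : ℕ) : ℝ) ≤ (v : ℝ) / D := by
  rw [le_div_iff₀ (by exact_mod_cast hD)]
  exact_mod_cast Nat.div_mul_le_self v D

theorem zero_of_sq {R q : ℝ} (h0 : 0 ≤ R) (h1 : R ≤ q) (h2 : q ^ 2 ≤ 0) : R = 0 := by
  have hq : q = 0 := by
    have : q ^ 2 = 0 := le_antisymm h2 (sq_nonneg _)
    exact pow_eq_zero_iff (two_ne_zero) |>.mp this
  linarith

/-- the algebra behind the final comparison for six cells -/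
theorem alg6 {R0 R1 R2 R3 R4 R5 q0 q1 q2 q3 q4 q5 l3 Tl M A B : ℝ} (hM : 0 < M)
    (hR0 : 0 ≤ R0) (hR1 : 0 ≤ R1) (hR2 : 0 ≤ R2) (hR3 : 0 ≤ R3) (hR4 : 0 ≤ R4) (hR5 : 0 ≤ R5)
    (h0 : R0 ≤ q0) (h1 : R1 ≤ q1) (h2 : R2 ≤ q2) (h3 : R3 ≤ q3) (h4 : R4 ≤ q4) (h5 : R5 ≤ q5)
    (hl3 : l3 ≤ R3) (hTl0 : 0 ≤ Tl) (hTl : Tl ≤ R2 + R3 + R4 + R5) (hA : 0 < A) (hB : 0 ≤ B)
    (h : 400 * Tl * (q0 + q1) + 200 * (q2 ^ 2 + q3 ^ 2 + q4 ^ 2 + q5 ^ 2) + (A * q0 + B * q1) * M ≤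
      100 * Tl * (Tl + 2 * l3)) :
    (A * R0 + B * R1) * M ≤ 100 * (R2 + R3 + R4 + R5) ^ 2 + 200 * (R2 + R3 + R4 + R5) * R3 -
      200 * (R2 ^ 2 + R3 ^ 2 + R4 ^ 2 + R5 ^ 2) - 400 * (R2 + R3 + R4 + R5) * (R0 + R1) := by
  have s2 : R2 ^ 2 ≤ q2 ^ 2 := by gcongr
  have s3 : R3 ^ 2 ≤ q3 ^ 2 := by gcongr
  have s4 : R4 ^ 2 ≤ q4 ^ 2 := by gcongr
  have s5 : R5 ^ 2 ≤ q5 ^ 2 := by gcongr
  have s6 : (A * R0 + B * R1) * M ≤ (A * q0 + B * q1) * M := by gcongr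
  have hq0 : 0 ≤ q0 := hR0.trans h0
  have hq1 : 0 ≤ q1 := hR1.trans h1
  have h' : 200 * (q2 ^ 2 + q3 ^ 2 + q4 ^ 2 + q5 ^ 2) + (A * q0 + B * q1) * M ≤
      100 * (Tl * (Tl + 2 * l3 - 4 * (q0 + q1))) := by linarith
  have hkey : Tl * (Tl + 2 * l3 - 4 * (q0 + q1)) ≤
      (R2 + R3 + R4 + R5) * ((R2 + R3 + R4 + R5) + 2 * R3 - 4 * (R0 + R1)) := by
    by_cases hu : 0 ≤ Tl + 2 * l3 - 4 * (q0 + q1)
    · apply mul_le_mul hTl _ hu (by positivity)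
      linarith
    · push Not at hu
      have e1 : Tl * (Tl + 2 * l3 - 4 * (q0 + q1)) ≤ 0 :=
        mul_nonpos_of_nonneg_of_nonpos hTl0 hu.le
      have e2 : 0 ≤ (A * q0 + B * q1) * M := by positivity
      have t2 := sq_nonneg q2
      have t3 := sq_nonneg q3
      have t4 := sq_nonneg q4
      have t5 := sq_nonneg q5
      have z2 : q2 ^ 2 ≤ 0 := by linarith
      have z3 : q3 ^ 2 ≤ 0 := by linarith
      have z4 : q4 ^ 2 ≤ 0 := by linarith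
      have z5 : q5 ^ 2 ≤ 0 := by linarith
      have y2 : R2 = 0 := zero_of_sq hR2 h2 z2
      have y3 : R3 = 0 := zero_of_sq hR3 h3 z3
      have y4 : R4 = 0 := zero_of_sq hR4 h4 z4
      have y5 : R5 = 0 := zero_of_sq hR5 h5 z5
      rw [y2, y3, y4, y5]
      linarith
  nlinarith

/-- the algebra behind the final comparison for five cells -/
theorem alg5 {R0 R1 R2 R3 R4 q0 q1 q2 q3 q4 l2 Tl M A : ℝ} (hM : 0 < M)
    (hR0 : 0 ≤ R0) (hR1 : 0 ≤ R1) (hR2 : 0 ≤ R2) (hR3 : 0 ≤ R3) (hR4 : 0 ≤ R4)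
    (h0 : R0 ≤ q0) (h1 : R1 ≤ q1) (h2 : R2 ≤ q2) (h3 : R3 ≤ q3) (h4 : R4 ≤ q4)
    (hl2 : l2 ≤ R2) (hTl0 : 0 ≤ Tl) (hTl : Tl ≤ R1 + R2 + R3 + R4) (hA : 0 < A)
    (h : 400 * Tl * q0 + 200 * (q1 ^ 2 + q2 ^ 2 + q3 ^ 2 + q4 ^ 2) + A * q0 * M ≤
      100 * Tl * (Tl + 2 * l2)) :
    A * R0 * M ≤ 100 * (R1 + R2 + R3 + R4) ^ 2 + 200 * (R1 + R2 + R3 + R4) * R2 -
      200 * (R1 ^ 2 + R2 ^ 2 + R3 ^ 2 + R4 ^ 2) - 400 * (R1 + R2 + R3 + R4) * R0 := by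
  have s2 : R2 ^ 2 ≤ q2 ^ 2 := by gcongr
  have s3 : R3 ^ 2 ≤ q3 ^ 2 := by gcongr
  have s4 : R4 ^ 2 ≤ q4 ^ 2 := by gcongr
  have s5 : R1 ^ 2 ≤ q1 ^ 2 := by gcongr
  have s6 : A * R0 * M ≤ A * q0 * M := by gcongr
  have hq0 : 0 ≤ q0 := hR0.trans h0
  have h' : 200 * (q1 ^ 2 + q2 ^ 2 + q3 ^ 2 + q4 ^ 2) + A * q0 * M ≤
      100 * (Tl * (Tl + 2 * l2 - 4 * q0)) := by linarith
  have hkey : Tl * (Tl + 2 * l2 - 4 * q0) ≤
      (R1 + R2 + R3 + R4) * ((R1 + R2 + R3 + R4) + 2 * R2 - 4 * R0) := by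
    by_cases hu : 0 ≤ Tl + 2 * l2 - 4 * q0
    · apply mul_le_mul hTl _ hu (by positivity)
      linarith
    · push Not at hu
      have e1 : Tl * (Tl + 2 * l2 - 4 * q0) ≤ 0 :=
        mul_nonpos_of_nonneg_of_nonpos hTl0 hu.le
      have e2 : 0 ≤ A * q0 * M := by positivity
      have t2 := sq_nonneg q2
      have t3 := sq_nonneg q3
      have t4 := sq_nonneg q4
      have t5 := sq_nonneg q1
      have z2 : q2 ^ 2 ≤ 0 := by linarith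
      have z3 : q3 ^ 2 ≤ 0 := by linarith
      have z4 : q4 ^ 2 ≤ 0 := by linarith
      have z5 : q1 ^ 2 ≤ 0 := by linarith
      have y2 : R2 = 0 := zero_of_sq hR2 h2 z2
      have y3 : R3 = 0 := zero_of_sq hR3 h3 z3
      have y4 : R4 = 0 := zero_of_sq hR4 h4 z4
      have y5 : R1 = 0 := zero_of_sq hR1 h1 z5
      rw [y2, y3, y4, y5]
      linarith
  nlinarith

/-- the algebra behind the final comparison for four cells -/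
theorem alg4 {R0 R1 R2 R3 q0 q1 q2 q3 l0 l1 Tl M A : ℝ} (hM : 0 < M)
    (hR0 : 0 ≤ R0) (hR1 : 0 ≤ R1) (hR2 : 0 ≤ R2) (hR3 : 0 ≤ R3)
    (h0 : R0 ≤ q0) (h1 : R1 ≤ q1) (h2 : R2 ≤ q2) (h3 : R3 ≤ q3) (hl00 : 0 ≤ l0) (hl10 : 0 ≤ l1)
    (hl0 : l0 ≤ R0) (hl1 : l1 ≤ R1) (hTl0 : 0 ≤ Tl) (hTl : Tl ≤ R1 + R2 + R3) (hA : 0 < A)
    (hd : 2 * q0 ≤ Tl)
    (h : 10000 * (2 * Tl * q0 + q0 ^ 2) + 20000 * (q1 ^ 2 + q2 ^ 2 + q3 ^ 2) + A * q0 * M ≤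
      10000 * (Tl ^ 2 + 4 * l1 * l0)) :
    A * R0 * M ≤ 10000 * (R1 + R2 + R3) ^ 2 - 20000 * (R1 ^ 2 + R2 ^ 2 + R3 ^ 2) -
      20000 * (R1 + R2 + R3) * R0 + 40000 * R1 * R0 - 10000 * R0 ^ 2 := by
  have s1 : R1 ^ 2 ≤ q1 ^ 2 := by gcongr
  have s2 : R2 ^ 2 ≤ q2 ^ 2 := by gcongr
  have s3 : R3 ^ 2 ≤ q3 ^ 2 := by gcongr
  have s0 : R0 ^ 2 ≤ q0 ^ 2 := by gcongr
  have s6 : A * R0 * M ≤ A * q0 * M := by gcongr
  have s7 : l1 * l0 ≤ R1 * R0 := by gcongr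
  have hkey : Tl * (Tl - 2 * q0) ≤ (R1 + R2 + R3) * ((R1 + R2 + R3) - 2 * R0) := by
    apply mul_le_mul hTl _ (by linarith) (by positivity)
    linarith
  nlinarith

end BB
end P226
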