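import Vale.Agent.P226_h16.BBTrig
import Vale.Agent.P226_h16.BBGen

/-! P226: branch and bound for 5 cells (generated file). -/

open Set

namespace P226
namespace BB

def H4 (p j : Nat) : Nat := 1000 * glo4 j + p * (4294967296 - phi4 j)

/-- the Lagrangian test -/
def be5 (p a0 a1 a2 a3 a4 b0 b1 b2 b3 b4 : Nat) : Bool :=
  Nat.blt (4294967296 * (4000 + 11 * p) +
      4 * ((79 * (640 + 6 * p)) * ((b0 - a0) ^ 2 + (b1 - a1) ^ 2 + (b2 - a2) ^ 2 + (b3 - a3) ^ 2 + (b4 - a4) ^ 2)))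
    (4 * (min (H4 p a0) (H4 p b0) + min (H4 p a1) (H4 p b1) + min (H4 p a2) (H4 p b2) + min (H4 p a3) (H4 p b3) + min (H4 p a4) (H4 p b4)))

/-- the final test -/
def fn5 (q0 q1 q2 q3 q4 l2 Tl : Nat) : Bool :=
  Nat.ble (400 * Tl * q0 + 200 * (q1 ^ 2 + q2 ^ 2 + q3 ^ 2 + q4 ^ 2) + 8444 * q0 * 4294967296)
    (100 * Tl * (Tl + 2 * l2))

/-- the pruning test -/
def pr5 (a0 a1 a2 a3 a4 b0 b1 b2 b3 b4 : Nat) : Bool :=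
  Nat.blt 4294967296 (glo4 a0 + glo4 a1 + glo4 a2 + glo4 a3 + glo4 a4) ||
  (Nat.ble (4 * (phi4 b0 + phi4 b1 + phi4 b2 + phi4 b3 + phi4 b4)) 38654705664 ||
  ((fc (phi4 b0) fun q0 => fc (phi4 b1) fun q1 => fc (phi4 b2) fun q2 => fc (phi4 b3) fun q3 =>
    fc (phi4 b4) fun q4 =>
    fc (max (plo4 a1 + plo4 a2 + plo4 a3 + plo4 a4) (9663676416 - q0)) fun Tl => fn5 q0 q1 q2 q3 q4 (plo4 a2) Tl) ||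
  (be5 350 a0 a1 a2 a3 a4 b0 b1 b2 b3 b4 ||
  be5 414 a0 a1 a2 a3 a4 b0 b1 b2 b3 b4)))

/-- splitting -/
def sp5 (g : Nat → Nat → Nat → Nat → Nat → Nat → Nat → Nat → Nat → Nat → Bool) (a0 a1 a2 a3 a4 b0 b1 b2 b3 b4 : Nat) : Bool :=
  fc (4 * (b0 - a0)) fun w0 =>
  fc (2 * (b1 - a1)) fun w1 =>
  fc (3 * (b2 - a2)) fun w2 =>
  fc (3 * (b3 - a3)) fun w3 =>
  fc (4 * (b4 - a4)) fun w4 =>
  fc (max (max (max (max (w0) w1) w2) w3) w4) fun m =>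
  bif Nat.beq w0 m then (fc ((a0 + b0) / 2) fun c => g a0 a1 a2 a3 a4 c b1 b2 b3 b4 && g c a1 a2 a3 a4 b0 b1 b2 b3 b4) else
  bif Nat.beq w1 m then (fc ((a1 + b1) / 2) fun c => g a0 a1 a2 a3 a4 b0 c b2 b3 b4 && g a0 c a2 a3 a4 b0 b1 b2 b3 b4) else
  bif Nat.beq w2 m then (fc ((a2 + b2) / 2) fun c => g a0 a1 a2 a3 a4 b0 b1 c b3 b4 && g a0 a1 c a3 a4 b0 b1 b2 b3 b4) else
  bif Nat.beq w3 m then (fc ((a3 + b3) / 2) fun c => g a0 a1 a2 a3 a4 b0 b1 b2 c b4 && g a0 a1 a2 c a4 b0 b1 b2 b3 b4) else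
  (fc ((a4 + b4) / 2) fun c => g a0 a1 a2 a3 a4 b0 b1 b2 b3 c && g a0 a1 a2 a3 c b0 b1 b2 b3 b4)

/-- the search -/
def go5 : Nat → Nat → Nat → Nat → Nat → Nat → Nat → Nat → Nat → Nat → Nat → Bool
  | 0, _, _, _, _, _, _, _, _, _, _ => false
  | f + 1, a0, a1, a2, a3, a4, b0, b1, b2, b3, b4 =>
    fc (max a0 a1) fun a1 =>
    fc (max a1 a2) fun a2 =>
    fc (max a2 a3) fun a3 =>
    fc (max a3 a4) fun a4 =>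
    fc (min b3 b4) fun b3 =>
    fc (min b2 b3) fun b2 =>
    fc (min b1 b2) fun b1 =>
    fc (min b0 b1) fun b0 =>
    pr5 a0 a1 a2 a3 a4 b0 b1 b2 b3 b4 || sp5 (go5 f) a0 a1 a2 a3 a4 b0 b1 b2 b3 b4

/-- the point lies in the box -/
def Box5 (a0 a1 a2 a3 a4 b0 b1 b2 b3 b4 : Nat) (x0 x1 x2 x3 x4 : ℝ) : Prop :=
  (((a0 : ℝ) * h5 ≤ x0 ∧ x0 ≤ (b0 : ℝ) * h5) ∧ a0 ≤ 4096 ∧ b0 ≤ 4096) ∧
  (((a1 : ℝ) * h5 ≤ x1 ∧ x1 ≤ (b1 : ℝ) * h5) ∧ a1 ≤ 4096 ∧ b1 ≤ 4096) ∧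
  (((a2 : ℝ) * h5 ≤ x2 ∧ x2 ≤ (b2 : ℝ) * h5) ∧ a2 ≤ 4096 ∧ b2 ≤ 4096) ∧
  (((a3 : ℝ) * h5 ≤ x3 ∧ x3 ≤ (b3 : ℝ) * h5) ∧ a3 ≤ 4096 ∧ b3 ≤ 4096) ∧
  (((a4 : ℝ) * h5 ≤ x4 ∧ x4 ≤ (b4 : ℝ) * h5) ∧ a4 ≤ 4096 ∧ b4 ≤ 4096)

/-- the feasible points -/
def Feas5 (x0 x1 x2 x3 x4 : ℝ) : Prop :=
  0 ≤ x0 ∧ x0 ≤ x1 ∧ x1 ≤ x2 ∧ x2 ≤ x3 ∧ x3 ≤ x4 ∧ x4 ≤ Real.pi / 2 ∧
  G4 x0 + G4 x1 + G4 x2 + G4 x3 + G4 x4 ≤ 1 ∧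
  9 / 4 < P4 x0 + P4 x1 + P4 x2 + P4 x3 + P4 x4

/-- what has to be shown -/
def Good5 (x0 x1 x2 x3 x4 : ℝ) : Prop :=
  21.11 * P4 x0 ≤
    (P4 x1 + P4 x2 + P4 x3 + P4 x4) ^ 2 / 4 + (P4 x1 + P4 x2 + P4 x3 + P4 x4) * P4 x2 / 2 -
      (P4 x1 ^ 2 + P4 x2 ^ 2 + P4 x3 ^ 2 + P4 x4 ^ 2) / 2 -
      (P4 x1 + P4 x2 + P4 x3 + P4 x4) * P4 x0

theorem P4_nonneg (x : ℝ) : 0 ≤ P4 x := by unfold P4; positivity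

theorem phi4_s {j : Nat} {x : ℝ} (hj : j ≤ 4096) (h0 : 0 ≤ x) (h1 : x ≤ Real.pi / 2)
    (hx : x ≤ (j : ℝ) * h5) : 4294967296 * P4 x ≤ phi4 j := by
  have := phi4_spec j hj x h0 h1 hx
  norm_num at this ⊢
  exact this

theorem plo4_s {j : Nat} {x : ℝ} (_hj : j ≤ 4096) (h1 : x ≤ Real.pi / 2)
    (hx : (j : ℝ) * h5 ≤ x) : (plo4 j : ℝ) ≤ 4294967296 * P4 x := by
  have := plo4_spec j x hx h1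
  norm_num at this ⊢
  exact this

theorem glo4_l {j : Nat} (hj : j ≤ 4096) : (glo4 j : ℝ) ≤ 4294967296 * G4 ((j : ℝ) * h5) := by
  have := glo4_spec j hj
  norm_num at this ⊢
  exact this

theorem glo4_s {j : Nat} {x : ℝ} (hj : j ≤ 4096) (_h1 : x ≤ Real.pi / 2)
    (hx : (j : ℝ) * h5 ≤ x) : (glo4 j : ℝ) ≤ 4294967296 * G4 x := by
  refine (glo4_l hj).trans ?_
  have := G4_mono hx
  linarith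

theorem H4_le (p : Nat) {a : Nat} (ha : a ≤ 4096) : (H4 p a : ℝ) ≤
    4294967296 * (1000 * G4 ((a : ℝ) * h5) + p * (1 - P4 ((a : ℝ) * h5))) := by
  have h0 : 2 ^ 32 * P4 ((a:ℝ) * h5) ≤ (phi4 a : ℝ) ∧ phi4 a ≤ 2 ^ 32 :=
    ⟨phi4_spec' a ha, phi4_le a⟩
  have hle : phi4 a ≤ 4294967296 := by
    have := h0.2
    norm_num at this
    exact this
  have h2 : 4294967296 * P4 ((a : ℝ) * h5) ≤ phi4 a := by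
    have := h0.1
    norm_num at this ⊢
    exact this
  unfold H4
  rw [Nat.cast_add, Nat.cast_mul, Nat.cast_mul, Nat.cast_sub hle]
  have h1 := glo4_l ha
  have h3 : (p : ℝ) * (4294967296 - (phi4 a : ℝ)) ≤
      (p : ℝ) * (4294967296 - 4294967296 * P4 ((a : ℝ) * h5)) :=
    mul_le_mul_of_nonneg_left (by linarith) (Nat.cast_nonneg _)
  push_cast
  linarith

theorem seg4 (p : Nat) {a b : Nat} {x : ℝ} (l : (a : ℝ) * h5 ≤ x)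
    (u : x ≤ (b : ℝ) * h5) (d : b ≤ 4096) (_y : 0 ≤ x) (_t : x ≤ Real.pi / 2) :
    min (H4 p a : ℝ) (H4 p b : ℝ) ≤ 4294967296 * (1000 * G4 x + p * (1 - P4 x)) +
      (79 * (640 + 6 * p)) * ((b - a : ℕ) : ℝ) ^ 2 := by
  have hh : (0:ℝ) < h5 := by unfold h5; norm_num
  have hab : a ≤ b := by
    have : (a : ℝ) * h5 ≤ b * h5 := l.trans u
    exact_mod_cast le_of_mul_le_mul_right this hh
  have hc : ConcaveOn ℝ univ (fun x => (1000 * G4 x + p * (1 - P4 x)) - (640 + 6 * p) / 2 * x ^ 2) := by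
    refine ((G4_conc p).add_const (p : ℝ)).congr ?_
    intro x _
    simp only [Pi.add_apply]
    ring
  have h := seg_lower hc (mem_univ _) (mem_univ _) l u (by positivity)
  have h1 := H4_le p (hab.trans d)
  have h2 := H4_le p d
  have h3 : min (H4 p a : ℝ) (H4 p b : ℝ) ≤ 4294967296 *
      min (1000 * G4 ((a : ℝ) * h5) + p * (1 - P4 ((a : ℝ) * h5)))
        (1000 * G4 ((b : ℝ) * h5) + p * (1 - P4 ((b : ℝ) * h5))) := by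
    rw [mul_min_of_nonneg _ _ (by norm_num)]
    exact min_le_min h1 h2
  rw [Nat.cast_sub hab]
  have h4 := mul_le_mul_of_nonneg_left h (by norm_num : (0:ℝ) ≤ 4294967296)
  refine h3.trans ?_
  have h5' : 4294967296 * ((640 + 6 * (p:ℝ)) / 8 * ((b : ℝ) * h5 - (a : ℝ) * h5) ^ 2) ≤
      (79 * (640 + 6 * (p:ℝ))) * ((b : ℝ) - a) ^ 2 := by
    have e : 4294967296 * ((640 + 6 * (p:ℝ)) / 8 * ((b : ℝ) * h5 - (a : ℝ) * h5) ^ 2) =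
      (4294967296 * h5 ^ 2 / 8) * ((640 + 6 * (p:ℝ)) * ((b : ℝ) - a) ^ 2) := by ring
    rw [e, mul_assoc 79]
    apply mul_le_mul_of_nonneg_right _ (by positivity)
    unfold h5; norm_num
  linarith

theorem be5_sound {p a0 a1 a2 a3 a4 b0 b1 b2 b3 b4 : Nat} {x0 x1 x2 x3 x4 : ℝ}
    (h : be5 p a0 a1 a2 a3 a4 b0 b1 b2 b3 b4 = true) (hb : Box5 a0 a1 a2 a3 a4 b0 b1 b2 b3 b4 x0 x1 x2 x3 x4) (hf : Feas5 x0 x1 x2 x3 x4) : False := by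
  obtain ⟨⟨⟨l0, u0⟩, c0, d0⟩, ⟨⟨l1, u1⟩, c1, d1⟩, ⟨⟨l2, u2⟩, c2, d2⟩, ⟨⟨l3, u3⟩, c3, d3⟩, ⟨⟨l4, u4⟩, c4, d4⟩⟩ := hb
  obtain ⟨z0, s0, s1, s2, s3, ztop, hG, hP⟩ := hf
  have y0 : 0 ≤ x0 := z0
  have y1 : 0 ≤ x1 := y0.trans s0
  have y2 : 0 ≤ x2 := y1.trans s1
  have y3 : 0 ≤ x3 := y2.trans s2
  have y4 : 0 ≤ x4 := y3.trans s3
  have t4 : x4 ≤ Real.pi / 2 := ztop
  have t3 : x3 ≤ Real.pi / 2 := s3.trans t4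
  have t2 : x2 ≤ Real.pi / 2 := s2.trans t3
  have t1 : x1 ≤ Real.pi / 2 := s1.trans t2
  have t0 : x0 ≤ Real.pi / 2 := s0.trans t1
  have g0 := seg4 p l0 u0 d0 y0 t0
  have g1 := seg4 p l1 u1 d1 y1 t1
  have g2 := seg4 p l2 u2 d2 y2 t2
  have g3 := seg4 p l3 u3 d3 y3 t3
  have g4 := seg4 p l4 u4 d4 y4 t4
  simp only [be5, Nat.blt_eq] at h
  have h2 := (Nat.cast_lt (α := ℝ)).2 h
  push_cast at h2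
  have hp : (p : ℝ) * (9 / 4) ≤ (p : ℝ) * (P4 x0 + P4 x1 + P4 x2 + P4 x3 + P4 x4) :=
    mul_le_mul_of_nonneg_left hP.le (Nat.cast_nonneg _)
  linarith

theorem pr5_sound {a0 a1 a2 a3 a4 b0 b1 b2 b3 b4 : Nat} {x0 x1 x2 x3 x4 : ℝ}
    (h : pr5 a0 a1 a2 a3 a4 b0 b1 b2 b3 b4 = true) (hb : Box5 a0 a1 a2 a3 a4 b0 b1 b2 b3 b4 x0 x1 x2 x3 x4) (hf : Feas5 x0 x1 x2 x3 x4) : Good5 x0 x1 x2 x3 x4 := by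
  have hb0 := hb
  have hf0 := hf
  obtain ⟨⟨⟨l0, u0⟩, c0, d0⟩, ⟨⟨l1, u1⟩, c1, d1⟩, ⟨⟨l2, u2⟩, c2, d2⟩, ⟨⟨l3, u3⟩, c3, d3⟩, ⟨⟨l4, u4⟩, c4, d4⟩⟩ := hb
  obtain ⟨z0, s0, s1, s2, s3, ztop, hG, hP⟩ := hf
  have y0 : 0 ≤ x0 := z0
  have y1 : 0 ≤ x1 := y0.trans s0
  have y2 : 0 ≤ x2 := y1.trans s1
  have y3 : 0 ≤ x3 := y2.trans s2
  have y4 : 0 ≤ x4 := y3.trans s3
  have t4 : x4 ≤ Real.pi / 2 := ztop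
  have t3 : x3 ≤ Real.pi / 2 := s3.trans t4
  have t2 : x2 ≤ Real.pi / 2 := s2.trans t3
  have t1 : x1 ≤ Real.pi / 2 := s1.trans t2
  have t0 : x0 ≤ Real.pi / 2 := s0.trans t1
  have p0 := phi4_s d0 y0 t0 u0
  have r0 := plo4_s c0 t0 l0
  have g0 := glo4_s c0 t0 l0
  have n0 : 0 ≤ P4 x0 := P4_nonneg x0
  have p1 := phi4_s d1 y1 t1 u1
  have r1 := plo4_s c1 t1 l1
  have g1 := glo4_s c1 t1 l1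
  have n1 : 0 ≤ P4 x1 := P4_nonneg x1
  have p2 := phi4_s d2 y2 t2 u2
  have r2 := plo4_s c2 t2 l2
  have g2 := glo4_s c2 t2 l2
  have n2 : 0 ≤ P4 x2 := P4_nonneg x2
  have p3 := phi4_s d3 y3 t3 u3
  have r3 := plo4_s c3 t3 l3
  have g3 := glo4_s c3 t3 l3
  have n3 : 0 ≤ P4 x3 := P4_nonneg x3
  have p4 := phi4_s d4 y4 t4 u4
  have r4 := plo4_s c4 t4 l4
  have g4 := glo4_s c4 t4 l4
  have n4 : 0 ≤ P4 x4 := P4_nonneg x4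
  simp only [pr5, Bool.or_eq_true] at h
  rcases h with h | h | h | h | h
  · exfalso
    rw [Nat.blt_eq] at h
    have h2 := (Nat.cast_lt (α := ℝ)).2 h
    push_cast at h2
    linarith
  · exfalso
    have h1 := Nat.le_of_ble_eq_true h
    have h2 := (Nat.cast_le (α := ℝ)).2 h1
    push_cast at h2
    linarith
  · simp only [fc_eq, fn5] at h
    set Tl : Nat := max (plo4 a1 + plo4 a2 + plo4 a3 + plo4 a4) (9663676416 - phi4 b0) with hTl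
    have hT : (Tl : ℝ) ≤ 4294967296 * P4 x1 + 4294967296 * P4 x2 + 4294967296 * P4 x3 + 4294967296 * P4 x4 := by
      rw [hTl, Nat.cast_max]
      apply max_le
      · push_cast; linarith
      · apply cast_sub_le
        · push_cast; linarith
        · linarith
    have hT0 : (0 : ℝ) ≤ (Tl : ℝ) := Nat.cast_nonneg _
    have k0 : 0 ≤ 4294967296 * P4 x0 := by linarith
    have k1 : 0 ≤ 4294967296 * P4 x1 := by linarith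
    have k2 : 0 ≤ 4294967296 * P4 x2 := by linarith
    have k3 : 0 ≤ 4294967296 * P4 x3 := by linarith
    have k4 : 0 ≤ 4294967296 * P4 x4 := by linarith
    have h1 := Nat.le_of_ble_eq_true h
    have h2 := (Nat.cast_le (α := ℝ)).2 h1
    push_cast at h2
    have key := alg5 (M := 4294967296) (A := 8444) (by norm_num) k0 k1 k2 k3 k4
      p0 p1 p2 p3 p4 r2 hT0 hT (by norm_num) (by linarith)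
    unfold Good5
    linarith
  · exact (be5_sound h hb0 hf0).elim
  · exact (be5_sound h hb0 hf0).elim

theorem sp5_sound {g : Nat → Nat → Nat → Nat → Nat → Nat → Nat → Nat → Nat → Nat → Bool} {x0 x1 x2 x3 x4 : ℝ} {Q : Prop}
    (hg : ∀ a0 a1 a2 a3 a4 b0 b1 b2 b3 b4 : Nat, g a0 a1 a2 a3 a4 b0 b1 b2 b3 b4 = true → Box5 a0 a1 a2 a3 a4 b0 b1 b2 b3 b4 x0 x1 x2 x3 x4 → Q) {a0 a1 a2 a3 a4 b0 b1 b2 b3 b4 : Nat}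
    (h : sp5 g a0 a1 a2 a3 a4 b0 b1 b2 b3 b4 = true) (hb : Box5 a0 a1 a2 a3 a4 b0 b1 b2 b3 b4 x0 x1 x2 x3 x4) : Q := by
  obtain ⟨⟨⟨l0, u0⟩, c0, d0⟩, ⟨⟨l1, u1⟩, c1, d1⟩, ⟨⟨l2, u2⟩, c2, d2⟩, ⟨⟨l3, u3⟩, c3, d3⟩, ⟨⟨l4, u4⟩, c4, d4⟩⟩ := hb
  simp only [sp5, fc_eq] at h
  rw [Bool.cond_eq_ite] at h
  split_ifs at h with hw
  · clear hw
    rw [Bool.and_eq_true] at h
    have hc : (a0 + b0) / 2 ≤ 4096 := by omega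
    rcases le_total x0 ((((a0 + b0) / 2 : ℕ) : ℝ) * h5) with hx | hx
    · exact hg _ _ _ _ _ _ _ _ _ _ h.1 ⟨⟨⟨l0, hx⟩, c0, hc⟩, ⟨⟨l1, u1⟩, c1, d1⟩, ⟨⟨l2, u2⟩, c2, d2⟩, ⟨⟨l3, u3⟩, c3, d3⟩, ⟨⟨l4, u4⟩, c4, d4⟩⟩
    · exact hg _ _ _ _ _ _ _ _ _ _ h.2 ⟨⟨⟨hx, u0⟩, hc, d0⟩, ⟨⟨l1, u1⟩, c1, d1⟩, ⟨⟨l2, u2⟩, c2, d2⟩, ⟨⟨l3, u3⟩, c3, d3⟩, ⟨⟨l4, u4⟩, c4, d4⟩⟩
  clear hw
  rw [Bool.cond_eq_ite] at h
  split_ifs at h with hw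
  · clear hw
    rw [Bool.and_eq_true] at h
    have hc : (a1 + b1) / 2 ≤ 4096 := by omega
    rcases le_total x1 ((((a1 + b1) / 2 : ℕ) : ℝ) * h5) with hx | hx
    · exact hg _ _ _ _ _ _ _ _ _ _ h.1 ⟨⟨⟨l0, u0⟩, c0, d0⟩, ⟨⟨l1, hx⟩, c1, hc⟩, ⟨⟨l2, u2⟩, c2, d2⟩, ⟨⟨l3, u3⟩, c3, d3⟩, ⟨⟨l4, u4⟩, c4, d4⟩⟩
    · exact hg _ _ _ _ _ _ _ _ _ _ h.2 ⟨⟨⟨l0, u0⟩, c0, d0⟩, ⟨⟨hx, u1⟩, hc, d1⟩, ⟨⟨l2, u2⟩, c2, d2⟩, ⟨⟨l3, u3⟩, c3, d3⟩, ⟨⟨l4, u4⟩, c4, d4⟩⟩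
  clear hw
  rw [Bool.cond_eq_ite] at h
  split_ifs at h with hw
  · clear hw
    rw [Bool.and_eq_true] at h
    have hc : (a2 + b2) / 2 ≤ 4096 := by omega
    rcases le_total x2 ((((a2 + b2) / 2 : ℕ) : ℝ) * h5) with hx | hx
    · exact hg _ _ _ _ _ _ _ _ _ _ h.1 ⟨⟨⟨l0, u0⟩, c0, d0⟩, ⟨⟨l1, u1⟩, c1, d1⟩, ⟨⟨l2, hx⟩, c2, hc⟩, ⟨⟨l3, u3⟩, c3, d3⟩, ⟨⟨l4, u4⟩, c4, d4⟩⟩
    · exact hg _ _ _ _ _ _ _ _ _ _ h.2 ⟨⟨⟨l0, u0⟩, c0, d0⟩, ⟨⟨l1, u1⟩, c1, d1⟩, ⟨⟨hx, u2⟩, hc, d2⟩, ⟨⟨l3, u3⟩, c3, d3⟩, ⟨⟨l4, u4⟩, c4, d4⟩⟩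
  clear hw
  rw [Bool.cond_eq_ite] at h
  split_ifs at h with hw
  · clear hw
    rw [Bool.and_eq_true] at h
    have hc : (a3 + b3) / 2 ≤ 4096 := by omega
    rcases le_total x3 ((((a3 + b3) / 2 : ℕ) : ℝ) * h5) with hx | hx
    · exact hg _ _ _ _ _ _ _ _ _ _ h.1 ⟨⟨⟨l0, u0⟩, c0, d0⟩, ⟨⟨l1, u1⟩, c1, d1⟩, ⟨⟨l2, u2⟩, c2, d2⟩, ⟨⟨l3, hx⟩, c3, hc⟩, ⟨⟨l4, u4⟩, c4, d4⟩⟩
    · exact hg _ _ _ _ _ _ _ _ _ _ h.2 ⟨⟨⟨l0, u0⟩, c0, d0⟩, ⟨⟨l1, u1⟩, c1, d1⟩, ⟨⟨l2, u2⟩, c2, d2⟩, ⟨⟨hx, u3⟩, hc, d3⟩, ⟨⟨l4, u4⟩, c4, d4⟩⟩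
  clear hw
  rw [Bool.and_eq_true] at h
  have hc : (a4 + b4) / 2 ≤ 4096 := by omega
  rcases le_total x4 ((((a4 + b4) / 2 : ℕ) : ℝ) * h5) with hx | hx
  · exact hg _ _ _ _ _ _ _ _ _ _ h.1 ⟨⟨⟨l0, u0⟩, c0, d0⟩, ⟨⟨l1, u1⟩, c1, d1⟩, ⟨⟨l2, u2⟩, c2, d2⟩, ⟨⟨l3, u3⟩, c3, d3⟩, ⟨⟨l4, hx⟩, c4, hc⟩⟩
  · exact hg _ _ _ _ _ _ _ _ _ _ h.2 ⟨⟨⟨l0, u0⟩, c0, d0⟩, ⟨⟨l1, u1⟩, c1, d1⟩, ⟨⟨l2, u2⟩, c2, d2⟩, ⟨⟨l3, u3⟩, c3, d3⟩, ⟨⟨hx, u4⟩, hc, d4⟩⟩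

theorem go5_sound (f : Nat) : ∀ a0 a1 a2 a3 a4 b0 b1 b2 b3 b4 : Nat, go5 f a0 a1 a2 a3 a4 b0 b1 b2 b3 b4 = true → ∀ x0 x1 x2 x3 x4 : ℝ,
    Box5 a0 a1 a2 a3 a4 b0 b1 b2 b3 b4 x0 x1 x2 x3 x4 → Feas5 x0 x1 x2 x3 x4 → Good5 x0 x1 x2 x3 x4 := by
  induction f with
  | zero => intro _ _ _ _ _ _ _ _ _ _ h; simp [go5] at h
  | succ f ih =>
    intro a0 a1 a2 a3 a4 b0 b1 b2 b3 b4 h x0 x1 x2 x3 x4 hb hf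
    simp only [go5, fc_eq] at h
    obtain ⟨⟨⟨l0, u0⟩, c0, d0⟩, ⟨⟨l1, u1⟩, c1, d1⟩, ⟨⟨l2, u2⟩, c2, d2⟩, ⟨⟨l3, u3⟩, c3, d3⟩, ⟨⟨l4, u4⟩, c4, d4⟩⟩ := hb
    have hf0 := hf
    obtain ⟨_, s0, s1, s2, s3, _, _, _⟩ := hf0
    have m1 := in_max l0 l1 s0
    have mc1 := max_le c0 c1
    have m2 := in_max m1 l2 s1
    have mc2 := max_le mc1 c2
    have m3 := in_max m2 l3 s2
    have mc3 := max_le mc2 c3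
    have m4 := in_max m3 l4 s3
    have mc4 := max_le mc3 c4
    have v3 := in_min u3 u4 s3
    have v2 := in_min u2 v3 s2
    have v1 := in_min u1 v2 s1
    have v0 := in_min u0 v1 s0
    rw [Bool.or_eq_true] at h
    rcases h with h | h
    · exact pr5_sound h ⟨⟨⟨l0, v0⟩, c0, (min_le_left _ _).trans d0⟩, ⟨⟨m1, v1⟩, mc1, (min_le_left _ _).trans d1⟩, ⟨⟨m2, v2⟩, mc2, (min_le_left _ _).trans d2⟩, ⟨⟨m3, v3⟩, mc3, (min_le_left _ _).trans d3⟩, ⟨⟨m4, u4⟩, mc4, d4⟩⟩ hf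
    · exact sp5_sound (fun _ _ _ _ _ _ _ _ _ _ hg hb => ih _ _ _ _ _ _ _ _ _ _ hg _ _ _ _ _ hb hf) h
        ⟨⟨⟨l0, v0⟩, c0, (min_le_left _ _).trans d0⟩, ⟨⟨m1, v1⟩, mc1, (min_le_left _ _).trans d1⟩, ⟨⟨m2, v2⟩, mc2, (min_le_left _ _).trans d2⟩, ⟨⟨m3, v3⟩, mc3, (min_le_left _ _).trans d3⟩, ⟨⟨m4, u4⟩, mc4, d4⟩⟩

theorem go5_run : go5 50 0 0 0 0 0 4096 4096 4096 4096 4096 = true := by decide +kernel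

theorem core5 : Core5 := by
  intro x0 x1 x2 x3 x4 h0 s0 s1 s2 s3 ht hG hP
  have hb : Box5 0 0 0 0 0 4096 4096 4096 4096 4096 x0 x1 x2 x3 x4 := by
    refine ⟨⟨⟨?_, ?_⟩, by norm_num, by norm_num⟩, ⟨⟨?_, ?_⟩, by norm_num, by norm_num⟩, ⟨⟨?_, ?_⟩, by norm_num, by norm_num⟩, ⟨⟨?_, ?_⟩, by norm_num, by norm_num⟩, ⟨⟨?_, ?_⟩, by norm_num, by norm_num⟩⟩
    all_goals (unfold h5; have := Real.pi_lt_d4; push_cast; linarith)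
  exact go5_sound 50 0 0 0 0 0 4096 4096 4096 4096 4096 go5_run x0 x1 x2 x3 x4 hb ⟨h0, s0, s1, s2, s3, ht, hG, hP⟩

end BB
end P226
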