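import Vale.Agent.P226_h16.FinRed
import Vale.Agent.P226_h16.BB5

/-! P226: the real inequality for 5 cells. -/

open Set

namespace P226

theorem fin5 (q α : Fin 5 → ℝ) (hq0 : 0 < q 0) (hm : Monotone q)
    (hα : ∀ i, α i ∈ Icc (0 : ℝ) Real.pi) (hqt : ∀ i, q i ≤ Real.sin (α i) ^ 6 / (2 * Real.pi))
    (hsum : ∑ i, (α i - Real.sin (α i) * Real.cos (α i)) / Real.pi = 1)
    (hV : 9 / (8 * Real.pi) < ∑ i, q i)
    (ha : (q 1 + q 2 + q 3 + q 4) ^ 2 / 4 + (q 1 + q 2 + q 3 + q 4) * q 2 / 2 -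
      (q 1 ^ 2 + q 2 ^ 2 + q 3 ^ 2 + q 4 ^ 2) / 2 - (q 1 + q 2 + q 3 + q 4) * q 0 <
      1250 / (12 * Real.pi ^ 3) * q 0) : False :=
  fin5_of_core BB.core5 q α hq0 hm hα hqt hsum hV ha

end P226
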