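import Vale.Agent.P226_h16.BBPoly

/-! P226: branch and bound for 6 cells (generated file). -/

open Set

namespace P226
namespace BB

def H5 (p j : Nat) : Nat := 1000 * glo5 j + p * (4294967296 - phi5 j)

/-- the Lagrangian test -/
def be6 (p a0 a1 a2 a3 a4 a5 b0 b1 b2 b3 b4 b5 : Nat) : Bool :=
  Nat.blt (4294967296 * (4000 + 15 * p) +
      4 * ((48000 + 256 * p) * ((b0 - a0) ^ 2 + (b1 - a1) ^ 2 + (b2 - a2) ^ 2 + (b3 - a3) ^ 2 + (b4 - a4) ^ 2 + (b5 - a5) ^ 2)))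
    (4 * (min (H5 p a0) (H5 p b0) + min (H5 p a1) (H5 p b1) + min (H5 p a2) (H5 p b2) + min (H5 p a3) (H5 p b3) + min (H5 p a4) (H5 p b4) + min (H5 p a5) (H5 p b5)))

/-- the final test -/
def fn6 (q0 q1 q2 q3 q4 q5 l3 Tl : Nat) : Bool :=
  fc (100 * Tl * (Tl + 2 * l3)) fun L =>
  fc (400 * Tl * (q0 + q1) + 200 * (q2 ^ 2 + q3 ^ 2 + q4 ^ 2 + q5 ^ 2)) fun R =>
  Nat.ble (R + (8880 * q0 + 1444 * q1) * 4294967296) L || Nat.ble (R + 17512 * q0 * 4294967296) L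

/-- the pruning test -/
def pr6 (a0 a1 a2 a3 a4 a5 b0 b1 b2 b3 b4 b5 : Nat) : Bool :=
  Nat.blt 4294967296 (glo5 a0 + glo5 a1 + glo5 a2 + glo5 a3 + glo5 a4 + glo5 a5) ||
  (Nat.ble (4 * (phi5 b0 + phi5 b1 + phi5 b2 + phi5 b3 + phi5 b4 + phi5 b5)) 38654705664 ||
  ((fc (phi5 b0) fun q0 => fc (phi5 b1) fun q1 => fc (phi5 b2) fun q2 => fc (phi5 b3) fun q3 =>
    fc (phi5 b4) fun q4 => fc (phi5 b5) fun q5 =>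
    fc (max (plo5 a2 + plo5 a3 + plo5 a4 + plo5 a5) (9663676416 - (q0 + q1))) fun Tl => fn6 q0 q1 q2 q3 q4 q5 (plo5 a3) Tl) ||
  (be6 330 a0 a1 a2 a3 a4 a5 b0 b1 b2 b3 b4 b5 ||
  be6 400 a0 a1 a2 a3 a4 a5 b0 b1 b2 b3 b4 b5)))

/-- splitting -/
def sp6 (g : Nat → Nat → Nat → Nat → Nat → Nat → Nat → Nat → Nat → Nat → Nat → Nat → Bool) (a0 a1 a2 a3 a4 a5 b0 b1 b2 b3 b4 b5 : Nat) : Bool :=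
  fc (4 * (b0 - a0)) fun w0 =>
  fc (4 * (b1 - a1)) fun w1 =>
  fc (2 * (b2 - a2)) fun w2 =>
  fc (3 * (b3 - a3)) fun w3 =>
  fc (3 * (b4 - a4)) fun w4 =>
  fc (3 * (b5 - a5)) fun w5 =>
  fc (max (max (max (max (max (w0) w1) w2) w3) w4) w5) fun m =>
  bif Nat.beq w0 m then (fc ((a0 + b0) / 2) fun c => g a0 a1 a2 a3 a4 a5 c b1 b2 b3 b4 b5 && g c a1 a2 a3 a4 a5 b0 b1 b2 b3 b4 b5) else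
  bif Nat.beq w1 m then (fc ((a1 + b1) / 2) fun c => g a0 a1 a2 a3 a4 a5 b0 c b2 b3 b4 b5 && g a0 c a2 a3 a4 a5 b0 b1 b2 b3 b4 b5) else
  bif Nat.beq w2 m then (fc ((a2 + b2) / 2) fun c => g a0 a1 a2 a3 a4 a5 b0 b1 c b3 b4 b5 && g a0 a1 c a3 a4 a5 b0 b1 b2 b3 b4 b5) else
  bif Nat.beq w3 m then (fc ((a3 + b3) / 2) fun c => g a0 a1 a2 a3 a4 a5 b0 b1 b2 c b4 b5 && g a0 a1 a2 c a4 a5 b0 b1 b2 b3 b4 b5) else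
  bif Nat.beq w4 m then (fc ((a4 + b4) / 2) fun c => g a0 a1 a2 a3 a4 a5 b0 b1 b2 b3 c b5 && g a0 a1 a2 a3 c a5 b0 b1 b2 b3 b4 b5) else
  (fc ((a5 + b5) / 2) fun c => g a0 a1 a2 a3 a4 a5 b0 b1 b2 b3 b4 c && g a0 a1 a2 a3 a4 c b0 b1 b2 b3 b4 b5)

/-- the search -/
def go6 : Nat → Nat → Nat → Nat → Nat → Nat → Nat → Nat → Nat → Nat → Nat → Nat → Nat → Bool
  | 0, _, _, _, _, _, _, _, _, _, _, _, _ => false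
  | f + 1, a0, a1, a2, a3, a4, a5, b0, b1, b2, b3, b4, b5 =>
    fc (max a0 a1) fun a1 =>
    fc (max a1 a2) fun a2 =>
    fc (max a2 a3) fun a3 =>
    fc (max a3 a4) fun a4 =>
    fc (max a4 a5) fun a5 =>
    fc (min b4 b5) fun b4 =>
    fc (min b3 b4) fun b3 =>
    fc (min b2 b3) fun b2 =>
    fc (min b1 b2) fun b1 =>
    fc (min b0 b1) fun b0 =>
    pr6 a0 a1 a2 a3 a4 a5 b0 b1 b2 b3 b4 b5 || sp6 (go6 f) a0 a1 a2 a3 a4 a5 b0 b1 b2 b3 b4 b5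

/-- the point lies in the box -/
def Box6 (a0 a1 a2 a3 a4 a5 b0 b1 b2 b3 b4 b5 : Nat) (x0 x1 x2 x3 x4 x5 : ℝ) : Prop :=
  (((a0 : ℝ) * (1 / 4096 : ℝ) ≤ x0 ∧ x0 ≤ (b0 : ℝ) * (1 / 4096 : ℝ)) ∧ a0 ≤ 4096 ∧ b0 ≤ 4096) ∧
  (((a1 : ℝ) * (1 / 4096 : ℝ) ≤ x1 ∧ x1 ≤ (b1 : ℝ) * (1 / 4096 : ℝ)) ∧ a1 ≤ 4096 ∧ b1 ≤ 4096) ∧
  (((a2 : ℝ) * (1 / 4096 : ℝ) ≤ x2 ∧ x2 ≤ (b2 : ℝ) * (1 / 4096 : ℝ)) ∧ a2 ≤ 4096 ∧ b2 ≤ 4096) ∧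
  (((a3 : ℝ) * (1 / 4096 : ℝ) ≤ x3 ∧ x3 ≤ (b3 : ℝ) * (1 / 4096 : ℝ)) ∧ a3 ≤ 4096 ∧ b3 ≤ 4096) ∧
  (((a4 : ℝ) * (1 / 4096 : ℝ) ≤ x4 ∧ x4 ≤ (b4 : ℝ) * (1 / 4096 : ℝ)) ∧ a4 ≤ 4096 ∧ b4 ≤ 4096) ∧
  (((a5 : ℝ) * (1 / 4096 : ℝ) ≤ x5 ∧ x5 ≤ (b5 : ℝ) * (1 / 4096 : ℝ)) ∧ a5 ≤ 4096 ∧ b5 ≤ 4096)

/-- the feasible points -/
def Feas6 (x0 x1 x2 x3 x4 x5 : ℝ) : Prop :=
  0 ≤ x0 ∧ x0 ≤ x1 ∧ x1 ≤ x2 ∧ x2 ≤ x3 ∧ x3 ≤ x4 ∧ x4 ≤ x5 ∧ x5 ≤ 1 ∧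
  G5 x0 + G5 x1 + G5 x2 + G5 x3 + G5 x4 + G5 x5 ≤ 1 ∧
  9 / 4 < P5 x0 + P5 x1 + P5 x2 + P5 x3 + P5 x4 + P5 x5

/-- what has to be shown -/
def Good6 (x0 x1 x2 x3 x4 x5 : ℝ) : Prop :=
  22.2 * P5 x0 + 3.61 * P5 x1 ≤
    (P5 x2 + P5 x3 + P5 x4 + P5 x5) ^ 2 / 4 + (P5 x2 + P5 x3 + P5 x4 + P5 x5) * P5 x3 / 2 -
      (P5 x2 ^ 2 + P5 x3 ^ 2 + P5 x4 ^ 2 + P5 x5 ^ 2) / 2 -
      (P5 x2 + P5 x3 + P5 x4 + P5 x5) * (P5 x0 + P5 x1) ∨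
  43.78 * P5 x0 ≤
    (P5 x2 + P5 x3 + P5 x4 + P5 x5) ^ 2 / 4 + (P5 x2 + P5 x3 + P5 x4 + P5 x5) * P5 x3 / 2 -
      (P5 x2 ^ 2 + P5 x3 ^ 2 + P5 x4 ^ 2 + P5 x5 ^ 2) / 2 -
      (P5 x2 + P5 x3 + P5 x4 + P5 x5) * (P5 x0 + P5 x1)

theorem H5_le (p : Nat) {a : Nat} (ha : a ≤ 4096) : (H5 p a : ℝ) ≤
    4294967296 * (1000 * G5 ((a : ℝ) * (1 / 4096)) + p * (1 - P5 ((a : ℝ) * (1 / 4096)))) := by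
  unfold H5
  rw [Nat.cast_add, Nat.cast_mul, Nat.cast_mul, Nat.cast_sub (phi5_le ha)]
  have h1 := glo5_le ha
  have h2 := phi5_ge ha
  have h3 : (p : ℝ) * (4294967296 - (phi5 a : ℝ)) ≤
      (p : ℝ) * (4294967296 - 4294967296 * P5 ((a : ℝ) * (1 / 4096))) :=
    mul_le_mul_of_nonneg_left (by linarith) (Nat.cast_nonneg _)
  push_cast
  linarith

theorem seg5 (p : Nat) {a b : Nat} {x : ℝ} (l : (a : ℝ) * (1 / 4096) ≤ x)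
    (u : x ≤ (b : ℝ) * (1 / 4096)) (d : b ≤ 4096) (_y : 0 ≤ x) (_t : x ≤ 1) :
    min (H5 p a : ℝ) (H5 p b : ℝ) ≤ 4294967296 * (1000 * G5 x + p * (1 - P5 x)) +
      (48000 + 256 * p) * ((b - a : ℕ) : ℝ) ^ 2 := by
  have hab : a ≤ b := by
    have : (a : ℝ) ≤ b := by linarith
    exact_mod_cast this
  have h := seg_lower (conc5 p) ⟨by positivity, grid_le (hab.trans d)⟩ ⟨by positivity, grid_le d⟩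
    l u (by positivity)
  have h1 := H5_le p (hab.trans d)
  have h2 := H5_le p d
  have h3 : min (H5 p a : ℝ) (H5 p b : ℝ) ≤ 4294967296 *
      min (1000 * G5 ((a : ℝ) * (1 / 4096)) + p * (1 - P5 ((a : ℝ) * (1 / 4096))))
        (1000 * G5 ((b : ℝ) * (1 / 4096)) + p * (1 - P5 ((b : ℝ) * (1 / 4096)))) := by
    rw [mul_min_of_nonneg _ _ (by norm_num)]
    exact min_le_min h1 h2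
  rw [Nat.cast_sub hab]
  have h4 := mul_le_mul_of_nonneg_left h (by norm_num : (0:ℝ) ≤ 4294967296)
  refine h3.trans ?_
  have h5 : 4294967296 * ((1500 + 8 * (p:ℝ)) / 8 * ((b : ℝ) * (1 / 4096) - (a : ℝ) * (1 / 4096)) ^ 2) =
      (48000 + 256 * (p:ℝ)) * ((b : ℝ) - a) ^ 2 := by ring
  linarith

theorem be6_sound {p a0 a1 a2 a3 a4 a5 b0 b1 b2 b3 b4 b5 : Nat} {x0 x1 x2 x3 x4 x5 : ℝ}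
    (h : be6 p a0 a1 a2 a3 a4 a5 b0 b1 b2 b3 b4 b5 = true) (hb : Box6 a0 a1 a2 a3 a4 a5 b0 b1 b2 b3 b4 b5 x0 x1 x2 x3 x4 x5) (hf : Feas6 x0 x1 x2 x3 x4 x5) : False := by
  obtain ⟨⟨⟨l0, u0⟩, c0, d0⟩, ⟨⟨l1, u1⟩, c1, d1⟩, ⟨⟨l2, u2⟩, c2, d2⟩, ⟨⟨l3, u3⟩, c3, d3⟩, ⟨⟨l4, u4⟩, c4, d4⟩, ⟨⟨l5, u5⟩, c5, d5⟩⟩ := hb
  obtain ⟨z0, s0, s1, s2, s3, s4, ztop, hG, hP⟩ := hf
  have y0 : 0 ≤ x0 := z0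
  have y1 : 0 ≤ x1 := y0.trans s0
  have y2 : 0 ≤ x2 := y1.trans s1
  have y3 : 0 ≤ x3 := y2.trans s2
  have y4 : 0 ≤ x4 := y3.trans s3
  have y5 : 0 ≤ x5 := y4.trans s4
  have t5 : x5 ≤ 1 := ztop
  have t4 : x4 ≤ 1 := s4.trans t5
  have t3 : x3 ≤ 1 := s3.trans t4
  have t2 : x2 ≤ 1 := s2.trans t3
  have t1 : x1 ≤ 1 := s1.trans t2
  have t0 : x0 ≤ 1 := s0.trans t1
  have g0 := seg5 p l0 u0 d0 y0 t0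
  have g1 := seg5 p l1 u1 d1 y1 t1
  have g2 := seg5 p l2 u2 d2 y2 t2
  have g3 := seg5 p l3 u3 d3 y3 t3
  have g4 := seg5 p l4 u4 d4 y4 t4
  have g5 := seg5 p l5 u5 d5 y5 t5
  simp only [be6, Nat.blt_eq] at h
  have h2 := (Nat.cast_lt (α := ℝ)).2 h
  push_cast at h2
  have hp : (p : ℝ) * (9 / 4) ≤ (p : ℝ) * (P5 x0 + P5 x1 + P5 x2 + P5 x3 + P5 x4 + P5 x5) :=
    mul_le_mul_of_nonneg_left hP.le (Nat.cast_nonneg _)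
  linarith

theorem pr6_sound {a0 a1 a2 a3 a4 a5 b0 b1 b2 b3 b4 b5 : Nat} {x0 x1 x2 x3 x4 x5 : ℝ}
    (h : pr6 a0 a1 a2 a3 a4 a5 b0 b1 b2 b3 b4 b5 = true) (hb : Box6 a0 a1 a2 a3 a4 a5 b0 b1 b2 b3 b4 b5 x0 x1 x2 x3 x4 x5) (hf : Feas6 x0 x1 x2 x3 x4 x5) : Good6 x0 x1 x2 x3 x4 x5 := by
  have hb0 := hb
  have hf0 := hf
  obtain ⟨⟨⟨l0, u0⟩, c0, d0⟩, ⟨⟨l1, u1⟩, c1, d1⟩, ⟨⟨l2, u2⟩, c2, d2⟩, ⟨⟨l3, u3⟩, c3, d3⟩, ⟨⟨l4, u4⟩, c4, d4⟩, ⟨⟨l5, u5⟩, c5, d5⟩⟩ := hb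
  obtain ⟨z0, s0, s1, s2, s3, s4, ztop, hG, hP⟩ := hf
  have y0 : 0 ≤ x0 := z0
  have y1 : 0 ≤ x1 := y0.trans s0
  have y2 : 0 ≤ x2 := y1.trans s1
  have y3 : 0 ≤ x3 := y2.trans s2
  have y4 : 0 ≤ x4 := y3.trans s3
  have y5 : 0 ≤ x5 := y4.trans s4
  have t5 : x5 ≤ 1 := ztop
  have t4 : x4 ≤ 1 := s4.trans t5
  have t3 : x3 ≤ 1 := s3.trans t4
  have t2 : x2 ≤ 1 := s2.trans t3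
  have t1 : x1 ≤ 1 := s1.trans t2
  have t0 : x0 ≤ 1 := s0.trans t1
  have p0 := phi5_spec d0 y0 t0 u0
  have r0 := plo5_spec c0 t0 l0
  have g0 := glo5_spec c0 t0 l0
  have n0 : 0 ≤ P5 x0 := P5_nonneg x0
  have p1 := phi5_spec d1 y1 t1 u1
  have r1 := plo5_spec c1 t1 l1
  have g1 := glo5_spec c1 t1 l1
  have n1 : 0 ≤ P5 x1 := P5_nonneg x1
  have p2 := phi5_spec d2 y2 t2 u2
  have r2 := plo5_spec c2 t2 l2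
  have g2 := glo5_spec c2 t2 l2
  have n2 : 0 ≤ P5 x2 := P5_nonneg x2
  have p3 := phi5_spec d3 y3 t3 u3
  have r3 := plo5_spec c3 t3 l3
  have g3 := glo5_spec c3 t3 l3
  have n3 : 0 ≤ P5 x3 := P5_nonneg x3
  have p4 := phi5_spec d4 y4 t4 u4
  have r4 := plo5_spec c4 t4 l4
  have g4 := glo5_spec c4 t4 l4
  have n4 : 0 ≤ P5 x4 := P5_nonneg x4
  have p5 := phi5_spec d5 y5 t5 u5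
  have r5 := plo5_spec c5 t5 l5
  have g5 := glo5_spec c5 t5 l5
  have n5 : 0 ≤ P5 x5 := P5_nonneg x5
  simp only [pr6, Bool.or_eq_true] at h
  rcases h with h | h | h | h | h
  · exfalso
    rw [Nat.blt_eq] at h
    have h2 := (Nat.cast_lt (α := ℝ)).2 h
    push_cast at h2
    linarith
  · exfalso
    have h1 := Nat.le_of_ble_eq_true h
    have h2 := (Nat.cast_le (α := ℝ)).2 h1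
    push_cast at h2
    linarith
  · simp only [fc_eq, fn6, Bool.or_eq_true] at h
    set Tl : Nat := max (plo5 a2 + plo5 a3 + plo5 a4 + plo5 a5) (9663676416 - (phi5 b0 + phi5 b1)) with hTl
    have hT : (Tl : ℝ) ≤ 4294967296 * P5 x2 + 4294967296 * P5 x3 + 4294967296 * P5 x4 + 4294967296 * P5 x5 := by
      rw [hTl, Nat.cast_max]
      apply max_le
      · push_cast; linarith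
      · apply cast_sub_le
        · push_cast; linarith
        · linarith
    have hT0 : (0 : ℝ) ≤ (Tl : ℝ) := Nat.cast_nonneg _
    have k0 : 0 ≤ 4294967296 * P5 x0 := by linarith
    have k1 : 0 ≤ 4294967296 * P5 x1 := by linarith
    have k2 : 0 ≤ 4294967296 * P5 x2 := by linarith
    have k3 : 0 ≤ 4294967296 * P5 x3 := by linarith
    have k4 : 0 ≤ 4294967296 * P5 x4 := by linarith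
    have k5 : 0 ≤ 4294967296 * P5 x5 := by linarith
    rcases h with h | h
    · left
      have h1 := Nat.le_of_ble_eq_true h
      have h2 := (Nat.cast_le (α := ℝ)).2 h1
      push_cast at h2
      have key := alg6 (M := 4294967296) (A := 8880) (B := 1444) (by norm_num) k0 k1 k2 k3 k4 k5
        p0 p1 p2 p3 p4 p5 r3 hT0 hT (by norm_num) (by norm_num) (by linarith)
      linarith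
    · right
      have h1 := Nat.le_of_ble_eq_true h
      have h2 := (Nat.cast_le (α := ℝ)).2 h1
      push_cast at h2
      have key := alg6 (M := 4294967296) (A := 17512) (B := 0) (by norm_num) k0 k1 k2 k3 k4 k5
        p0 p1 p2 p3 p4 p5 r3 hT0 hT (by norm_num) (by norm_num) (by linarith)
      linarith
  · exact (be6_sound h hb0 hf0).elim
  · exact (be6_sound h hb0 hf0).elim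

theorem sp6_sound {g : Nat → Nat → Nat → Nat → Nat → Nat → Nat → Nat → Nat → Nat → Nat → Nat → Bool} {x0 x1 x2 x3 x4 x5 : ℝ} {Q : Prop}
    (hg : ∀ a0 a1 a2 a3 a4 a5 b0 b1 b2 b3 b4 b5 : Nat, g a0 a1 a2 a3 a4 a5 b0 b1 b2 b3 b4 b5 = true → Box6 a0 a1 a2 a3 a4 a5 b0 b1 b2 b3 b4 b5 x0 x1 x2 x3 x4 x5 → Q) {a0 a1 a2 a3 a4 a5 b0 b1 b2 b3 b4 b5 : Nat}
    (h : sp6 g a0 a1 a2 a3 a4 a5 b0 b1 b2 b3 b4 b5 = true) (hb : Box6 a0 a1 a2 a3 a4 a5 b0 b1 b2 b3 b4 b5 x0 x1 x2 x3 x4 x5) : Q := by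
  obtain ⟨⟨⟨l0, u0⟩, c0, d0⟩, ⟨⟨l1, u1⟩, c1, d1⟩, ⟨⟨l2, u2⟩, c2, d2⟩, ⟨⟨l3, u3⟩, c3, d3⟩, ⟨⟨l4, u4⟩, c4, d4⟩, ⟨⟨l5, u5⟩, c5, d5⟩⟩ := hb
  simp only [sp6, fc_eq] at h
  rw [Bool.cond_eq_ite] at h
  split_ifs at h with hw
  · clear hw
    rw [Bool.and_eq_true] at h
    have hc : (a0 + b0) / 2 ≤ 4096 := by omega
    rcases le_total x0 ((((a0 + b0) / 2 : ℕ) : ℝ) * (1 / 4096 : ℝ)) with hx | hx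
    · exact hg _ _ _ _ _ _ _ _ _ _ _ _ h.1 ⟨⟨⟨l0, hx⟩, c0, hc⟩, ⟨⟨l1, u1⟩, c1, d1⟩, ⟨⟨l2, u2⟩, c2, d2⟩, ⟨⟨l3, u3⟩, c3, d3⟩, ⟨⟨l4, u4⟩, c4, d4⟩, ⟨⟨l5, u5⟩, c5, d5⟩⟩
    · exact hg _ _ _ _ _ _ _ _ _ _ _ _ h.2 ⟨⟨⟨hx, u0⟩, hc, d0⟩, ⟨⟨l1, u1⟩, c1, d1⟩, ⟨⟨l2, u2⟩, c2, d2⟩, ⟨⟨l3, u3⟩, c3, d3⟩, ⟨⟨l4, u4⟩, c4, d4⟩, ⟨⟨l5, u5⟩, c5, d5⟩⟩
  clear hw
  rw [Bool.cond_eq_ite] at h
  split_ifs at h with hw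
  · clear hw
    rw [Bool.and_eq_true] at h
    have hc : (a1 + b1) / 2 ≤ 4096 := by omega
    rcases le_total x1 ((((a1 + b1) / 2 : ℕ) : ℝ) * (1 / 4096 : ℝ)) with hx | hx
    · exact hg _ _ _ _ _ _ _ _ _ _ _ _ h.1 ⟨⟨⟨l0, u0⟩, c0, d0⟩, ⟨⟨l1, hx⟩, c1, hc⟩, ⟨⟨l2, u2⟩, c2, d2⟩, ⟨⟨l3, u3⟩, c3, d3⟩, ⟨⟨l4, u4⟩, c4, d4⟩, ⟨⟨l5, u5⟩, c5, d5⟩⟩
    · exact hg _ _ _ _ _ _ _ _ _ _ _ _ h.2 ⟨⟨⟨l0, u0⟩, c0, d0⟩, ⟨⟨hx, u1⟩, hc, d1⟩, ⟨⟨l2, u2⟩, c2, d2⟩, ⟨⟨l3, u3⟩, c3, d3⟩, ⟨⟨l4, u4⟩, c4, d4⟩, ⟨⟨l5, u5⟩, c5, d5⟩⟩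
  clear hw
  rw [Bool.cond_eq_ite] at h
  split_ifs at h with hw
  · clear hw
    rw [Bool.and_eq_true] at h
    have hc : (a2 + b2) / 2 ≤ 4096 := by omega
    rcases le_total x2 ((((a2 + b2) / 2 : ℕ) : ℝ) * (1 / 4096 : ℝ)) with hx | hx
    · exact hg _ _ _ _ _ _ _ _ _ _ _ _ h.1 ⟨⟨⟨l0, u0⟩, c0, d0⟩, ⟨⟨l1, u1⟩, c1, d1⟩, ⟨⟨l2, hx⟩, c2, hc⟩, ⟨⟨l3, u3⟩, c3, d3⟩, ⟨⟨l4, u4⟩, c4, d4⟩, ⟨⟨l5, u5⟩, c5, d5⟩⟩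
    · exact hg _ _ _ _ _ _ _ _ _ _ _ _ h.2 ⟨⟨⟨l0, u0⟩, c0, d0⟩, ⟨⟨l1, u1⟩, c1, d1⟩, ⟨⟨hx, u2⟩, hc, d2⟩, ⟨⟨l3, u3⟩, c3, d3⟩, ⟨⟨l4, u4⟩, c4, d4⟩, ⟨⟨l5, u5⟩, c5, d5⟩⟩
  clear hw
  rw [Bool.cond_eq_ite] at h
  split_ifs at h with hw
  · clear hw
    rw [Bool.and_eq_true] at h
    have hc : (a3 + b3) / 2 ≤ 4096 := by omega
    rcases le_total x3 ((((a3 + b3) / 2 : ℕ) : ℝ) * (1 / 4096 : ℝ)) with hx | hx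
    · exact hg _ _ _ _ _ _ _ _ _ _ _ _ h.1 ⟨⟨⟨l0, u0⟩, c0, d0⟩, ⟨⟨l1, u1⟩, c1, d1⟩, ⟨⟨l2, u2⟩, c2, d2⟩, ⟨⟨l3, hx⟩, c3, hc⟩, ⟨⟨l4, u4⟩, c4, d4⟩, ⟨⟨l5, u5⟩, c5, d5⟩⟩
    · exact hg _ _ _ _ _ _ _ _ _ _ _ _ h.2 ⟨⟨⟨l0, u0⟩, c0, d0⟩, ⟨⟨l1, u1⟩, c1, d1⟩, ⟨⟨l2, u2⟩, c2, d2⟩, ⟨⟨hx, u3⟩, hc, d3⟩, ⟨⟨l4, u4⟩, c4, d4⟩, ⟨⟨l5, u5⟩, c5, d5⟩⟩
  clear hw
  rw [Bool.cond_eq_ite] at h
  split_ifs at h with hw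
  · clear hw
    rw [Bool.and_eq_true] at h
    have hc : (a4 + b4) / 2 ≤ 4096 := by omega
    rcases le_total x4 ((((a4 + b4) / 2 : ℕ) : ℝ) * (1 / 4096 : ℝ)) with hx | hx
    · exact hg _ _ _ _ _ _ _ _ _ _ _ _ h.1 ⟨⟨⟨l0, u0⟩, c0, d0⟩, ⟨⟨l1, u1⟩, c1, d1⟩, ⟨⟨l2, u2⟩, c2, d2⟩, ⟨⟨l3, u3⟩, c3, d3⟩, ⟨⟨l4, hx⟩, c4, hc⟩, ⟨⟨l5, u5⟩, c5, d5⟩⟩
    · exact hg _ _ _ _ _ _ _ _ _ _ _ _ h.2 ⟨⟨⟨l0, u0⟩, c0, d0⟩, ⟨⟨l1, u1⟩, c1, d1⟩, ⟨⟨l2, u2⟩, c2, d2⟩, ⟨⟨l3, u3⟩, c3, d3⟩, ⟨⟨hx, u4⟩, hc, d4⟩, ⟨⟨l5, u5⟩, c5, d5⟩⟩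
  clear hw
  rw [Bool.and_eq_true] at h
  have hc : (a5 + b5) / 2 ≤ 4096 := by omega
  rcases le_total x5 ((((a5 + b5) / 2 : ℕ) : ℝ) * (1 / 4096 : ℝ)) with hx | hx
  · exact hg _ _ _ _ _ _ _ _ _ _ _ _ h.1 ⟨⟨⟨l0, u0⟩, c0, d0⟩, ⟨⟨l1, u1⟩, c1, d1⟩, ⟨⟨l2, u2⟩, c2, d2⟩, ⟨⟨l3, u3⟩, c3, d3⟩, ⟨⟨l4, u4⟩, c4, d4⟩, ⟨⟨l5, hx⟩, c5, hc⟩⟩
  · exact hg _ _ _ _ _ _ _ _ _ _ _ _ h.2 ⟨⟨⟨l0, u0⟩, c0, d0⟩, ⟨⟨l1, u1⟩, c1, d1⟩, ⟨⟨l2, u2⟩, c2, d2⟩, ⟨⟨l3, u3⟩, c3, d3⟩, ⟨⟨l4, u4⟩, c4, d4⟩, ⟨⟨hx, u5⟩, hc, d5⟩⟩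

theorem go6_sound (f : Nat) : ∀ a0 a1 a2 a3 a4 a5 b0 b1 b2 b3 b4 b5 : Nat, go6 f a0 a1 a2 a3 a4 a5 b0 b1 b2 b3 b4 b5 = true → ∀ x0 x1 x2 x3 x4 x5 : ℝ,
    Box6 a0 a1 a2 a3 a4 a5 b0 b1 b2 b3 b4 b5 x0 x1 x2 x3 x4 x5 → Feas6 x0 x1 x2 x3 x4 x5 → Good6 x0 x1 x2 x3 x4 x5 := by
  induction f with
  | zero => intro _ _ _ _ _ _ _ _ _ _ _ _ h; simp [go6] at h
  | succ f ih =>
    intro a0 a1 a2 a3 a4 a5 b0 b1 b2 b3 b4 b5 h x0 x1 x2 x3 x4 x5 hb hf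
    simp only [go6, fc_eq] at h
    obtain ⟨⟨⟨l0, u0⟩, c0, d0⟩, ⟨⟨l1, u1⟩, c1, d1⟩, ⟨⟨l2, u2⟩, c2, d2⟩, ⟨⟨l3, u3⟩, c3, d3⟩, ⟨⟨l4, u4⟩, c4, d4⟩, ⟨⟨l5, u5⟩, c5, d5⟩⟩ := hb
    have hf0 := hf
    obtain ⟨_, s0, s1, s2, s3, s4, _, _, _⟩ := hf0
    have m1 := in_max l0 l1 s0
    have mc1 := max_le c0 c1
    have m2 := in_max m1 l2 s1
    have mc2 := max_le mc1 c2
    have m3 := in_max m2 l3 s2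
    have mc3 := max_le mc2 c3
    have m4 := in_max m3 l4 s3
    have mc4 := max_le mc3 c4
    have m5 := in_max m4 l5 s4
    have mc5 := max_le mc4 c5
    have v4 := in_min u4 u5 s4
    have v3 := in_min u3 v4 s3
    have v2 := in_min u2 v3 s2
    have v1 := in_min u1 v2 s1
    have v0 := in_min u0 v1 s0
    rw [Bool.or_eq_true] at h
    rcases h with h | h
    · exact pr6_sound h ⟨⟨⟨l0, v0⟩, c0, (min_le_left _ _).trans d0⟩, ⟨⟨m1, v1⟩, mc1, (min_le_left _ _).trans d1⟩, ⟨⟨m2, v2⟩, mc2, (min_le_left _ _).trans d2⟩, ⟨⟨m3, v3⟩, mc3, (min_le_left _ _).trans d3⟩, ⟨⟨m4, v4⟩, mc4, (min_le_left _ _).trans d4⟩, ⟨⟨m5, u5⟩, mc5, d5⟩⟩ hf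
    · exact sp6_sound (fun _ _ _ _ _ _ _ _ _ _ _ _ hg hb => ih _ _ _ _ _ _ _ _ _ _ _ _ hg _ _ _ _ _ _ hb hf) h
        ⟨⟨⟨l0, v0⟩, c0, (min_le_left _ _).trans d0⟩, ⟨⟨m1, v1⟩, mc1, (min_le_left _ _).trans d1⟩, ⟨⟨m2, v2⟩, mc2, (min_le_left _ _).trans d2⟩, ⟨⟨m3, v3⟩, mc3, (min_le_left _ _).trans d3⟩, ⟨⟨m4, v4⟩, mc4, (min_le_left _ _).trans d4⟩, ⟨⟨m5, u5⟩, mc5, d5⟩⟩

theorem go6_run : go6 40 0 0 0 0 0 0 4096 4096 4096 4096 4096 4096 = true := by decide +kernel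

theorem core6 : Core6 := by
  intro x0 x1 x2 x3 x4 x5 h0 s0 s1 s2 s3 s4 ht hG hP
  have hb : Box6 0 0 0 0 0 0 4096 4096 4096 4096 4096 4096 x0 x1 x2 x3 x4 x5 := by
    refine ⟨⟨⟨?_, ?_⟩, by norm_num, by norm_num⟩, ⟨⟨?_, ?_⟩, by norm_num, by norm_num⟩, ⟨⟨?_, ?_⟩, by norm_num, by norm_num⟩, ⟨⟨?_, ?_⟩, by norm_num, by norm_num⟩, ⟨⟨?_, ?_⟩, by norm_num, by norm_num⟩, ⟨⟨?_, ?_⟩, by norm_num, by norm_num⟩⟩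
    all_goals (push_cast; linarith)
  exact go6_sound 40 0 0 0 0 0 0 4096 4096 4096 4096 4096 4096 go6_run x0 x1 x2 x3 x4 x5 hb ⟨h0, s0, s1, s2, s3, s4, ht, hG, hP⟩

end BB
end P226
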