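import Vale.Agent.P226_h16.FinRed
import Vale.Agent.P226_h16.BB6

/-! P226: the real inequality for 6 cells. -/

open Set

namespace P226

theorem fin6 (q t : Fin 6 → ℝ) (hq0 : 0 < q 0) (hm : Monotone q)
    (ht : ∀ i, t i ∈ Icc (-1 : ℝ) 1) (hqt : ∀ i, q i ≤ (1 - t i ^ 2) ^ 4 / (2 * Real.pi))
    (hsum : ∑ i, (2 - 3 * t i + t i ^ 3) / 4 = 1) (hV : 9 / (8 * Real.pi) < ∑ i, q i)
    (ha : (q 2 + q 3 + q 4 + q 5) ^ 2 / 4 + (q 2 + q 3 + q 4 + q 5) * q 3 / 2 -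
      (q 2 ^ 2 + q 3 ^ 2 + q 4 ^ 2 + q 5 ^ 2) / 2 - (q 2 + q 3 + q 4 + q 5) * (q 0 + q 1) <
      25 / (3456 * Real.pi ^ 3) * (25 * q 0 + q 1) ^ 3 / q 0 ^ 2)
    (hb : (q 2 + q 3 + q 4 + q 5) ^ 2 / 4 + (q 2 + q 3 + q 4 + q 5) * q 3 / 2 -
      (q 2 ^ 2 + q 3 ^ 2 + q 4 ^ 2 + q 5 ^ 2) / 2 - (q 2 + q 3 + q 4 + q 5) * (q 0 + q 1) <
      216 / Real.pi ^ 3 * q 0) : False :=
  fin6_of_core BB.core6 q t hq0 hm ht hqt hsum hV ha hb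

end P226
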