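import Vale.Agent.P226_h16.NCLib2

/-! P226, module NC5 (nc5a, nc6a, nc6b). -/

open MeasureTheory ProbabilityTheory Set
open scoped RealInnerProductSpace ENNReal

namespace P226

variable {E : Type*} [NormedAddCommGroup E] [InnerProductSpace ℝ E] [FiniteDimensional ℝ E]
  [MeasurableSpace E] [BorelSpace E]

/-- sum of the six Gram determinants -/
noncomputable def gds (U : Fin 4 → E) : ℝ :=
  gd (U 0) (U 1) + gd (U 0) (U 2) + gd (U 0) (U 3) + gd (U 1) (U 2) + gd (U 1) (U 3)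
    + gd (U 2) (U 3)

theorem gds_pos (U : Fin 4 → E) (hs : ∑ l, U l = 0) (hneg : ∀ i j, i ≠ j → ⟪U i, U j⟫ < 0) :
    0 < gds U := by
  have h : U 0 + U 1 + U 2 + U 3 = 0 := by rwa [Fin.sum_univ_four] at hs
  have n01 := hneg 0 1 (by decide)
  have n02 := hneg 0 2 (by decide)
  have n03 := hneg 0 3 (by decide)
  have n12 := hneg 1 2 (by decide)
  have n13 := hneg 1 3 (by decide)
  have n23 := hneg 2 3 (by decide)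
  have n10 := hneg 1 0 (by decide)
  have n20 := hneg 2 0 (by decide)
  have n30 := hneg 3 0 (by decide)
  have n21 := hneg 2 1 (by decide)
  have n31 := hneg 3 1 (by decide)
  have n32 := hneg 3 2 (by decide)
  have p01 := four_pos h n01 n02 n03 n12 n13
  have p02 := four_pos (u := U 0) (v := U 2) (w := U 1) (z := U 3) (by rw [← h]; abel) n02 n01 n03
    n21 n23
  have p03 := four_pos (u := U 0) (v := U 3) (w := U 1) (z := U 2) (by rw [← h]; abel) n03 n01 n02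
    n31 n32
  have p12 := four_pos (u := U 1) (v := U 2) (w := U 0) (z := U 3) (by rw [← h]; abel) n12 n10 n13
    n20 n23
  have p13 := four_pos (u := U 1) (v := U 3) (w := U 0) (z := U 2) (by rw [← h]; abel) n13 n10 n12
    n30 n32
  have p23 := four_pos (u := U 2) (v := U 3) (w := U 0) (z := U 1) (by rw [← h]; abel) n23 n20 n21
    n30 n31
  unfold gds
  linarith

theorem net_geom (U : Fin 4 → E) (hs : ∑ l, U l = 0) (hneg : ∀ i j, i ≠ j → ⟪U i, U j⟫ < 0)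
    {m a0 a1 a2 a3 d0 d1 d2 d3 D0 : ℝ}
    (hd0 : 0 ≤ d0) (hd1 : 0 ≤ d1) (hd2 : 0 ≤ d2) (hd3 : 0 ≤ d3)
    (ha01 : a0 ≤ a1) (ha12 : a1 ≤ a2) (ha23 : a2 ≤ a3)
    (n0 : a0 - d0 = m ^ 2 * ‖U 0‖ ^ 2) (n1 : a1 - d1 = m ^ 2 * ‖U 1‖ ^ 2)
    (n2 : a2 - d2 = m ^ 2 * ‖U 2‖ ^ 2) (n3 : a3 - d3 = m ^ 2 * ‖U 3‖ ^ 2)
    (hD : d0 + d1 + d2 + d3 ≤ D0) (hDa : d0 + d1 + d2 + d3 ≤ 2 * a0) :
    (a0 + a1 + a2 + a3) ^ 2 / 4 + (a0 + a1 + a2 + a3) * a1 / 2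
      - (a0 ^ 2 + a1 ^ 2 + a2 ^ 2 + a3 ^ 2) / 2 - (a0 + a1 + a2 + a3) * D0
    ≤ m ^ 4 * gds U := by
  have h : U 0 + U 1 + U 2 + U 3 = 0 := by rwa [Fin.sum_univ_four] at hs
  have hm2 : 0 ≤ m ^ 2 := sq_nonneg m
  have g : ∀ i j, i ≠ j → 0 ≤ m ^ 2 * (-⟪U i, U j⟫) := fun i j hij =>
    mul_nonneg hm2 (by have := hneg i j hij; linarith)
  have f0 := four_norm (u := U 0) (v := U 1) (w := U 2) (z := U 3) h
  have f1 := four_norm (u := U 1) (v := U 0) (w := U 2) (z := U 3) (by rw [← h]; abel)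
  have f2 := four_norm (u := U 2) (v := U 0) (w := U 1) (z := U 3) (by rw [← h]; abel)
  have f3 := four_norm (u := U 3) (v := U 0) (w := U 1) (z := U 2) (by rw [← h]; abel)
  rw [real_inner_comm (U 0) (U 1)] at f1
  rw [real_inner_comm (U 0) (U 2), real_inner_comm (U 1) (U 2)] at f2
  rw [real_inner_comm (U 0) (U 3), real_inner_comm (U 1) (U 3), real_inner_comm (U 2) (U 3)] at f3
  have key := net4_ge (g 0 1 (by decide)) (g 0 2 (by decide)) (g 0 3 (by decide))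
    (g 1 2 (by decide)) (g 1 3 (by decide)) (g 2 3 (by decide)) hd0 hd1 hd2 hd3 ha01 ha12 ha23
    (by rw [n0, f0]; ring) (by rw [n1, f1]; ring) (by rw [n2, f2]; ring) (by rw [n3, f3]; ring)
    hD hDa
  refine key.trans (le_of_eq ?_)
  rw [n0, n1, n2, n3]
  unfold gds gd
  ring

theorem four_sq_le {a b c d : ℝ} (ha : 0 ≤ a) (hb : 0 ≤ b) (hc : 0 ≤ c) (hd : 0 ≤ d)
    (h : a + b + c + d ≤ 1) : a ^ 2 + b ^ 2 + c ^ 2 + d ^ 2 ≤ 1 := by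
  have h1 : (a + b + c + d) ^ 2 ≤ 1 := by
    have h0 : 0 ≤ a + b + c + d := by linarith
    nlinarith
  have h2 : (a + b + c + d) ^ 2 = a ^ 2 + b ^ 2 + c ^ 2 + d ^ 2
      + 2 * (a * b + a * c + a * d + b * c + b * d + c * d) := by ring
  have := mul_nonneg ha hb
  have := mul_nonneg ha hc
  have := mul_nonneg ha hd
  have := mul_nonneg hb hc
  have := mul_nonneg hb hd
  have := mul_nonneg hc hd
  linarith

theorem nc5a_geom (C : Crit (Fin 4) E) :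
    ∃ δ : ℝ, gds C.V ≤ 3 * δ ^ 2 ∧
      (((4:ℕ) + 1 : ℝ) / (2 * (4:ℕ))) ^ 2 * 48 ^ 2 * (C.m ^ 2 * δ ^ 2)
        < 2 * 25 ^ 3 / Real.pi ^ 3 := by
  have hpi := Real.pi_pos
  have hpos := gds_pos C.V C.sum_V C.V_neg
  obtain ⟨δ, hδ0, hδ3, hA, -⟩ := area4_max C.e 0 C.V (fun _ => 0) C.toFrame.o C.norm_e (by simp)
    C.V_perp (by simp) C.sum_V (by simp) hpos
  have hsε : C.ε 0 + (C.ε 1 + C.ε 2 + C.ε 3) = 1 := by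
    have := C.sum_eps; rw [Fin.sum_univ_four] at this; linarith
  have hso : ∑ l, C.toFrame.o l = 5 := by
    unfold Frame.o
    rw [Fin.sum_univ_four]; linarith
  rw [hso] at hA
  have hB : 0 ≤ Real.sqrt (2 / Real.pi) * (Real.sqrt ((5:ℝ) ^ 2 + ‖(0:E)‖ ^ 2)) ^ 3 /
      (48 * Real.pi * δ) := by positivity
  have hrem := removal_lt C hB (fun x => by
    refine le_of_eq ?_
    unfold Frame.minL Frame.Z
    simp) hA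
  have hstep := sq_step (k := ((4:ℕ) + 1 : ℝ) / (2 * (4:ℕ))) (by norm_num) C.m_pos hδ0
    (by norm_num) hrem
  have ez : ((5:ℝ) ^ 2 + ‖(0:E)‖ ^ 2) = 25 := by rw [norm_zero]; norm_num
  rw [sqrt_cube_sq (by positivity), ez] at hstep
  exact ⟨δ, hδ3, hstep⟩

theorem nc5a (C : Crit (Fin 4) E) (q : Fin 5 → ℝ) (hq : IsQ C q) (hm : Monotone q) :
    (q 1 + q 2 + q 3 + q 4) ^ 2 / 4 + (q 1 + q 2 + q 3 + q 4) * q 2 / 2 -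
      (q 1 ^ 2 + q 2 ^ 2 + q 3 ^ 2 + q 4 ^ 2) / 2 - (q 1 + q 2 + q 3 + q 4) * q 0 <
      1250 / (12 * Real.pi ^ 3) * q 0 := by
  have hpi := Real.pi_pos
  have hm0 := C.m_pos
  obtain ⟨δ, hδ3, hstep⟩ := nc5a_geom C
  have h0 : q 0 = C.m ^ 2 := hq.1
  have h1 : q 1 = C.m ^ 2 * (C.ε 0 ^ 2 + ‖C.V 0‖ ^ 2) := hq.2 0
  have h2 : q 2 = C.m ^ 2 * (C.ε 1 ^ 2 + ‖C.V 1‖ ^ 2) := hq.2 1
  have h3 : q 3 = C.m ^ 2 * (C.ε 2 ^ 2 + ‖C.V 2‖ ^ 2) := hq.2 2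
  have h4 : q 4 = C.m ^ 2 * (C.ε 3 ^ 2 + ‖C.V 3‖ ^ 2) := hq.2 3
  have hq0 : 0 < q 0 := by rw [h0]; positivity
  have e0 := C.eps_nonneg 0
  have e1 := C.eps_nonneg 1
  have e2 := C.eps_nonneg 2
  have e3 := C.eps_nonneg 3
  have hsε : C.ε 0 + (C.ε 1 + C.ε 2 + C.ε 3) = 1 := by
    have := C.sum_eps; rw [Fin.sum_univ_four] at this; linarith
  have hε2 : C.ε 0 ^ 2 + C.ε 1 ^ 2 + C.ε 2 ^ 2 + C.ε 3 ^ 2 ≤ 1 := by
    exact four_sq_le e0 e1 e2 e3 (by linarith)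
  have hD : C.m ^ 2 * C.ε 0 ^ 2 + C.m ^ 2 * C.ε 1 ^ 2 + C.m ^ 2 * C.ε 2 ^ 2
      + C.m ^ 2 * C.ε 3 ^ 2 ≤ q 0 := by
    have := mul_le_mul_of_nonneg_left hε2 (sq_nonneg C.m)
    rw [h0]; linarith
  have h01 : q 0 ≤ q 1 := hm (by decide)
  have key := net_geom C.V C.sum_V C.V_neg (m := C.m) (a0 := q 1) (a1 := q 2) (a2 := q 3)
    (a3 := q 4) (d0 := C.m ^ 2 * C.ε 0 ^ 2) (d1 := C.m ^ 2 * C.ε 1 ^ 2)
    (d2 := C.m ^ 2 * C.ε 2 ^ 2) (d3 := C.m ^ 2 * C.ε 3 ^ 2) (D0 := q 0)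
    (by positivity) (by positivity) (by positivity) (by positivity)
    (hm (by decide)) (hm (by decide)) (hm (by decide))
    (by rw [h1]; ring) (by rw [h2]; ring) (by rw [h3]; ring) (by rw [h4]; ring) hD (by linarith)
  refine lt_of_le_of_lt key ?_
  have k1 : C.m ^ 4 * gds C.V ≤ 3 * q 0 * (C.m ^ 2 * δ ^ 2) := by
    have := mul_le_mul_of_nonneg_left hδ3 (by positivity : 0 ≤ C.m ^ 4)
    rw [h0]
    calc C.m ^ 4 * gds C.V ≤ C.m ^ 4 * (3 * δ ^ 2) := this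
      _ = 3 * C.m ^ 2 * (C.m ^ 2 * δ ^ 2) := by ring
  refine lt_of_le_of_lt k1 ?_
  have hmul := mul_lt_mul_of_pos_right hstep hq0
  have er : 2 * (25:ℝ) ^ 3 / Real.pi ^ 3 * q 0 = 300 * (1250 / (12 * Real.pi ^ 3) * q 0) := by
    field_simp; norm_num
  rw [er] at hmul
  push_cast at hmul
  nlinarith

theorem nc6_geom (C : Crit (Fin 5) E) :
    ∃ (U : Fin 4 → E) (P : Fin 4 → ℝ) (δ : ℝ), ∑ l, U l = 0 ∧ (∀ i j, i ≠ j → ⟪U i, U j⟫ < 0) ∧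
      (∀ l, 0 ≤ P l) ∧ P 0 + P 1 + P 2 + P 3 ≤ ‖C.V 0‖ ^ 2 ∧
      (∀ l, ‖U l‖ ^ 2 = ‖C.V l.succ‖ ^ 2 - P l) ∧ gds U ≤ 3 * δ ^ 2 ∧
      (((5:ℕ) + 1 : ℝ) / (2 * (5:ℕ))) ^ 2 * 48 ^ 2 * (C.m ^ 2 * δ ^ 2)
        < 2 * ((5 - C.ε 0) ^ 2 + ‖C.V 0‖ ^ 2) ^ 3 / Real.pi ^ 3 ∧
      (((5:ℕ) + 1 : ℝ) / (2 * (5:ℕ))) ^ 2 * 60 ^ 2 * (C.m ^ 2 * δ ^ 2)
        < 2 * (6 ^ 3) ^ 2 / Real.pi ^ 3 := by
  have hpi := Real.pi_pos
  have hm0 := C.m_pos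
  have hsε : C.ε 0 + (C.ε 1 + C.ε 2 + C.ε 3 + C.ε 4) = 1 := by
    have := C.sum_eps; rw [Fin.sum_univ_five] at this; linarith
  have hW : C.V 0 ≠ 0 := by
    intro h
    have := C.V_neg 0 1 (by decide)
    rw [h, inner_zero_left] at this
    exact lt_irrefl _ this
  have hsU : ∑ l : Fin 4, C.V l.succ = -C.V 0 := by
    have := C.sum_V
    rw [Fin.sum_univ_succ] at this
    rw [eq_neg_iff_add_eq_zero, add_comm]; exact this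
  obtain ⟨V', c, hUV, hVW, hsV, hsc, hin, hno, hP, hperp⟩ := proj_family (C.V 0)
    (fun l : Fin 4 => C.V l.succ) hW hsU (fun l => C.V_neg _ _ (Fin.succ_ne_zero l))
  have hneg := proj_neg (C.V 0) (fun l : Fin 4 => C.V l.succ) V' hin
    (fun i j hij => C.V_neg _ _ (fun h => hij (Fin.succ_injective _ h)))
    (fun l => C.V_neg _ _ (Fin.succ_ne_zero l))
  have hpos := gds_pos V' hsV hneg
  obtain ⟨δ, hδ0, hδ3, hA, hA2⟩ := area4_max C.e (C.V 0) V' c (fun l => C.toFrame.o l.succ)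
    C.norm_e (C.V_perp 0) (hperp C.e (C.V_perp 0) (fun l => C.V_perp l.succ)) hVW hsV hsc hpos
  have hso : ∑ l : Fin 4, C.toFrame.o l.succ = 5 - C.ε 0 := by
    unfold Frame.o
    rw [Fin.sum_univ_four]
    change 1 + C.ε 1 + (1 + C.ε 2) + (1 + C.ε 3) + (1 + C.ε 4) = 5 - C.ε 0
    linarith
  rw [hso] at hA
  have hso6 : ∑ l : Fin 4, C.toFrame.o l.succ + C.toFrame.o 0 = 6 := by
    rw [hso]; unfold Frame.o; ring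
  have hB : 0 ≤ Real.sqrt (2 / Real.pi) * (Real.sqrt ((5 - C.ε 0) ^ 2 + ‖C.V 0‖ ^ 2)) ^ 3 /
      (48 * Real.pi * δ) := by positivity
  have hrem := removal_lt C hB (fun x => by
    refine (minL_le_inf' C (fun l : Fin 4 => l.succ) x).trans (le_of_eq ?_)
    congr 1
    funext l
    rw [hUV l]) hA
  have hstep := sq_step (k := ((5:ℕ) + 1 : ℝ) / (2 * (5:ℕ))) (by norm_num) hm0 hδ0 (by norm_num)
    hrem
  rw [sqrt_cube_sq (by positivity)] at hstep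
  have hA3 := hA2 (C.toFrame.o 0) (by rw [hso6]; norm_num)
  rw [hso6] at hA3
  have hB2 : 0 ≤ Real.sqrt (2 / Real.pi) * 6 ^ 3 / (60 * Real.pi * δ) := by positivity
  have hrem2 := removal_lt C hB2 (fun x => by
    refine le_min ?_ ?_
    · exact Finset.inf'_le (fun l => C.toFrame.o l * ⟪C.e, x⟫ - C.toFrame.Z l x)
        (Finset.mem_univ 0)
    · refine (minL_le_inf' C (fun l : Fin 4 => l.succ) x).trans (le_of_eq ?_)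
      congr 1
      funext l
      rw [hUV l]) hA3
  have hstep2 := sq_step (k := ((5:ℕ) + 1 : ℝ) / (2 * (5:ℕ))) (by norm_num) hm0 hδ0 (by norm_num)
    hrem2
  refine ⟨V', fun l => ⟪C.V l.succ, C.V 0⟫ ^ 2 / ‖C.V 0‖ ^ 2, δ, hsV, hneg,
    fun l => by positivity, ?_, hno, hδ3, hstep, hstep2⟩
  rwa [Fin.sum_univ_four] at hP

theorem nc6_dsum {m e0 e1 e2 e3 e4 w P0 P1 P2 P3 : ℝ} (he0 : 0 ≤ e0) (he1 : 0 ≤ e1)
    (he2 : 0 ≤ e2) (he3 : 0 ≤ e3) (he4 : 0 ≤ e4) (hs : e0 + (e1 + e2 + e3 + e4) = 1)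
    (hP : P0 + P1 + P2 + P3 ≤ w) :
    m ^ 2 * (e1 ^ 2 + P0) + m ^ 2 * (e2 ^ 2 + P1) + m ^ 2 * (e3 ^ 2 + P2)
      + m ^ 2 * (e4 ^ 2 + P3) ≤ m ^ 2 + m ^ 2 * (e0 ^ 2 + w) := by
  have h1 := four_sq_le he1 he2 he3 he4 (by linarith)
  have hx : e1 ^ 2 + P0 + (e2 ^ 2 + P1) + (e3 ^ 2 + P2) + (e4 ^ 2 + P3) ≤ 1 + (e0 ^ 2 + w) := by
    have := sq_nonneg e0
    linarith
  have := mul_le_mul_of_nonneg_left hx (sq_nonneg m)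
  linarith

theorem nc6_net (C : Crit (Fin 5) E) (q : Fin 6 → ℝ) (hq : IsQ C q) (hm : Monotone q)
    (U : Fin 4 → E) (P : Fin 4 → ℝ) (δ : ℝ) (hs : ∑ l, U l = 0)
    (hneg : ∀ i j, i ≠ j → ⟪U i, U j⟫ < 0)
    (hP0 : ∀ l, 0 ≤ P l) (hP : P 0 + P 1 + P 2 + P 3 ≤ ‖C.V 0‖ ^ 2)
    (hU : ∀ l, ‖U l‖ ^ 2 = ‖C.V l.succ‖ ^ 2 - P l) (hδ3 : gds U ≤ 3 * δ ^ 2) :
    (q 2 + q 3 + q 4 + q 5) ^ 2 / 4 + (q 2 + q 3 + q 4 + q 5) * q 3 / 2 -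
      (q 2 ^ 2 + q 3 ^ 2 + q 4 ^ 2 + q 5 ^ 2) / 2 - (q 2 + q 3 + q 4 + q 5) * (q 0 + q 1) ≤
      3 * q 0 * (C.m ^ 2 * δ ^ 2) := by
  have hm0 := C.m_pos
  have h0 : q 0 = C.m ^ 2 := hq.1
  have h1 : q 1 = C.m ^ 2 * (C.ε 0 ^ 2 + ‖C.V 0‖ ^ 2) := hq.2 0
  have h2 : q 2 = C.m ^ 2 * (C.ε 1 ^ 2 + ‖C.V 1‖ ^ 2) := hq.2 1
  have h3 : q 3 = C.m ^ 2 * (C.ε 2 ^ 2 + ‖C.V 2‖ ^ 2) := hq.2 2
  have h4 : q 4 = C.m ^ 2 * (C.ε 3 ^ 2 + ‖C.V 3‖ ^ 2) := hq.2 3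
  have h5 : q 5 = C.m ^ 2 * (C.ε 4 ^ 2 + ‖C.V 4‖ ^ 2) := hq.2 4
  have u0 : ‖U 0‖ ^ 2 = ‖C.V 1‖ ^ 2 - P 0 := hU 0
  have u1 : ‖U 1‖ ^ 2 = ‖C.V 2‖ ^ 2 - P 1 := hU 1
  have u2 : ‖U 2‖ ^ 2 = ‖C.V 3‖ ^ 2 - P 2 := hU 2
  have u3 : ‖U 3‖ ^ 2 = ‖C.V 4‖ ^ 2 - P 3 := hU 3
  have e0 := C.eps_nonneg 0
  have e1 := C.eps_nonneg 1
  have e2 := C.eps_nonneg 2
  have e3 := C.eps_nonneg 3
  have e4 := C.eps_nonneg 4
  have hsε : C.ε 0 + (C.ε 1 + C.ε 2 + C.ε 3 + C.ε 4) = 1 := by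
    have := C.sum_eps; rw [Fin.sum_univ_five] at this; linarith
  have hD : C.m ^ 2 * (C.ε 1 ^ 2 + P 0) + C.m ^ 2 * (C.ε 2 ^ 2 + P 1)
      + C.m ^ 2 * (C.ε 3 ^ 2 + P 2) + C.m ^ 2 * (C.ε 4 ^ 2 + P 3) ≤ q 0 + q 1 := by
    rw [h0, h1]; exact nc6_dsum e0 e1 e2 e3 e4 hsε hP
  have p0 := hP0 0
  have p1 := hP0 1
  have p2 := hP0 2
  have p3 := hP0 3
  have h02 : q 0 ≤ q 2 := hm (by decide)
  have h12 : q 1 ≤ q 2 := hm (by decide)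
  have key := net_geom U hs hneg (m := C.m) (a0 := q 2) (a1 := q 3) (a2 := q 4)
    (a3 := q 5) (d0 := C.m ^ 2 * (C.ε 1 ^ 2 + P 0)) (d1 := C.m ^ 2 * (C.ε 2 ^ 2 + P 1))
    (d2 := C.m ^ 2 * (C.ε 3 ^ 2 + P 2)) (d3 := C.m ^ 2 * (C.ε 4 ^ 2 + P 3)) (D0 := q 0 + q 1)
    (by positivity) (by positivity) (by positivity) (by positivity)
    (hm (by decide)) (hm (by decide)) (hm (by decide))
    (by rw [h2, u0]; ring) (by rw [h3, u1]; ring) (by rw [h4, u2]; ring) (by rw [h5, u3]; ring)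
    hD (by linarith)
  refine key.trans ?_
  have := mul_le_mul_of_nonneg_left hδ3 (by positivity : 0 ≤ C.m ^ 4)
  rw [h0]
  calc C.m ^ 4 * gds U ≤ C.m ^ 4 * (3 * δ ^ 2) := this
    _ = 3 * C.m ^ 2 * (C.m ^ 2 * δ ^ 2) := by ring

theorem nc6a (C : Crit (Fin 5) E) (q : Fin 6 → ℝ) (hq : IsQ C q) (hm : Monotone q) :
    (q 2 + q 3 + q 4 + q 5) ^ 2 / 4 + (q 2 + q 3 + q 4 + q 5) * q 3 / 2 -
      (q 2 ^ 2 + q 3 ^ 2 + q 4 ^ 2 + q 5 ^ 2) / 2 - (q 2 + q 3 + q 4 + q 5) * (q 0 + q 1) <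
      25 / (3456 * Real.pi ^ 3) * (25 * q 0 + q 1) ^ 3 / q 0 ^ 2 := by
  obtain ⟨U, P, δ, hs, hneg, hP0, hP, hU, hδ3, hstep, -⟩ := nc6_geom C
  refine lt_of_le_of_lt (nc6_net C q hq hm U P δ hs hneg hP0 hP hU hδ3) ?_
  have hpi := Real.pi_pos
  have hm0 := C.m_pos
  have h0 : q 0 = C.m ^ 2 := hq.1
  have h1 : q 1 = C.m ^ 2 * (C.ε 0 ^ 2 + ‖C.V 0‖ ^ 2) := hq.2 0
  have hq0 : 0 < q 0 := by rw [h0]; positivity
  have e0 := C.eps_nonneg 0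
  have hR : (5 - C.ε 0) ^ 2 + ‖C.V 0‖ ^ 2 ≤ (25 * q 0 + q 1) / q 0 := by
    rw [le_div_iff₀ hq0, h1, h0]
    nlinarith [mul_nonneg (sq_nonneg C.m) e0]
  have hR3 : ((5 - C.ε 0) ^ 2 + ‖C.V 0‖ ^ 2) ^ 3 ≤ ((25 * q 0 + q 1) / q 0) ^ 3 :=
    pow_le_pow_left₀ (by positivity) hR 3
  have er : 2 * ((5 - C.ε 0) ^ 2 + ‖C.V 0‖ ^ 2) ^ 3 / Real.pi ^ 3
      ≤ 2 * ((25 * q 0 + q 1) / q 0) ^ 3 / Real.pi ^ 3 := by
    gcongr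
  have hmul := mul_lt_mul_of_pos_right (hstep.trans_le er) hq0
  have er2 : 2 * ((25 * q 0 + q 1) / q 0) ^ 3 / Real.pi ^ 3 * q 0
      = 6912 / 25 * (25 / (3456 * Real.pi ^ 3) * (25 * q 0 + q 1) ^ 3 / q 0 ^ 2) := by
    field_simp
    ring
  rw [er2] at hmul
  push_cast at hmul
  nlinarith

theorem nc6b (C : Crit (Fin 5) E) (q : Fin 6 → ℝ) (hq : IsQ C q) (hm : Monotone q) :
    (q 2 + q 3 + q 4 + q 5) ^ 2 / 4 + (q 2 + q 3 + q 4 + q 5) * q 3 / 2 -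
      (q 2 ^ 2 + q 3 ^ 2 + q 4 ^ 2 + q 5 ^ 2) / 2 - (q 2 + q 3 + q 4 + q 5) * (q 0 + q 1) <
      216 / Real.pi ^ 3 * q 0 := by
  obtain ⟨U, P, δ, hs, hneg, hP0, hP, hU, hδ3, -, hstep⟩ := nc6_geom C
  refine lt_of_le_of_lt (nc6_net C q hq hm U P δ hs hneg hP0 hP hU hδ3) ?_
  have hpi := Real.pi_pos
  have hm0 := C.m_pos
  have h0 : q 0 = C.m ^ 2 := hq.1
  have hq0 : 0 < q 0 := by rw [h0]; positivity
  have hmul := mul_lt_mul_of_pos_right hstep hq0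
  have er2 : 2 * ((6:ℝ) ^ 3) ^ 2 / Real.pi ^ 3 * q 0 = 432 * (216 / Real.pi ^ 3 * q 0) := by
    field_simp
    norm_num
  rw [er2] at hmul
  push_cast at hmul
  nlinarith

end P226
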