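import Vale.Agent.P226_h16.Defs16
import Vale.Agent.P226_h5.K4
import Vale.Agent.P226_h16.DimRed
import Vale.Agent.P226_h16.Cells
import Vale.Agent.P226_h16.AlgX
import Vale.Agent.P226_h16.Cone
import Vale.Agent.P226_h16.NC5
import Vale.Agent.P226_h16.Fin5
import Vale.Agent.P226_h16.Fin6

/-! P226 module ASM: all partitions with 4, 5, 6 cells. -/

open MeasureTheory ProbabilityTheory Set
open scoped RealInnerProductSpace ENNReal

namespace P226

section gen

variable {E : Type*} [NormedAddCommGroup E] [InnerProductSpace ℝ E] [FiniteDimensional ℝ E]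
  [MeasurableSpace E] [BorelSpace E]

/-- a partition with `n + 1` cells beating `c`, when `n` cells cannot, gives a critical frame with
sorted squared moments, and cones with these moments -/
theorem asm_opt (n : ℕ) [Nonempty (Fin n)] (h2 : 2 ≤ n) (c : ℝ)
    (hprev : ∀ B : Fin n → Set E, IsPart B → ∑ i, ‖mom (B i)‖ ^ 2 ≤ c)
    (B : Fin (n + 1) → Set E) (hB : IsPart B) (hgt : c < ∑ i, ‖mom (B i)‖ ^ 2) :
    ∃ (C : Crit (Fin n) E) (q : Fin (n + 1) → ℝ) (A' : Fin (n + 1) → Set E),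
      IsQ C q ∧ Monotone q ∧ 0 < q 0 ∧ c < ∑ i, q i ∧
      (∀ i, MeasurableSet (A' i) ∧ IsCone (A' i) ∧ ‖mom (A' i)‖ ^ 2 = q i) ∧
      ∑ i, (stdGaussian E).real (A' i) = 1 := by
  obtain ⟨w0, A0, hA0, hw0, hmax0, hopt⟩ := exists_opt (E := E) (n + 1) (Nat.succ_pos n)
  set σ : Equiv.Perm (Fin (n + 1)) := Tuple.sort (fun i => ‖w0 i‖) with hσ
  have hmono : Monotone (fun i => ‖w0 (σ i)‖) := Tuple.monotone_sort (fun i => ‖w0 i‖)
  set w : Fin (n + 1) → E := fun i => w0 (σ i) with hwdef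
  set A : Fin (n + 1) → Set E := fun i => A0 (σ i) with hAdef
  have hA : IsPart A := by
    refine ⟨fun i => hA0.meas _, fun i j hij => hA0.disj (fun h => hij (σ.injective h)), ?_⟩
    rw [← hA0.cover]
    exact σ.surjective.iUnion_comp (fun i => A0 i)
  have hw : ∀ i, mom (A i) = w i := fun i => hw0 _
  have hmax : ∀ i, ∀ x ∈ A i, ∀ j, ⟪w j, x⟫ ≤ ⟪w i, x⟫ := fun i x hx j => hmax0 _ x hx _
  have hsumw : ∑ i, ‖w i‖ ^ 2 = ∑ i, ‖w0 i‖ ^ 2 :=
    Equiv.sum_comp σ (fun i => ‖w0 i‖ ^ 2)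
  have hV : c < ∑ i, ‖w i‖ ^ 2 := by
    rw [hsumw]
    exact hgt.trans_le (hopt B hB)
  have hstrict : ∀ B : Fin n → Set E, IsPart B →
      ∑ i, ‖mom (B i)‖ ^ 2 < ∑ i, ‖w i‖ ^ 2 := fun B hB => (hprev B hB).trans_lt hV
  have hmin : ∀ i, ‖w 0‖ ≤ ‖w i‖ := fun i => hmono (Fin.zero_le i)
  obtain ⟨C, hC0, hCl⟩ := exists_critX n h2 w A hA hw hmax hstrict hmin
  have hneg := merge_neg n (by omega) w A hA hw hstrict
  have hinj : Function.Injective w := by
    intro i j hij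
    by_contra hne
    have := hneg i j hne
    rw [hij, real_inner_self_eq_norm_sq] at this
    exact absurd this (not_lt.2 (sq_nonneg _))
  have hcone := fun i => opt_cone (n + 1) w A hA hmax hinj i
  choose A' hA'm hA'c hA'mom hA'real using hcone
  refine ⟨C, fun i => ‖w i‖ ^ 2, A', ⟨?_, fun l => ?_⟩, ?_, ?_, hV, fun i => ⟨hA'm i, hA'c i, ?_⟩, ?_⟩
  · show ‖w 0‖ ^ 2 = _
    rw [hC0, norm_smul, C.norm_e, Real.norm_of_nonneg C.m_pos.le, mul_one]
  · show ‖w l.succ‖ ^ 2 = _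
    rw [hCl, norm_add_sq_real, norm_smul, norm_smul, real_inner_smul_left, real_inner_smul_right,
      real_inner_comm, C.V_perp, C.norm_e, Real.norm_eq_abs, Real.norm_eq_abs, mul_pow,
      mul_pow, sq_abs, sq_abs]
    ring
  · intro i j hij
    exact pow_le_pow_left₀ (norm_nonneg _) (hmono hij) 2
  · show 0 < ‖w 0‖ ^ 2
    rw [hC0, norm_smul, C.norm_e, Real.norm_of_nonneg C.m_pos.le, mul_one]
    exact pow_pos C.m_pos 2
  · rw [hA'mom, hw]
  · simp_rw [hA'real]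
    exact sum_real_part (n + 1) A hA

end gen

variable {E : Type*} [NormedAddCommGroup E] [InnerProductSpace ℝ E] [FiniteDimensional ℝ E]
  [MeasurableSpace E] [BorelSpace E]

theorem k4_le (A : Fin 4 → Set E) (hA : IsPart A) :
    ∑ i, ‖mom (A i)‖ ^ 2 ≤ 9 / (8 * Real.pi) := four_cells A hA

theorem k5_le (A : Fin 5 → Set E) (hA : IsPart A) :
    ∑ i, ‖mom (A i)‖ ^ 2 ≤ 9 / (8 * Real.pi) := by
  refine dim_red 4 _ (fun B hB => ?_) A hA
  by_contra hcon
  rw [not_le] at hcon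
  obtain ⟨C, q, A', hq, hm, hq0, hV, hA', hsum⟩ := asm_opt 4 (by norm_num) _
    (fun B hB => k4_le B hB) B hB hcon
  have hd : Module.finrank ℝ (EuclideanSpace ℝ (Fin 4)) = 4 := by simp
  have hc := fun i => cone4 hd (A' i) (hA' i).1 (hA' i).2.1
  choose t ht htr htq using hc
  refine fin5 q t hq0 hm ht (fun i => ?_) ?_ hV (nc5a C q hq hm)
  · rw [← (hA' i).2.2]; exact htq i
  · refine Eq.trans ?_ hsum
    exact Finset.sum_congr rfl fun i _ => (htr i).symm

theorem k6_le (A : Fin 6 → Set E) (hA : IsPart A) :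
    ∑ i, ‖mom (A i)‖ ^ 2 ≤ 9 / (8 * Real.pi) := by
  refine dim_red 5 _ (fun B hB => ?_) A hA
  by_contra hcon
  rw [not_le] at hcon
  obtain ⟨C, q, A', hq, hm, hq0, hV, hA', hsum⟩ := asm_opt 5 (by norm_num) _
    (fun B hB => k5_le B hB) B hB hcon
  have hd : Module.finrank ℝ (EuclideanSpace ℝ (Fin 5)) = 5 := by simp
  have hc := fun i => cone5 hd (A' i) (hA' i).1 (hA' i).2.1
  choose t ht htr htq using hc
  refine fin6 q t hq0 hm ht (fun i => ?_) ?_ hV (nc6a C q hq hm) (nc6b C q hq hm)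
  · rw [← (hA' i).2.2]; exact htq i
  · refine Eq.trans ?_ hsum
    exact Finset.sum_congr rfl fun i _ => (htr i).symm

end P226
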