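import Mathlib

/-! P226, FIN4/5/6: definitions for the branch and bound and the core statements.
Normalisation: `Q = 2π q`. Cone profile in dimension `d`: cone of measure `Gd x` has `2π |mom|² ≤ Pd x`,
`x = 1 - t` for `d = 3, 5`, `x = α` for `d = 4`. -/

namespace P226
namespace BB

noncomputable section

def P3 (x : ℝ) : ℝ := (x * (2 - x)) ^ 2
def G3 (x : ℝ) : ℝ := x / 2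
def P4 (x : ℝ) : ℝ := Real.sin x ^ 6
def G4 (x : ℝ) : ℝ := (x - Real.sin x * Real.cos x) / Real.pi
def P5 (x : ℝ) : ℝ := (x * (2 - x)) ^ 4
def G5 (x : ℝ) : ℝ := x ^ 2 * (3 - x) / 4

/-- CORE6 -/
def Core6 : Prop := ∀ x0 x1 x2 x3 x4 x5 : ℝ, 0 ≤ x0 → x0 ≤ x1 → x1 ≤ x2 → x2 ≤ x3 → x3 ≤ x4 →
  x4 ≤ x5 → x5 ≤ 1 →
  G5 x0 + G5 x1 + G5 x2 + G5 x3 + G5 x4 + G5 x5 ≤ 1 →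
  9 / 4 < P5 x0 + P5 x1 + P5 x2 + P5 x3 + P5 x4 + P5 x5 →
  22.2 * P5 x0 + 3.61 * P5 x1 ≤
    (P5 x2 + P5 x3 + P5 x4 + P5 x5) ^ 2 / 4 + (P5 x2 + P5 x3 + P5 x4 + P5 x5) * P5 x3 / 2 -
      (P5 x2 ^ 2 + P5 x3 ^ 2 + P5 x4 ^ 2 + P5 x5 ^ 2) / 2 -
      (P5 x2 + P5 x3 + P5 x4 + P5 x5) * (P5 x0 + P5 x1) ∨
  43.78 * P5 x0 ≤
    (P5 x2 + P5 x3 + P5 x4 + P5 x5) ^ 2 / 4 + (P5 x2 + P5 x3 + P5 x4 + P5 x5) * P5 x3 / 2 -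
      (P5 x2 ^ 2 + P5 x3 ^ 2 + P5 x4 ^ 2 + P5 x5 ^ 2) / 2 -
      (P5 x2 + P5 x3 + P5 x4 + P5 x5) * (P5 x0 + P5 x1)

/-- CORE5 -/
def Core5 : Prop := ∀ x0 x1 x2 x3 x4 : ℝ, 0 ≤ x0 → x0 ≤ x1 → x1 ≤ x2 → x2 ≤ x3 → x3 ≤ x4 →
  x4 ≤ Real.pi / 2 →
  G4 x0 + G4 x1 + G4 x2 + G4 x3 + G4 x4 ≤ 1 →
  9 / 4 < P4 x0 + P4 x1 + P4 x2 + P4 x3 + P4 x4 →
  21.11 * P4 x0 ≤
    (P4 x1 + P4 x2 + P4 x3 + P4 x4) ^ 2 / 4 + (P4 x1 + P4 x2 + P4 x3 + P4 x4) * P4 x2 / 2 -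
      (P4 x1 ^ 2 + P4 x2 ^ 2 + P4 x3 ^ 2 + P4 x4 ^ 2) / 2 -
      (P4 x1 + P4 x2 + P4 x3 + P4 x4) * P4 x0

/-- CORE4 -/
def Core4 : Prop := ∀ x0 x1 x2 x3 : ℝ, 0 ≤ x0 → x0 ≤ x1 → x1 ≤ x2 → x2 ≤ x3 → x3 ≤ 1 →
  x0 ≤ 0.18355 →
  G3 x0 + G3 x1 + G3 x2 + G3 x3 ≤ 1 →
  9 / 4 < P3 x0 + P3 x1 + P3 x2 + P3 x3 →
  2.8821 * P3 x0 ≤
    (P3 x1 + P3 x2 + P3 x3) ^ 2 / 4 - (P3 x1 ^ 2 + P3 x2 ^ 2 + P3 x3 ^ 2) / 2 -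
      (P3 x1 + P3 x2 + P3 x3) * P3 x0 / 2 + P3 x1 * P3 x0 - P3 x0 ^ 2 / 4

end
end BB
end P226
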