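import Vale.Agent.P226_h16.BBGen

/-! P226: tables for the polynomial profiles `d = 3, 5`. -/

open Set

namespace P226
namespace BB

def phi5 (j : Nat) : Nat := ((j * (8192 - j)) ^ 4 + 18446744073709551615) / 18446744073709551616
def plo5 (j : Nat) : Nat := (j * (8192 - j)) ^ 4 / 18446744073709551616
def glo5 (j : Nat) : Nat := j * j * (12288 - j) / 64

def phi3 (j : Nat) : Nat := ((j * (8192 - j)) ^ 2 + 65535) / 65536
def plo3 (j : Nat) : Nat := (j * (8192 - j)) ^ 2 / 65536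
def glo3 (j : Nat) : Nat := j * 524288

theorem P5_nonneg (x : ℝ) : 0 ≤ P5 x := by unfold P5; positivity
theorem P3_nonneg (x : ℝ) : 0 ≤ P3 x := by unfold P3; positivity

theorem s_mono {x y : ℝ} (h0 : 0 ≤ x) (hxy : x ≤ y) (hy : y ≤ 1) :
    x * (2 - x) ≤ y * (2 - y) := by nlinarith

theorem s_nonneg {x : ℝ} (h0 : 0 ≤ x) (hy : x ≤ 1) : 0 ≤ x * (2 - x) :=
  mul_nonneg h0 (by linarith)

theorem P5_mono {x y : ℝ} (h0 : 0 ≤ x) (hxy : x ≤ y) (hy : y ≤ 1) : P5 x ≤ P5 y := by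
  unfold P5
  exact pow_le_pow_left₀ (s_nonneg h0 (hxy.trans hy)) (s_mono h0 hxy hy) 4

theorem P3_mono {x y : ℝ} (h0 : 0 ≤ x) (hxy : x ≤ y) (hy : y ≤ 1) : P3 x ≤ P3 y := by
  unfold P3
  exact pow_le_pow_left₀ (s_nonneg h0 (hxy.trans hy)) (s_mono h0 hxy hy) 2

theorem G5_mono {x y : ℝ} (h0 : 0 ≤ x) (hxy : x ≤ y) (hy : y ≤ 1) : G5 x ≤ G5 y := by
  unfold G5
  have h1 : 0 ≤ y := h0.trans hxy
  have : 0 ≤ (y - x) * (3 * (x + y) - (x ^ 2 + x * y + y ^ 2)) := by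
    apply mul_nonneg (by linarith)
    nlinarith
  nlinarith

theorem cast_s (j : Nat) (hj : j ≤ 4096) : ((j * (8192 - j) : ℕ) : ℝ) =
    16777216 * (((j : ℝ) * (1 / 4096)) * (2 - (j : ℝ) * (1 / 4096))) := by
  rw [Nat.cast_mul, Nat.cast_sub (by omega)]
  push_cast
  ring

theorem grid_le {j : Nat} (hj : j ≤ 4096) : (j : ℝ) * (1 / 4096) ≤ 1 := by
  have : (j : ℝ) ≤ 4096 := by exact_mod_cast hj
  linarith

theorem phi5_ge {j : Nat} (hj : j ≤ 4096) : 4294967296 * P5 ((j : ℝ) * (1 / 4096)) ≤ phi5 j := by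
  have h := ceil_div_ge ((j * (8192 - j)) ^ 4) 18446744073709551616 (by norm_num)
  refine le_trans (le_of_eq ?_) h
  rw [Nat.cast_pow, cast_s j hj, P5]
  push_cast
  ring

theorem phi5_spec {j : Nat} {x : ℝ} (hj : j ≤ 4096) (h0 : 0 ≤ x) (h1 : x ≤ 1)
    (hx : x ≤ (j : ℝ) * (1 / 4096)) : 4294967296 * P5 x ≤ phi5 j := by
  refine le_trans ?_ (phi5_ge hj)
  have := P5_mono h0 hx (grid_le hj)
  linarith

theorem plo5_spec {j : Nat} {x : ℝ} (hj : j ≤ 4096) (h1 : x ≤ 1)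
    (hx : (j : ℝ) * (1 / 4096) ≤ x) : (plo5 j : ℝ) ≤ 4294967296 * P5 x := by
  have h := floor_div_le ((j * (8192 - j)) ^ 4) 18446744073709551616 (by norm_num)
  refine h.trans ?_
  have h2 := P5_mono (by positivity) hx h1
  refine le_trans (le_of_eq ?_) (mul_le_mul_of_nonneg_left h2 (by norm_num : (0:ℝ) ≤ 4294967296))
  rw [Nat.cast_pow, cast_s j hj, P5]
  push_cast
  ring

theorem glo5_le {j : Nat} (hj : j ≤ 4096) : (glo5 j : ℝ) ≤ 4294967296 * G5 ((j : ℝ) * (1 / 4096)) := by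
  have h := floor_div_le (j * j * (12288 - j)) 64 (by norm_num)
  refine h.trans (le_of_eq ?_)
  rw [Nat.cast_mul, Nat.cast_sub (by omega), G5]
  push_cast
  ring

theorem glo5_spec {j : Nat} {x : ℝ} (hj : j ≤ 4096) (h1 : x ≤ 1)
    (hx : (j : ℝ) * (1 / 4096) ≤ x) : (glo5 j : ℝ) ≤ 4294967296 * G5 x := by
  refine (glo5_le hj).trans ?_
  have := G5_mono (by positivity) hx h1
  linarith

theorem phi5_le {j : Nat} (hj : j ≤ 4096) : phi5 j ≤ 4294967296 := by
  unfold phi5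
  have h1 : j * (8192 - j) ≤ 16777216 := by
    zify [show j ≤ 8192 by omega]
    nlinarith [sq_nonneg ((j : ℤ) - 4096)]
  have h2 : (j * (8192 - j)) ^ 4 ≤ 16777216 ^ 4 := Nat.pow_le_pow_left h1 4
  omega

theorem phi3_ge {j : Nat} (hj : j ≤ 4096) : 4294967296 * P3 ((j : ℝ) * (1 / 4096)) ≤ phi3 j := by
  have h := ceil_div_ge ((j * (8192 - j)) ^ 2) 65536 (by norm_num)
  refine le_trans (le_of_eq ?_) h
  rw [Nat.cast_pow, cast_s j hj, P3]
  push_cast
  ring

theorem phi3_spec {j : Nat} {x : ℝ} (hj : j ≤ 4096) (h0 : 0 ≤ x) (h1 : x ≤ 1)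
    (hx : x ≤ (j : ℝ) * (1 / 4096)) : 4294967296 * P3 x ≤ phi3 j := by
  refine le_trans ?_ (phi3_ge hj)
  have := P3_mono h0 hx (grid_le hj)
  linarith

theorem plo3_spec {j : Nat} {x : ℝ} (hj : j ≤ 4096) (h1 : x ≤ 1)
    (hx : (j : ℝ) * (1 / 4096) ≤ x) : (plo3 j : ℝ) ≤ 4294967296 * P3 x := by
  have h := floor_div_le ((j * (8192 - j)) ^ 2) 65536 (by norm_num)
  refine h.trans ?_
  have h2 := P3_mono (by positivity) hx h1
  refine le_trans (le_of_eq ?_) (mul_le_mul_of_nonneg_left h2 (by norm_num : (0:ℝ) ≤ 4294967296))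
  rw [Nat.cast_pow, cast_s j hj, P3]
  push_cast
  ring

theorem glo3_le {j : Nat} : (glo3 j : ℝ) ≤ 4294967296 * G3 ((j : ℝ) * (1 / 4096)) := by
  unfold glo3 G3; push_cast; linarith

theorem glo3_spec {j : Nat} {x : ℝ} (_hj : j ≤ 4096) (_h1 : x ≤ 1)
    (hx : (j : ℝ) * (1 / 4096) ≤ x) : (glo3 j : ℝ) ≤ 4294967296 * G3 x := by
  refine glo3_le.trans ?_
  unfold G3
  linarith

theorem phi3_le {j : Nat} (hj : j ≤ 4096) : phi3 j ≤ 4294967296 := by
  unfold phi3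
  have h1 : j * (8192 - j) ≤ 16777216 := by
    zify [show j ≤ 8192 by omega]
    nlinarith [sq_nonneg ((j : ℤ) - 4096)]
  have h2 : (j * (8192 - j)) ^ 2 ≤ 16777216 ^ 2 := Nat.pow_le_pow_left h1 2
  omega

theorem sderiv (x : ℝ) : HasDerivAt (fun x : ℝ => x * (2 - x)) (2 - 2 * x) x := by
  have h := (hasDerivAt_id' x).mul ((hasDerivAt_id' x).const_sub 2)
  exact h.congr_deriv (by ring)

theorem conc5 (p : Nat) : ConcaveOn ℝ (Icc (0:ℝ) 1)
    (fun x => (1000 * G5 x + p * (1 - P5 x)) - (1500 + 8 * p) / 2 * x ^ 2) := by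
  have hG : ConcaveOn ℝ (Icc (0:ℝ) 1) (fun x : ℝ => -(250 * x ^ 3)) := by
    have h : ConvexOn ℝ (Ici (0:ℝ)) (fun x : ℝ => x ^ 3) := convexOn_pow 3
    have h2 : ConvexOn ℝ (Icc (0:ℝ) 1) (fun x : ℝ => x ^ 3) := h.subset Icc_subset_Ici_self (convex_Icc 0 1)
    exact (h2.smul (by norm_num : (0:ℝ) ≤ 250)).neg
  have hP : ConvexOn ℝ (Icc (0:ℝ) 1) (fun x : ℝ => P5 x + 4 * x ^ 2) := by
    have hd : ∀ x : ℝ, HasDerivAt (fun x : ℝ => P5 x + 4 * x ^ 2)
        (8 * (x * (2 - x)) ^ 3 * (1 - x) + 8 * x) x := by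
      intro x
      have h1 : HasDerivAt (fun x : ℝ => x * (2 - x)) (2 - 2 * x) x := sderiv x
      have h2 := (h1.pow 4).add (((hasDerivAt_id' x).pow 2).const_mul 4)
      have h3 : HasDerivAt (fun x : ℝ => P5 x + 4 * x ^ 2) _ x := h2
      exact h3.congr_deriv (by push_cast; ring)
    have hd2 : ∀ x : ℝ, HasDerivAt (fun x : ℝ => 8 * (x * (2 - x)) ^ 3 * (1 - x) + 8 * x)
        (48 * (x * (2 - x)) ^ 2 * (1 - x) ^ 2 + 8 * (1 - (x * (2 - x)) ^ 3)) x := by
      intro x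
      have h1 : HasDerivAt (fun x : ℝ => x * (2 - x)) (2 - 2 * x) x := sderiv x
      have h2 := (((h1.pow 3).const_mul 8).mul ((hasDerivAt_id' x).const_sub 1)).add
        ((hasDerivAt_id' x).const_mul 8)
      have h3 : HasDerivAt (fun x : ℝ => 8 * (x * (2 - x)) ^ 3 * (1 - x) + 8 * x) _ x := h2
      exact h3.congr_deriv (by simp only [Pi.pow_apply]; push_cast; ring)
    apply convexOn_of_deriv2_nonneg (convex_Icc 0 1)
    · exact fun x _ => (hd x).continuousAt.continuousWithinAt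
    · exact fun x _ => (hd x).differentiableAt.differentiableWithinAt
    · have : deriv (fun x : ℝ => P5 x + 4 * x ^ 2) =
        fun x => (8 * (x * (2 - x)) ^ 3 * (1 - x) + 8 * x) := funext fun x => (hd x).deriv
      rw [this]
      exact fun x _ => (hd2 x).differentiableAt.differentiableWithinAt
    · intro x hx
      have : deriv (fun x : ℝ => P5 x + 4 * x ^ 2) =
        fun x => (8 * (x * (2 - x)) ^ 3 * (1 - x) + 8 * x) := funext fun x => (hd x).deriv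
      rw [Function.iterate_succ, Function.comp_apply, this, Function.iterate_one, (hd2 x).deriv]
      rw [interior_Icc] at hx
      have h0 : 0 ≤ x * (2 - x) := s_nonneg hx.1.le hx.2.le
      have h1 : x * (2 - x) ≤ 1 := by nlinarith [sq_nonneg (x - 1)]
      have h2 : (x * (2 - x)) ^ 3 ≤ 1 := pow_le_one₀ h0 h1
      have h3 : 0 ≤ 48 * (x * (2 - x)) ^ 2 * (1 - x) ^ 2 := by positivity
      linarith
  have hP2 := (hP.smul (Nat.cast_nonneg p : (0:ℝ) ≤ (p:ℝ))).neg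
  have h := (hG.add hP2).add_const (p : ℝ)
  refine h.congr ?_
  intro x _
  simp only [Pi.add_apply, Pi.neg_apply, smul_eq_mul, G5]
  ring

theorem conc3 (p : Nat) : ConcaveOn ℝ (Icc (0:ℝ) 1)
    (fun x => (1000 * G3 x + p * (1 - P3 x)) - (4 * p) / 2 * x ^ 2) := by
  have hP : ConvexOn ℝ (Icc (0:ℝ) 1) (fun x : ℝ => P3 x + 2 * x ^ 2 - 0 * x) := by
    have hd : ∀ x : ℝ, HasDerivAt (fun x : ℝ => P3 x + 2 * x ^ 2 - 0 * x)
        (4 * (x * (2 - x)) * (1 - x) + 4 * x) x := by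
      intro x
      have h1 : HasDerivAt (fun x : ℝ => x * (2 - x)) (2 - 2 * x) x := sderiv x
      have h2 := ((h1.pow 2).add (((hasDerivAt_id' x).pow 2).const_mul 2)).sub
        ((hasDerivAt_id' x).const_mul 0)
      have h3 : HasDerivAt (fun x : ℝ => P3 x + 2 * x ^ 2 - 0 * x) _ x := h2
      exact h3.congr_deriv (by push_cast; ring)
    have hd2 : ∀ x : ℝ, HasDerivAt (fun x : ℝ => 4 * (x * (2 - x)) * (1 - x) + 4 * x)
        (8 * (1 - x) ^ 2 + 4 * (1 - x * (2 - x))) x := by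
      intro x
      have h1 : HasDerivAt (fun x : ℝ => x * (2 - x)) (2 - 2 * x) x := sderiv x
      have h2 := (((h1.const_mul 4)).mul ((hasDerivAt_id' x).const_sub 1)).add
        ((hasDerivAt_id' x).const_mul 4)
      have h3 : HasDerivAt (fun x : ℝ => 4 * (x * (2 - x)) * (1 - x) + 4 * x) _ x := h2
      exact h3.congr_deriv (by ring)
    apply convexOn_of_deriv2_nonneg (convex_Icc 0 1)
    · exact fun x _ => (hd x).continuousAt.continuousWithinAt
    · exact fun x _ => (hd x).differentiableAt.differentiableWithinAt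
    · have : deriv (fun x : ℝ => P3 x + 2 * x ^ 2 - 0 * x) =
        fun x => (4 * (x * (2 - x)) * (1 - x) + 4 * x) := funext fun x => (hd x).deriv
      rw [this]
      exact fun x _ => (hd2 x).differentiableAt.differentiableWithinAt
    · intro x hx
      have : deriv (fun x : ℝ => P3 x + 2 * x ^ 2 - 0 * x) =
        fun x => (4 * (x * (2 - x)) * (1 - x) + 4 * x) := funext fun x => (hd x).deriv
      rw [Function.iterate_succ, Function.comp_apply, this, Function.iterate_one, (hd2 x).deriv]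
      nlinarith [sq_nonneg (1 - x)]
  have hP2 := (hP.smul (Nat.cast_nonneg p : (0:ℝ) ≤ (p:ℝ))).neg
  have hL : ConcaveOn ℝ (Icc (0:ℝ) 1) (fun x : ℝ => 500 * x) := by
    exact (concaveOn_id (convex_Icc (0:ℝ) 1)).smul (by norm_num : (0:ℝ) ≤ 500)
  have h := (hL.add hP2).add_const (p : ℝ)
  refine h.congr ?_
  intro x _
  simp only [Pi.add_apply, Pi.neg_apply, smul_eq_mul, G3]
  ring

end BB
end P226
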