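import Vale.Agent.P226_h16.BBDefs

/-! P226: verified integer bounds for `sin^6`, `x - sin x cos x` on the grid `j * 3927/10240000`. -/

namespace P226
namespace BB

/-! ### Taylor bounds -/

/-- partial sums of the sine series -/
noncomputable def Sn (n : ℕ) (x : ℝ) : ℝ :=
  ∑ k ∈ Finset.range n, (-1 : ℝ) ^ k * x ^ (2 * k + 1) / ((2 * k + 1).factorial : ℝ)

/-- partial sums of the cosine series -/
noncomputable def Cn (n : ℕ) (x : ℝ) : ℝ :=
  ∑ k ∈ Finset.range n, (-1 : ℝ) ^ k * x ^ (2 * k) / ((2 * k).factorial : ℝ)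

theorem hasDerivAt_Sn (n : ℕ) (x : ℝ) : HasDerivAt (Sn n) (Cn n x) x := by
  unfold Sn Cn
  refine HasDerivAt.fun_sum fun k _ => ?_
  have h := (hasDerivAt_pow (2 * k + 1) x).const_mul ((-1 : ℝ) ^ k / ((2 * k + 1).factorial : ℝ))
  have e : (fun y : ℝ => (-1 : ℝ) ^ k * y ^ (2 * k + 1) / ((2 * k + 1).factorial : ℝ)) =
      fun y => (-1 : ℝ) ^ k / ((2 * k + 1).factorial : ℝ) * y ^ (2 * k + 1) := by
    funext y; ring
  rw [e]
  refine h.congr_deriv ?_
  rw [Nat.factorial_succ]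
  have h1 : ((2 * k).factorial : ℝ) ≠ 0 := by positivity
  have e3 : 2 * k + 1 - 1 = 2 * k := by omega
  rw [e3]
  push_cast
  have h2 : (2 * (k:ℝ) + 1) ≠ 0 := by positivity
  field_simp

theorem hasDerivAt_Cn (n : ℕ) (x : ℝ) : HasDerivAt (Cn (n + 1)) (-Sn n x) x := by
  have e : Cn (n + 1) = fun y => 1 + ∑ k ∈ Finset.range n,
      (-1 : ℝ) ^ (k + 1) * y ^ (2 * k + 2) / ((2 * k + 2).factorial : ℝ) := by
    funext y
    unfold Cn
    rw [Finset.sum_range_succ']
    simp only [Nat.mul_zero, pow_zero, Nat.factorial_zero, Nat.cast_one, mul_one, div_one]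
    rw [add_comm]
    rfl
  rw [e]
  have h : HasDerivAt (fun y : ℝ => ∑ k ∈ Finset.range n,
      (-1 : ℝ) ^ (k + 1) * y ^ (2 * k + 2) / ((2 * k + 2).factorial : ℝ)) (-Sn n x) x := by
    unfold Sn
    rw [← Finset.sum_neg_distrib]
    refine HasDerivAt.fun_sum fun k _ => ?_
    have h := (hasDerivAt_pow (2 * k + 2) x).const_mul
      ((-1 : ℝ) ^ (k + 1) / ((2 * k + 2).factorial : ℝ))
    have e : (fun y : ℝ => (-1 : ℝ) ^ (k + 1) * y ^ (2 * k + 2) / ((2 * k + 2).factorial : ℝ)) =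
        fun y => (-1 : ℝ) ^ (k + 1) / ((2 * k + 2).factorial : ℝ) * y ^ (2 * k + 2) := by
      funext y; ring
    rw [e]
    refine h.congr_deriv ?_
    have e2 : (2 * k + 2).factorial = (2 * k + 2) * (2 * k + 1).factorial := Nat.factorial_succ _
    rw [e2]
    have h1 : ((2 * k + 1).factorial : ℝ) ≠ 0 := by positivity
    have e3 : 2 * k + 2 - 1 = 2 * k + 1 := by omega
    rw [e3]
    push_cast
    have h2 : (2 * (k:ℝ) + 2) ≠ 0 := by positivity
    field_simp
    ring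
  simpa using h.const_add 1

theorem nonneg_of_deriv_nonneg {f f' : ℝ → ℝ} (hf : ∀ x, HasDerivAt f (f' x) x)
    (h0 : f 0 = 0) (hf' : ∀ x, 0 ≤ x → 0 ≤ f' x) {x : ℝ} (hx : 0 ≤ x) : 0 ≤ f x := by
  have hm : MonotoneOn f (Set.Ici 0) := by
    refine monotoneOn_of_deriv_nonneg (convex_Ici 0) ?_ ?_ ?_
    · exact fun x _ => (hf x).continuousAt.continuousWithinAt
    · exact fun x _ => (hf x).differentiableAt.differentiableWithinAt
    · intro x hx
      rw [interior_Ici] at hx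
      rw [(hf x).deriv]
      exact hf' x (le_of_lt hx)
  have := hm (Set.mem_Ici.2 le_rfl) (Set.mem_Ici.2 hx) hx
  linarith

theorem Sn_zero (n : ℕ) : Sn n 0 = 0 := by
  unfold Sn
  apply Finset.sum_eq_zero
  intro k _
  simp

theorem Cn_zero (n : ℕ) : Cn (n + 1) 0 = 1 := by
  unfold Cn
  rw [Finset.sum_range_succ', Finset.sum_eq_zero]
  · simp
  · intro k _; simp

theorem taylor_bounds (n : ℕ) : (∀ x : ℝ, 0 ≤ x → 0 ≤ (-1 : ℝ) ^ (n + 1) * (Real.cos x - Cn (n + 1) x)) ∧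
    (∀ x : ℝ, 0 ≤ x → 0 ≤ (-1 : ℝ) ^ (n + 1) * (Real.sin x - Sn (n + 1) x)) := by
  have hCS : ∀ n : ℕ, (∀ x : ℝ, 0 ≤ x → 0 ≤ (-1 : ℝ) ^ (n + 1) * (Real.cos x - Cn (n + 1) x)) →
      (∀ x : ℝ, 0 ≤ x → 0 ≤ (-1 : ℝ) ^ (n + 1) * (Real.sin x - Sn (n + 1) x)) := by
    intro n h x hx
    refine nonneg_of_deriv_nonneg
      (f := fun x => (-1 : ℝ) ^ (n + 1) * (Real.sin x - Sn (n + 1) x))
      (f' := fun x => (-1 : ℝ) ^ (n + 1) * (Real.cos x - Cn (n + 1) x)) ?_ ?_ h hx
    · intro x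
      exact ((Real.hasDerivAt_sin x).sub (hasDerivAt_Sn (n + 1) x)).const_mul _
    · simp [Sn_zero]
  have hC0 : ∀ x : ℝ, 0 ≤ x → 0 ≤ (-1 : ℝ) ^ (0 + 1) * (Real.cos x - Cn (0 + 1) x) := by
    intro x _
    have : Cn (0 + 1) x = 1 := by simp [Cn]
    rw [this]
    have := Real.cos_le_one x
    norm_num
    linarith
  have key : ∀ n : ℕ, ∀ x : ℝ, 0 ≤ x → 0 ≤ (-1 : ℝ) ^ (n + 1) * (Real.cos x - Cn (n + 1) x) := by
    intro n
    induction n with
    | zero => exact hC0
    | succ n ih =>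
      have hS := hCS n ih
      intro x hx
      refine nonneg_of_deriv_nonneg
        (f := fun x => (-1 : ℝ) ^ (n + 1 + 1) * (Real.cos x - Cn (n + 1 + 1) x))
        (f' := fun x => (-1 : ℝ) ^ (n + 1) * (Real.sin x - Sn (n + 1) x)) ?_ ?_ hS hx
      · intro x
        refine (((Real.hasDerivAt_cos x).sub (hasDerivAt_Cn (n + 1) x)).const_mul
          ((-1 : ℝ) ^ (n + 1 + 1))).congr_deriv ?_
        rw [pow_succ]; ring
      · simp [Cn_zero]
  exact ⟨key n, hCS n (key n)⟩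

/-! ### Horner forms -/

/-- one Horner step `1 - z v / c` -/
noncomputable def hst (z c v : ℝ) : ℝ := 1 - z * v / c

/-- lower Horner form of `sin x / x` (8 terms) -/
noncomputable def hsl (z : ℝ) : ℝ :=
  hst z 6 (hst z 20 (hst z 42 (hst z 72 (hst z 110 (hst z 156 (hst z 210 1))))))

/-- upper Horner form of `sin x / x` (9 terms) -/
noncomputable def hsu (z : ℝ) : ℝ :=
  hst z 6 (hst z 20 (hst z 42 (hst z 72 (hst z 110 (hst z 156 (hst z 210 (hst z 272 1)))))))

/-- upper Horner form of `cos x` (9 terms) -/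
noncomputable def hcu (z : ℝ) : ℝ :=
  hst z 2 (hst z 12 (hst z 30 (hst z 56 (hst z 90 (hst z 132 (hst z 182 (hst z 240 1)))))))

theorem Sn_eight (x : ℝ) : Sn 8 x = x * hsl (x ^ 2) := by
  simp only [Sn, hsl, hst, Finset.sum_range_succ, Finset.sum_range_zero]
  norm_num [Nat.factorial]
  ring

theorem Sn_nine (x : ℝ) : Sn 9 x = x * hsu (x ^ 2) := by
  simp only [Sn, hsu, hst, Finset.sum_range_succ, Finset.sum_range_zero]
  norm_num [Nat.factorial]
  ring

theorem Cn_nine (x : ℝ) : Cn 9 x = hcu (x ^ 2) := by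
  simp only [Cn, hcu, hst, Finset.sum_range_succ, Finset.sum_range_zero]
  norm_num [Nat.factorial]
  ring

theorem sin_ge {x : ℝ} (hx : 0 ≤ x) : x * hsl (x ^ 2) ≤ Real.sin x := by
  have h := (taylor_bounds 7).2 x hx
  norm_num at h
  rw [← Sn_eight]; linarith

theorem sin_le' {x : ℝ} (hx : 0 ≤ x) : Real.sin x ≤ x * hsu (x ^ 2) := by
  have h := (taylor_bounds 8).2 x hx
  norm_num at h
  rw [← Sn_nine]; linarith

theorem cos_le' {x : ℝ} (hx : 0 ≤ x) : Real.cos x ≤ hcu (x ^ 2) := by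
  have h := (taylor_bounds 8).1 x hx
  norm_num at h
  rw [← Cn_nine]; linarith

/-! ### integer arithmetic, scale `K = 2^48`, `z = uu / 10240000^2` -/

/-- up step: from a lower bound `t` to an upper bound; `c` includes the factor `10240000^2` -/
def su (uu c t : ℕ) : ℕ := 281474976710656 - uu * t / c

/-- down step -/
def sd (uu c t : ℕ) : ℕ := 281474976710656 - (uu * t / c + 1)

/-- lower bound of `2^48 sin x / x` -/
def tsl (uu : ℕ) : ℕ :=
  sd uu 629145600000000 (su uu 2097152000000000 (sd uu 4404019200000000 (su uu 7549747200000000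
    (sd uu 11534336000000000 (su uu 16357785600000000 (sd uu 22020096000000000
      281474976710656))))))

/-- upper bound of `2^48 sin x / x` -/
def tsu (uu : ℕ) : ℕ :=
  su uu 629145600000000 (sd uu 2097152000000000 (su uu 4404019200000000 (sd uu 7549747200000000
    (su uu 11534336000000000 (sd uu 16357785600000000 (su uu 22020096000000000
      (sd uu 28521267200000000 281474976710656)))))))

/-- upper bound of `2^48 cos x` -/
def tcu (uu : ℕ) : ℕ :=
  su uu 209715200000000 (sd uu 1258291200000000 (su uu 3145728000000000 (sd uu 5872025600000000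
    (su uu 9437184000000000 (sd uu 13841203200000000 (su uu 19084083200000000
      (sd uu 25165824000000000 281474976710656)))))))

/-- upper values of `2^32 sin^6` -/
def phi4 (j : ℕ) : ℕ :=
  if 4096 ≤ j then 4294967296 else
    min 4294967296 ((3927 * j * tsu ((3927 * j) ^ 2) / 10240000 + 1) ^ 6 / 2 ^ 256 + 1)

/-- lower values of `2^32 sin^6` -/
def plo4 (j : ℕ) : ℕ :=
  (3927 * j * tsl ((3927 * j) ^ 2) / 10240000) ^ 6 / 2 ^ 256

/-- lower values of `2^32 (x - sin x cos x) / π` -/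
def glo4 (j : ℕ) : ℕ :=
  3927 * j * (2 ^ 96 - tsu ((3927 * j) ^ 2) * tcu ((3927 * j) ^ 2)) * 10000000000 /
    (2 ^ 64 * 10240000 * 31415926536)

theorem su_spec {uu c t : ℕ} {c' v : ℝ} (hc' : 0 < c') (hc : (c:ℝ) = 10240000 ^ 2 * c')
    (ht : (t:ℝ) ≤ 2 ^ 48 * v) : 2 ^ 48 * hst ((uu:ℝ) / 10240000 ^ 2) c' v ≤ (su uu c t : ℝ) := by
  have h1 : ((uu * t / c : ℕ) : ℝ) ≤ ((uu * t : ℕ) : ℝ) / (c : ℝ) := Nat.cast_div_le
  have hcpos : (0:ℝ) < c := by rw [hc]; positivity
  have h2 : (281474976710656 : ℝ) - ((uu * t / c : ℕ) : ℝ) ≤ ((su uu c t : ℕ) : ℝ) := by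
    unfold su
    have h3 : ((281474976710656 : ℕ) : ℝ) ≤ ((uu * t / c + (281474976710656 - uu * t / c) : ℕ) : ℝ) := by
      exact_mod_cast (by omega)
    push_cast at h3 ⊢
    linarith
  refine le_trans ?_ h2
  have h4 : ((uu * t : ℕ) : ℝ) / (c : ℝ) ≤ 2 ^ 48 * ((uu:ℝ) / 10240000 ^ 2 * v / c') := by
    rw [hc]
    push_cast
    rw [div_le_iff₀ (by positivity)]
    have : (2:ℝ) ^ 48 * ((uu:ℝ) / 10240000 ^ 2 * v / c') * (10240000 ^ 2 * c') =
        (uu:ℝ) * (2 ^ 48 * v) := by field_simp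
    rw [this]
    exact mul_le_mul_of_nonneg_left ht (by positivity)
  unfold hst
  have e : (2:ℝ) ^ 48 * (1 - (uu:ℝ) / 10240000 ^ 2 * v / c') =
      281474976710656 - 2 ^ 48 * ((uu:ℝ) / 10240000 ^ 2 * v / c') := by ring
  rw [e]
  linarith

theorem sd_spec {uu c t : ℕ} {c' v : ℝ} (hc' : 0 < c') (hc : (c:ℝ) = 10240000 ^ 2 * c')
    (hv1 : v ≤ 1) (huu : (uu:ℝ) / 10240000 ^ 2 ≤ c')
    (ht : 2 ^ 48 * v ≤ (t:ℝ)) : (sd uu c t : ℝ) ≤ 2 ^ 48 * hst ((uu:ℝ) / 10240000 ^ 2) c' v := by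
  have hcpos : (0:ℝ) < c := by rw [hc]; positivity
  have h1 : ((uu * t : ℕ) : ℝ) / (c : ℝ) ≤ ((uu * t / c : ℕ) : ℝ) + 1 := (Nat.lt_floor_add_one _).le.trans_eq (by
    rw [Nat.floor_div_eq_div])
  have hz : (0:ℝ) ≤ (uu:ℝ) / 10240000 ^ 2 := by positivity
  have h4 : 2 ^ 48 * ((uu:ℝ) / 10240000 ^ 2 * v / c') ≤ ((uu * t : ℕ) : ℝ) / (c : ℝ) := by
    rw [hc]
    push_cast
    rw [le_div_iff₀ (by positivity)]
    have : (2:ℝ) ^ 48 * ((uu:ℝ) / 10240000 ^ 2 * v / c') * (10240000 ^ 2 * c') =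
        (uu:ℝ) * (2 ^ 48 * v) := by field_simp
    rw [this]
    exact mul_le_mul_of_nonneg_left ht (by positivity)
  have e : (2:ℝ) ^ 48 * hst ((uu:ℝ) / 10240000 ^ 2) c' v =
      281474976710656 - 2 ^ 48 * ((uu:ℝ) / 10240000 ^ 2 * v / c') := by unfold hst; ring
  have hnn : 0 ≤ hst ((uu:ℝ) / 10240000 ^ 2) c' v := by
    unfold hst
    have : (uu:ℝ) / 10240000 ^ 2 * v / c' ≤ 1 := by
      rw [div_le_one hc']
      calc (uu:ℝ) / 10240000 ^ 2 * v ≤ (uu:ℝ) / 10240000 ^ 2 * 1 :=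
            mul_le_mul_of_nonneg_left hv1 hz
        _ ≤ c' := by rw [mul_one]; exact huu
    linarith
  by_cases hlt : uu * t / c + 1 ≤ 281474976710656
  · unfold sd
    rw [Nat.cast_sub hlt]
    push_cast
    rw [e]
    linarith
  · unfold sd
    rw [Nat.sub_eq_zero_of_le (by omega)]
    push_cast
    positivity

theorem hst_le_one {z c v : ℝ} (hz : 0 ≤ z) (hc : 0 < c) (hv : 0 ≤ v) : hst z c v ≤ 1 := by
  unfold hst
  have : 0 ≤ z * v / c := by positivity
  linarith

theorem hst_nonneg {z c v : ℝ} (hc : 0 < c) (hz : 0 ≤ z) (hv : v ≤ 1) (hzc : z ≤ c) :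
    0 ≤ hst z c v := by
  unfold hst
  have : z * v / c ≤ 1 := by
    rw [div_le_one hc]
    calc z * v ≤ z * 1 := mul_le_mul_of_nonneg_left hv hz
      _ ≤ c := by rw [mul_one]; exact hzc
  linarith

theorem tsl_spec {uu : ℕ} (h : (uu:ℝ) / 10240000 ^ 2 ≤ 6) :
    (tsl uu : ℝ) ≤ 2 ^ 48 * hsl ((uu:ℝ) / 10240000 ^ 2) := by
  have hz : (0:ℝ) ≤ (uu:ℝ) / 10240000 ^ 2 := by positivity
  set z : ℝ := (uu:ℝ) / 10240000 ^ 2 with hzdef
  have a1 : 0 ≤ hst z 210 1 := hst_nonneg (by norm_num) hz le_rfl (by linarith)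
  have b1 : hst z 210 1 ≤ 1 := hst_le_one hz (by norm_num) zero_le_one
  have a2 : 0 ≤ hst z 156 (hst z 210 1) := hst_nonneg (by norm_num) hz b1 (by linarith)
  have b2 : hst z 156 (hst z 210 1) ≤ 1 := hst_le_one hz (by norm_num) a1
  have a3 := hst_nonneg (z := z) (c := 110) (by norm_num) hz b2 (by linarith)
  have b3 := hst_le_one (z := z) (c := 110) hz (by norm_num) a2
  have a4 := hst_nonneg (z := z) (c := 72) (by norm_num) hz b3 (by linarith)
  have b4 := hst_le_one (z := z) (c := 72) hz (by norm_num) a3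
  have a5 := hst_nonneg (z := z) (c := 42) (by norm_num) hz b4 (by linarith)
  have b5 := hst_le_one (z := z) (c := 42) hz (by norm_num) a4
  have a6 := hst_nonneg (z := z) (c := 20) (by norm_num) hz b5 (by linarith)
  have b6 := hst_le_one (z := z) (c := 20) hz (by norm_num) a5
  unfold tsl hsl
  refine sd_spec (by norm_num) (by norm_num) b6 (by linarith) ?_
  refine su_spec (by norm_num) (by norm_num) ?_
  refine sd_spec (by norm_num) (by norm_num) b4 (by linarith) ?_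
  refine su_spec (by norm_num) (by norm_num) ?_
  refine sd_spec (by norm_num) (by norm_num) b2 (by linarith) ?_
  refine su_spec (by norm_num) (by norm_num) ?_
  refine sd_spec (by norm_num) (by norm_num) le_rfl (by linarith) ?_
  norm_num

theorem tsu_spec {uu : ℕ} (h : (uu:ℝ) / 10240000 ^ 2 ≤ 6) :
    2 ^ 48 * hsu ((uu:ℝ) / 10240000 ^ 2) ≤ (tsu uu : ℝ) := by
  have hz : (0:ℝ) ≤ (uu:ℝ) / 10240000 ^ 2 := by positivity
  set z : ℝ := (uu:ℝ) / 10240000 ^ 2 with hzdef
  have a0 : 0 ≤ hst z 272 1 := hst_nonneg (by norm_num) hz le_rfl (by linarith)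
  have b0 : hst z 272 1 ≤ 1 := hst_le_one hz (by norm_num) zero_le_one
  have a1 := hst_nonneg (z := z) (c := 210) (by norm_num) hz b0 (by linarith)
  have b1 := hst_le_one (z := z) (c := 210) hz (by norm_num) a0
  have a2 := hst_nonneg (z := z) (c := 156) (by norm_num) hz b1 (by linarith)
  have b2 := hst_le_one (z := z) (c := 156) hz (by norm_num) a1
  have a3 := hst_nonneg (z := z) (c := 110) (by norm_num) hz b2 (by linarith)
  have b3 := hst_le_one (z := z) (c := 110) hz (by norm_num) a2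
  have a4 := hst_nonneg (z := z) (c := 72) (by norm_num) hz b3 (by linarith)
  have b4 := hst_le_one (z := z) (c := 72) hz (by norm_num) a3
  have a5 := hst_nonneg (z := z) (c := 42) (by norm_num) hz b4 (by linarith)
  have b5 := hst_le_one (z := z) (c := 42) hz (by norm_num) a4
  unfold tsu hsu
  refine su_spec (by norm_num) (by norm_num) ?_
  refine sd_spec (by norm_num) (by norm_num) b5 (by linarith) ?_
  refine su_spec (by norm_num) (by norm_num) ?_
  refine sd_spec (by norm_num) (by norm_num) b3 (by linarith) ?_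
  refine su_spec (by norm_num) (by norm_num) ?_
  refine sd_spec (by norm_num) (by norm_num) b1 (by linarith) ?_
  refine su_spec (by norm_num) (by norm_num) ?_
  refine sd_spec (by norm_num) (by norm_num) le_rfl (by linarith) ?_
  norm_num

theorem tcu_spec {uu : ℕ} (h : (uu:ℝ) / 10240000 ^ 2 ≤ 6) :
    2 ^ 48 * hcu ((uu:ℝ) / 10240000 ^ 2) ≤ (tcu uu : ℝ) := by
  have hz : (0:ℝ) ≤ (uu:ℝ) / 10240000 ^ 2 := by positivity
  set z : ℝ := (uu:ℝ) / 10240000 ^ 2 with hzdef
  have a0 : 0 ≤ hst z 240 1 := hst_nonneg (by norm_num) hz le_rfl (by linarith)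
  have b0 : hst z 240 1 ≤ 1 := hst_le_one hz (by norm_num) zero_le_one
  have a1 := hst_nonneg (z := z) (c := 182) (by norm_num) hz b0 (by linarith)
  have b1 := hst_le_one (z := z) (c := 182) hz (by norm_num) a0
  have a2 := hst_nonneg (z := z) (c := 132) (by norm_num) hz b1 (by linarith)
  have b2 := hst_le_one (z := z) (c := 132) hz (by norm_num) a1
  have a3 := hst_nonneg (z := z) (c := 90) (by norm_num) hz b2 (by linarith)
  have b3 := hst_le_one (z := z) (c := 90) hz (by norm_num) a2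
  have a4 := hst_nonneg (z := z) (c := 56) (by norm_num) hz b3 (by linarith)
  have b4 := hst_le_one (z := z) (c := 56) hz (by norm_num) a3
  have a5 := hst_nonneg (z := z) (c := 30) (by norm_num) hz b4 (by linarith)
  have b5 := hst_le_one (z := z) (c := 30) hz (by norm_num) a4
  unfold tcu hcu
  refine su_spec (by norm_num) (by norm_num) ?_
  refine sd_spec (by norm_num) (by norm_num) b5 (by linarith) ?_
  refine su_spec (by norm_num) (by norm_num) ?_
  refine sd_spec (by norm_num) (by norm_num) b3 (by linarith) ?_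
  refine su_spec (by norm_num) (by norm_num) ?_
  refine sd_spec (by norm_num) (by norm_num) b1 (by linarith) ?_
  refine su_spec (by norm_num) (by norm_num) ?_
  refine sd_spec (by norm_num) (by norm_num) le_rfl (by linarith) ?_
  norm_num

/-- grid step -/
noncomputable def h5 : ℝ := 3927 / 10240000

theorem grid_sq (j : ℕ) : ((3927 * j) ^ 2 : ℕ) / (10240000 : ℝ) ^ 2 = ((j:ℝ) * h5) ^ 2 := by
  unfold h5; push_cast; ring

theorem gridt_le {j : ℕ} (hj : j ≤ 4096) : (j:ℝ) * h5 ≤ 1.5708 := by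
  have : (j:ℝ) ≤ 4096 := by exact_mod_cast hj
  unfold h5
  linarith

theorem grid_z {j : ℕ} (hj : j ≤ 4096) : ((3927 * j) ^ 2 : ℕ) / (10240000 : ℝ) ^ 2 ≤ 6 := by
  rw [grid_sq]
  have h1 := gridt_le hj
  have h0 : 0 ≤ (j:ℝ) * h5 := by unfold h5; positivity
  nlinarith

/-- `2^48 sin` upper -/
theorem sin_grid_le {j : ℕ} (hj : j ≤ 4096) :
    2 ^ 48 * Real.sin ((j:ℝ) * h5) ≤ ((3927 * j * tsu ((3927 * j) ^ 2) / 10240000 + 1 : ℕ) : ℝ) := by
  have h0 : 0 ≤ (j:ℝ) * h5 := by unfold h5; positivity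
  have h1 := sin_le' h0
  have h2 := tsu_spec (grid_z hj)
  rw [grid_sq] at h2
  have h3 : 2 ^ 48 * Real.sin ((j:ℝ) * h5) ≤ (j:ℝ) * h5 * (tsu ((3927 * j) ^ 2) : ℝ) := by
    have := mul_le_mul_of_nonneg_left h2 h0
    nlinarith
  have h4 : (j:ℝ) * h5 * (tsu ((3927 * j) ^ 2) : ℝ) =
      ((3927 * j * tsu ((3927 * j) ^ 2) : ℕ) : ℝ) / ((10240000 : ℕ) : ℝ) := by
    unfold h5; push_cast; ring
  rw [h4] at h3
  refine h3.trans ?_
  have h5 := (Nat.lt_floor_add_one
    (((3927 * j * tsu ((3927 * j) ^ 2) : ℕ) : ℝ) / ((10240000 : ℕ) : ℝ))).le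
  rw [Nat.floor_div_eq_div] at h5
  exact_mod_cast h5

/-- `2^48 sin` lower -/
theorem sin_grid_ge {j : ℕ} (hj : j ≤ 4096) :
    ((3927 * j * tsl ((3927 * j) ^ 2) / 10240000 : ℕ) : ℝ) ≤ 2 ^ 48 * Real.sin ((j:ℝ) * h5) := by
  have h0 : 0 ≤ (j:ℝ) * h5 := by unfold h5; positivity
  have h1 := sin_ge h0
  have h2 := tsl_spec (grid_z hj)
  rw [grid_sq] at h2
  have h3 : (j:ℝ) * h5 * (tsl ((3927 * j) ^ 2) : ℝ) ≤ 2 ^ 48 * Real.sin ((j:ℝ) * h5) := by
    have := mul_le_mul_of_nonneg_left h2 h0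
    nlinarith
  refine le_trans (Nat.cast_div_le) ?_
  refine le_trans (le_of_eq ?_) h3
  unfold h5; push_cast; ring

/-- `2^48 cos` upper -/
theorem cos_grid_le {j : ℕ} (hj : j ≤ 4096) :
    2 ^ 48 * Real.cos ((j:ℝ) * h5) ≤ (tcu ((3927 * j) ^ 2) : ℝ) := by
  have h0 : 0 ≤ (j:ℝ) * h5 := by unfold h5; positivity
  have h1 := cos_le' h0
  have h2 := tcu_spec (grid_z hj)
  rw [grid_sq] at h2
  linarith

theorem P4_le_one (x : ℝ) : P4 x ≤ 1 := by
  unfold P4
  have h1 := Real.sin_sq_le_one x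
  have h2 : Real.sin x ^ 6 = (Real.sin x ^ 2) ^ 3 := by ring
  rw [h2]
  exact pow_le_one₀ (sq_nonneg _) h1

theorem phi4_le (j : ℕ) : phi4 j ≤ 2 ^ 32 := by
  unfold phi4
  rw [show (2:ℕ) ^ 32 = 4294967296 by norm_num]
  by_cases h : 4096 ≤ j
  · rw [if_pos h]
  · rw [if_neg h]
    exact min_le_left _ _

theorem phi4_spec' (j : ℕ) (hj : j ≤ 4096) : 2 ^ 32 * P4 ((j:ℝ) * h5) ≤ (phi4 j : ℝ) := by
  have h1' := P4_le_one ((j:ℝ) * h5)
  unfold phi4
  by_cases h : 4096 ≤ j
  · rw [if_pos h]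
    norm_num
    linarith
  · rw [if_neg h]
    have hs : 0 ≤ Real.sin ((j:ℝ) * h5) := by
      apply Real.sin_nonneg_of_nonneg_of_le_pi (by unfold h5; positivity)
      have := gridt_le hj
      have := Real.pi_gt_three
      linarith
    have h1 := sin_grid_le hj
    generalize 3927 * j * tsu ((3927 * j) ^ 2) / 10240000 + 1 = a at h1 ⊢
    rw [Nat.cast_min]
    apply le_min
    · norm_num
      linarith
    · have h2 := pow_le_pow_left₀ (by positivity) h1 6
      have h3 := (Nat.lt_floor_add_one (((a ^ 6 : ℕ) : ℝ) / ((2 ^ 256 : ℕ) : ℝ))).le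
      rw [Nat.floor_div_eq_div] at h3
      rw [Nat.cast_add, Nat.cast_one]
      refine le_trans ?_ h3
      rw [Nat.cast_pow, Nat.cast_pow, Nat.cast_ofNat, le_div_iff₀ (by positivity)]
      unfold P4
      refine le_trans (le_of_eq ?_) h2
      rw [mul_pow, ← pow_mul]
      rw [show (48 * 6 : ℕ) = 32 + 256 by norm_num, pow_add]
      ring

theorem phi4_spec (j : ℕ) (hj : j ≤ 4096) (x : ℝ) (h0 : 0 ≤ x) (h1 : x ≤ Real.pi / 2)
    (hx : x ≤ j * h5) : 2 ^ 32 * P4 x ≤ (phi4 j : ℝ) := by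
  by_cases hj2 : 4096 ≤ j
  · have : phi4 j = 4294967296 := by
      unfold phi4
      rw [if_pos hj2]
    rw [this]
    have := P4_le_one x
    norm_num
    linarith
  · refine le_trans ?_ (phi4_spec' j hj)
    have hj3 : (j:ℝ) ≤ 4095 := by
      have : j ≤ 4095 := by omega
      exact_mod_cast this
    have h2 : (j:ℝ) * h5 ≤ Real.pi / 2 := by
      have := Real.pi_gt_d4
      unfold h5
      linarith
    have h3 : Real.sin x ≤ Real.sin ((j:ℝ) * h5) :=
      Real.sin_le_sin_of_le_of_le_pi_div_two (by linarith [Real.pi_pos]) h2 hx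
    have h4 : 0 ≤ Real.sin x := Real.sin_nonneg_of_nonneg_of_le_pi h0 (by linarith [Real.pi_pos])
    have h5 := pow_le_pow_left₀ h4 h3 6
    unfold P4
    linarith

theorem plo4_spec (j : ℕ) (x : ℝ) (hx : j * h5 ≤ x) (h1 : x ≤ Real.pi / 2) :
    (plo4 j : ℝ) ≤ 2 ^ 32 * P4 x := by
  have hj : j ≤ 4096 := by
    by_contra hlt
    have h2 : (4097:ℝ) ≤ j := by
      have : 4097 ≤ j := by omega
      exact_mod_cast this
    have := Real.pi_lt_d4
    unfold h5 at hx
    linarith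
  have h0 : 0 ≤ (j:ℝ) * h5 := by unfold h5; positivity
  have h2 := sin_grid_ge hj
  have h3 : Real.sin ((j:ℝ) * h5) ≤ Real.sin x :=
    Real.sin_le_sin_of_le_of_le_pi_div_two (by linarith [Real.pi_pos]) h1 hx
  unfold plo4
  refine le_trans Nat.cast_div_le ?_
  push_cast
  rw [div_le_iff₀ (by positivity)]
  have h4 := pow_le_pow_left₀ (by positivity) (h2.trans (mul_le_mul_of_nonneg_left h3 (by positivity))) 6
  unfold P4
  refine h4.trans (le_of_eq ?_)
  ring

theorem glo4_spec (j : ℕ) (hj : j ≤ 4096) : (glo4 j : ℝ) ≤ 2 ^ 32 * G4 ((j:ℝ) * h5) := by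
  have h0 : 0 ≤ (j:ℝ) * h5 := by unfold h5; positivity
  have hs := sin_le' h0
  have hs2 := tsu_spec (grid_z hj)
  rw [grid_sq] at hs2
  have hc := cos_grid_le hj
  have hsn : 0 ≤ Real.sin ((j:ℝ) * h5) := by
    apply Real.sin_nonneg_of_nonneg_of_le_pi h0
    have := gridt_le hj
    have := Real.pi_gt_three
    linarith
  set S : ℕ := tsu ((3927 * j) ^ 2) with hS
  set Cc : ℕ := tcu ((3927 * j) ^ 2) with hCc
  set x : ℝ := (j:ℝ) * h5 with hx
  have hprod : 2 ^ 96 * (Real.sin x * Real.cos x) ≤ x * (S * Cc) := by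
    have h1 : 2 ^ 48 * Real.sin x ≤ x * S := by nlinarith
    have hC0 : (0:ℝ) ≤ Cc := by positivity
    calc 2 ^ 96 * (Real.sin x * Real.cos x) = (2 ^ 48 * Real.sin x) * (2 ^ 48 * Real.cos x) := by ring
      _ ≤ (2 ^ 48 * Real.sin x) * Cc := mul_le_mul_of_nonneg_left hc (by positivity)
      _ ≤ (x * S) * Cc := mul_le_mul_of_nonneg_right h1 hC0
      _ = x * (S * Cc) := by ring
  have hnn : Real.sin x * Real.cos x ≤ x := by
    have h1 : Real.sin (2 * x) ≤ 2 * x := Real.sin_le (by positivity)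
    rw [Real.sin_two_mul] at h1
    linarith
  have key : ((3927 * j * (2 ^ 96 - S * Cc) : ℕ) : ℝ) ≤ 2 ^ 96 * 10240000 * (x - Real.sin x * Real.cos x) := by
    have e : ((3927 * j * (2 ^ 96 - S * Cc) : ℕ) : ℝ) = 10240000 * x * ((2 ^ 96 - S * Cc : ℕ) : ℝ) := by
      rw [hx]; unfold h5; push_cast; ring
    rw [e]
    by_cases hle : S * Cc ≤ 2 ^ 96
    · rw [Nat.cast_sub hle]
      push_cast
      nlinarith
    · rw [Nat.sub_eq_zero_of_le (by omega)]
      push_cast
      have : 0 ≤ x - Real.sin x * Real.cos x := by linarith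
      nlinarith
  unfold glo4
  refine le_trans Nat.cast_div_le ?_
  rw [← hS, ← hCc]
  have hpi : Real.pi ≤ 3.1415926536 := by
    have := Real.pi_lt_d20
    linarith
  have hpi0 := Real.pi_pos
  rw [div_le_iff₀ (by positivity)]
  unfold G4
  rw [← hx] at *
  have hD : 0 ≤ x - Real.sin x * Real.cos x := by linarith
  have h6 : (x - Real.sin x * Real.cos x) / 3.1415926536 ≤ (x - Real.sin x * Real.cos x) / Real.pi :=
    div_le_div_of_nonneg_left hD hpi0 hpi
  have h7 : ((3927 * j * (2 ^ 96 - S * Cc) * 10000000000 : ℕ) : ℝ) =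
      ((3927 * j * (2 ^ 96 - S * Cc) : ℕ) : ℝ) * 10000000000 := by push_cast; ring
  rw [h7]
  have h8 : ((2 ^ 64 * 10240000 * 31415926536 : ℕ) : ℝ) = 2 ^ 64 * 10240000 * 31415926536 := by
    push_cast; ring
  rw [h8]
  calc ((3927 * j * (2 ^ 96 - S * Cc) : ℕ) : ℝ) * 10000000000
      ≤ (2 ^ 96 * 10240000 * (x - Real.sin x * Real.cos x)) * 10000000000 :=
        mul_le_mul_of_nonneg_right key (by norm_num)
    _ = 2 ^ 32 * ((x - Real.sin x * Real.cos x) / 3.1415926536) *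
        (2 ^ 64 * 10240000 * 31415926536) := by ring
    _ ≤ _ := by
        apply mul_le_mul_of_nonneg_right _ (by positivity)
        exact mul_le_mul_of_nonneg_left h6 (by positivity)

/-! ### monotonicity and concavity -/

theorem hasDerivAt_G4 (x : ℝ) : HasDerivAt G4 ((1 - Real.cos (2 * x)) / Real.pi) x := by
  unfold G4
  have h := ((hasDerivAt_id x).sub ((Real.hasDerivAt_sin x).mul (Real.hasDerivAt_cos x))).div_const
    Real.pi
  refine h.congr_deriv ?_
  rw [Real.cos_two_mul']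
  ring_nf

theorem G4_mono : Monotone G4 := by
  apply monotone_of_deriv_nonneg
  · exact fun x => (hasDerivAt_G4 x).differentiableAt
  · intro x
    rw [(hasDerivAt_G4 x).deriv]
    have := Real.cos_le_one (2 * x)
    have := Real.pi_pos
    apply div_nonneg <;> linarith

theorem hasDerivAt_P4 (x : ℝ) : HasDerivAt P4 (6 * Real.sin x ^ 5 * Real.cos x) x := by
  unfold P4
  have h := (Real.hasDerivAt_sin x).pow 6
  refine h.congr_deriv ?_
  push_cast
  ring

theorem G4_conc (p : ℕ) : ConcaveOn ℝ Set.univ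
    (fun x => 1000 * G4 x - p * P4 x - (640 + 6 * p) / 2 * x ^ 2) := by
  have hd1 : ∀ x, HasDerivAt (fun x => 1000 * G4 x - p * P4 x - (640 + 6 * p) / 2 * x ^ 2)
      (1000 * ((1 - Real.cos (2 * x)) / Real.pi) - p * (6 * Real.sin x ^ 5 * Real.cos x) -
        (640 + 6 * p) * x) x := by
    intro x
    have h := (((hasDerivAt_G4 x).const_mul 1000).sub ((hasDerivAt_P4 x).const_mul (p:ℝ))).sub
      ((hasDerivAt_pow 2 x).const_mul ((640 + 6 * (p:ℝ)) / 2))
    refine h.congr_deriv ?_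
    push_cast
    ring
  have hd2 : ∀ x, HasDerivAt (fun x => 1000 * ((1 - Real.cos (2 * x)) / Real.pi) -
      p * (6 * Real.sin x ^ 5 * Real.cos x) - (640 + 6 * p) * x)
      (1000 * (2 * Real.sin (2 * x) / Real.pi) -
        p * (30 * Real.sin x ^ 4 * Real.cos x ^ 2 - 6 * Real.sin x ^ 6) - (640 + 6 * p)) x := by
    intro x
    have hc : HasDerivAt (fun x : ℝ => Real.cos (2 * x)) (-Real.sin (2 * x) * 2) x := by
      have := (Real.hasDerivAt_cos (2 * x)).comp x ((hasDerivAt_id x).const_mul 2)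
      refine this.congr_deriv ?_
      ring
    have h1 := (((hasDerivAt_const x (1:ℝ)).sub hc).div_const Real.pi).const_mul 1000
    have h2 := (((((Real.hasDerivAt_sin x).pow 5).const_mul 6).mul (Real.hasDerivAt_cos x)).const_mul
      (p:ℝ))
    have h3 := (hasDerivAt_id x).const_mul (640 + 6 * (p:ℝ))
    have h := (h1.sub h2).sub h3
    refine h.congr_deriv ?_
    simp only [Pi.pow_apply]
    push_cast
    ring
  apply concaveOn_of_deriv2_nonpos convex_univ
  · exact (fun x _ => (hd1 x).continuousAt.continuousWithinAt)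
  · exact (fun x _ => (hd1 x).differentiableAt.differentiableWithinAt)
  · have e : deriv (fun x => 1000 * G4 x - p * P4 x - (640 + 6 * p) / 2 * x ^ 2) =
      fun x => 1000 * ((1 - Real.cos (2 * x)) / Real.pi) -
        p * (6 * Real.sin x ^ 5 * Real.cos x) - (640 + 6 * p) * x := by
      funext x; exact (hd1 x).deriv
    rw [e]
    exact (fun x _ => (hd2 x).differentiableAt.differentiableWithinAt)
  · intro x _
    have e : deriv (fun x => 1000 * G4 x - p * P4 x - (640 + 6 * p) / 2 * x ^ 2) =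
      fun x => 1000 * ((1 - Real.cos (2 * x)) / Real.pi) -
        p * (6 * Real.sin x ^ 5 * Real.cos x) - (640 + 6 * p) * x := by
      funext x; exact (hd1 x).deriv
    simp only [Function.iterate_succ, Function.iterate_zero, Function.comp_apply, id]
    rw [e, (hd2 x).deriv]
    have h1 : 1000 * (2 * Real.sin (2 * x) / Real.pi) ≤ 640 := by
      have hs := Real.sin_le_one (2 * x)
      have hpi := Real.pi_gt_d4
      rw [← mul_div_assoc, div_le_iff₀ Real.pi_pos]
      linarith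
    have h2 : -(30 * Real.sin x ^ 4 * Real.cos x ^ 2 - 6 * Real.sin x ^ 6) ≤ 6 := by
      have h3 : 0 ≤ 30 * Real.sin x ^ 4 * Real.cos x ^ 2 := by positivity
      have h4 := P4_le_one x
      unfold P4 at h4
      linarith
    have h5 := mul_le_mul_of_nonneg_left h2 (Nat.cast_nonneg (α := ℝ) p)
    linarith

end BB
end P226
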