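import Vale.Agent.P226_h16.ConeScale

/-! Module CONE, part A: norm integral over a cone, bathtub inequality. -/

open MeasureTheory ProbabilityTheory Set Module
open scoped RealInnerProductSpace ENNReal NNReal

namespace P226

variable {E : Type*} [NormedAddCommGroup E] [InnerProductSpace ℝ E] [FiniteDimensional ℝ E]
  [MeasurableSpace E] [BorelSpace E]

/-! ### representation of the norm -/

/-- kernel -/
noncomputable def ker1 (u : ℝ) : ℝ := (1 - Real.exp (-u ^ 2 / 2)) / u ^ 2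

lemma ker1_nonneg (u : ℝ) : 0 ≤ ker1 u := by
  unfold ker1
  apply div_nonneg _ (sq_nonneg u)
  rw [sub_nonneg, Real.exp_le_one_iff]
  have := sq_nonneg u
  linarith

lemma ker1_meas : Measurable ker1 := by
  unfold ker1
  fun_prop

lemma ker1_le (u : ℝ) : ker1 u ≤ 2 * (1 + u ^ 2)⁻¹ := by
  unfold ker1
  rcases eq_or_ne u 0 with h | h
  · rw [h]
    norm_num
  have hu : 0 < u ^ 2 := by positivity
  have h1 : 1 - Real.exp (-u ^ 2 / 2) ≤ u ^ 2 / 2 := by
    have := Real.add_one_le_exp (-u ^ 2 / 2)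
    linarith
  have h2 : 1 - Real.exp (-u ^ 2 / 2) ≤ 1 := by
    have := Real.exp_pos (-u ^ 2 / 2)
    linarith
  rw [div_le_iff₀ hu, mul_assoc, mul_comm _ (u ^ 2), ← div_eq_mul_inv]
  rw [mul_div_assoc', le_div_iff₀ (by positivity)]
  rcases le_total (u ^ 2) 1 with h3 | h3
  · nlinarith
  · nlinarith

lemma ker1_int : Integrable ker1 := by
  refine Integrable.mono' (integrable_inv_one_add_sq.const_mul 2) ker1_meas.aestronglyMeasurable
    (Filter.Eventually.of_forall fun u => ?_)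
  rw [Real.norm_eq_abs, abs_of_nonneg (ker1_nonneg u)]
  exact ker1_le u

/-- the constant -/
noncomputable def Jc : ℝ := ∫ u in Ioi (0 : ℝ), ker1 u

lemma Jc_pos : 0 < Jc := by
  unfold Jc
  rw [setIntegral_pos_iff_support_of_nonneg_ae]
  · have : Function.support ker1 ∩ Ioi 0 = Ioi 0 := by
      ext u
      simp only [Set.mem_inter_iff, Function.mem_support, Set.mem_Ioi, and_iff_right_iff_imp]
      intro hu
      unfold ker1
      have h1 : Real.exp (-u ^ 2 / 2) < 1 := by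
        rw [Real.exp_lt_one_iff]
        have : 0 < u ^ 2 := by positivity
        linarith
      have h2 : 0 < u ^ 2 := by positivity
      have h3 : 0 < (1 - Real.exp (-u ^ 2 / 2)) / u ^ 2 := div_pos (by linarith) h2
      exact h3.ne'
    rw [this]
    simp
  · exact Filter.Eventually.of_forall fun t => ker1_nonneg t
  · exact ker1_int.integrableOn

lemma norm_repr (r : ℝ) (hr : 0 ≤ r) :
    ∫⁻ c in Ioi (0 : ℝ), ENNReal.ofReal ((1 - Real.exp (-c ^ 2 * r ^ 2 / 2)) / c ^ 2)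
      = ENNReal.ofReal (r * Jc) := by
  rcases eq_or_lt_of_le hr with h | h
  · rw [← h]
    simp
  · have h1 : ∀ c : ℝ, (1 - Real.exp (-c ^ 2 * r ^ 2 / 2)) / c ^ 2 = r ^ 2 * ker1 (r * c) := by
      intro c
      unfold ker1
      rcases eq_or_ne c 0 with hc | hc
      · rw [hc]
        simp
      · have e : -c ^ 2 * r ^ 2 / 2 = -(r * c) ^ 2 / 2 := by ring
        rw [e]
        field_simp
    simp_rw [h1]
    have hint : IntegrableOn (fun c => r ^ 2 * ker1 (r * c)) (Ioi 0) := by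
      apply Integrable.const_mul
      have h2 := (integrableOn_Ioi_comp_mul_left_iff ker1 0 h).2
        (by rw [mul_zero]; exact ker1_int.integrableOn)
      exact h2
    rw [← ofReal_integral_eq_lintegral_ofReal hint
      (Filter.Eventually.of_forall fun c => mul_nonneg (sq_nonneg _) (ker1_nonneg _))]
    congr 1
    rw [integral_const_mul, integral_comp_mul_left_Ioi ker1 0 h, mul_zero, smul_eq_mul]
    unfold Jc
    field_simp

omit [FiniteDimensional ℝ E] [MeasurableSpace E] [BorelSpace E] in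
lemma cone_iff {A : Set E} (hc : IsCone A) {r : ℝ} (hr : 0 < r) (x : E) : r • x ∈ A ↔ x ∈ A := by
  constructor
  · intro h
    have := hc _ h r⁻¹ (inv_pos.2 hr)
    rwa [smul_smul, inv_mul_cancel₀ hr.ne', one_smul] at this
  · intro h
    exact hc x h r hr

lemma cone_exp (A : Set E) (hA : MeasurableSet A) (hc : IsCone A) (c : ℝ) :
    ∫⁻ y in A, ENNReal.ofReal (Real.exp (-c ^ 2 * ‖y‖ ^ 2 / 2)) ∂(stdGaussian E)
      = ENNReal.ofReal (sc c ^ (finrank ℝ E)) * stdGaussian E A := by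
  have h : ((stdGaussian E).withDensity
      (fun y => ENNReal.ofReal (Real.exp (-c ^ 2 * ‖y‖ ^ 2 / 2)))) A
      = (ENNReal.ofReal (sc c ^ (finrank ℝ E)) •
        (stdGaussian E).map (fun y => sc c • y)) A := by
    rw [gauss_scale_measure]
  rw [withDensity_apply _ hA] at h
  rw [h, Measure.smul_apply, smul_eq_mul,
    Measure.map_apply (by fun_prop : Measurable fun y : E => sc c • y) hA]
  congr 2
  ext y
  exact cone_iff hc (sc_pos c) y

lemma sc_le_one (c : ℝ) : sc c ≤ 1 := by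
  unfold sc
  apply inv_le_one_of_one_le₀
  rw [Real.one_le_sqrt]
  have := sq_nonneg c
  linarith

lemma cone_one_sub (A : Set E) (hA : MeasurableSet A) (hc : IsCone A) (c : ℝ) :
    ∫⁻ y in A, ENNReal.ofReal ((1 - Real.exp (-c ^ 2 * ‖y‖ ^ 2 / 2)) / c ^ 2) ∂(stdGaussian E)
      = stdGaussian E A * ENNReal.ofReal ((1 - sc c ^ (finrank ℝ E)) / c ^ 2) := by
  have hexp : ∀ y : E, Real.exp (-c ^ 2 * ‖y‖ ^ 2 / 2) ≤ 1 := by
    intro y
    rw [Real.exp_le_one_iff]
    have := mul_nonneg (sq_nonneg c) (sq_nonneg ‖y‖)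
    nlinarith
  have h1 : ∀ y : E, ENNReal.ofReal ((1 - Real.exp (-c ^ 2 * ‖y‖ ^ 2 / 2)) / c ^ 2)
      = (1 - ENNReal.ofReal (Real.exp (-c ^ 2 * ‖y‖ ^ 2 / 2))) * ENNReal.ofReal ((c ^ 2)⁻¹) := by
    intro y
    rw [div_eq_mul_inv, ENNReal.ofReal_mul (by linarith [hexp y]),
      ENNReal.ofReal_sub _ (Real.exp_pos _).le, ENNReal.ofReal_one]
  simp_rw [h1]
  rw [lintegral_mul_const _ (by fun_prop)]
  have hfin : ∫⁻ y in A, ENNReal.ofReal (Real.exp (-c ^ 2 * ‖y‖ ^ 2 / 2)) ∂(stdGaussian E) ≠ ∞ := by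
    rw [cone_exp A hA hc]
    exact ENNReal.mul_ne_top ENNReal.ofReal_ne_top (measure_ne_top _ _)
  rw [lintegral_sub (by fun_prop) hfin
    (Filter.Eventually.of_forall fun y => by
      rw [← ENNReal.ofReal_one]
      exact ENNReal.ofReal_le_ofReal (hexp y)), cone_exp A hA hc]
  have h2 : sc c ^ (finrank ℝ E) ≤ 1 := pow_le_one₀ (sc_pos c).le (sc_le_one c)
  have h3 : 0 ≤ sc c ^ (finrank ℝ E) := pow_nonneg (sc_pos c).le _
  rw [div_eq_mul_inv (1 - sc c ^ (finrank ℝ E)), ENNReal.ofReal_mul (by linarith),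
    ENNReal.ofReal_sub _ h3, ENNReal.ofReal_one]
  simp only [lintegral_const, Measure.restrict_apply MeasurableSet.univ, Set.univ_inter, one_mul]
  rw [← mul_assoc]
  congr 1
  rw [ENNReal.mul_sub (fun _ _ => measure_ne_top _ _), mul_one, mul_comm]

/-- `J ∫_A ‖x‖ = γ(A) N` -/
lemma cone_norm_lintegral (A : Set E) (hA : MeasurableSet A) (hc : IsCone A) :
    ENNReal.ofReal Jc * ∫⁻ y in A, ENNReal.ofReal ‖y‖ ∂(stdGaussian E)
      = stdGaussian E A * ∫⁻ c in Ioi (0 : ℝ),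
        ENNReal.ofReal ((1 - sc c ^ (finrank ℝ E)) / c ^ 2) := by
  have hscm : Measurable sc := by
    unfold sc
    fun_prop
  rw [← lintegral_const_mul _ (by fun_prop)]
  have h1 : ∀ y : E, ENNReal.ofReal Jc * ENNReal.ofReal ‖y‖
      = ∫⁻ c in Ioi (0 : ℝ), ENNReal.ofReal ((1 - Real.exp (-c ^ 2 * ‖y‖ ^ 2 / 2)) / c ^ 2) := by
    intro y
    rw [norm_repr ‖y‖ (norm_nonneg y), ENNReal.ofReal_mul (norm_nonneg y), mul_comm]
  simp_rw [h1]
  rw [lintegral_lintegral_swap (by fun_prop)]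
  simp_rw [cone_one_sub A hA hc]
  rw [lintegral_const_mul _ (by fun_prop)]

theorem cone_norm (A : Set E) (hA : MeasurableSet A) (hc : IsCone A) :
    ∫ x in A, ‖x‖ ∂(stdGaussian E) = (stdGaussian E).real A * ∫ x, ‖x‖ ∂(stdGaussian E) := by
  have hi : Integrable (fun y : E => ‖y‖) (stdGaussian E) :=
    (IsGaussian.integrable_id (μ := stdGaussian E)).norm
  have h1 := cone_norm_lintegral A hA hc
  have h2 := cone_norm_lintegral (E := E) univ MeasurableSet.univ (fun _ _ _ _ => mem_univ _)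
  rw [measure_univ, one_mul] at h2
  rw [← h2] at h1
  have hJ : ENNReal.ofReal Jc ≠ 0 := by
    rw [Ne, ENNReal.ofReal_eq_zero, not_le]
    exact Jc_pos
  have h3 : ∫⁻ y in A, ENNReal.ofReal ‖y‖ ∂(stdGaussian E)
      = stdGaussian E A * ∫⁻ y in univ, ENNReal.ofReal ‖y‖ ∂(stdGaussian E) := by
    have h4 : ENNReal.ofReal Jc * ∫⁻ y in A, ENNReal.ofReal ‖y‖ ∂(stdGaussian E)
        = ENNReal.ofReal Jc * (stdGaussian E A *
          ∫⁻ y in univ, ENNReal.ofReal ‖y‖ ∂(stdGaussian E)) := by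
      rw [h1]
      ring
    exact (ENNReal.mul_right_inj hJ ENNReal.ofReal_ne_top).1 h4
  rw [Measure.restrict_univ] at h3
  rw [integral_eq_lintegral_of_nonneg_ae (Filter.Eventually.of_forall fun y => norm_nonneg y)
    hi.aestronglyMeasurable.restrict,
    integral_eq_lintegral_of_nonneg_ae (Filter.Eventually.of_forall fun y => norm_nonneg y)
    hi.aestronglyMeasurable, h3, ENNReal.toReal_mul]
  rfl

omit [FiniteDimensional ℝ E] [MeasurableSpace E] [BorelSpace E] in
lemma mem_CC_iff (e : E) (he : ‖e‖ = 1) (c : ℝ) (x : E) :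
    x ∈ CC e c ↔ 0 ≤ ⟪e, x⟫ - (c * sc c) * ‖x‖ := by
  have hP : ‖x‖ ^ 2 = ⟪e, x⟫ ^ 2 + ‖x - ⟪e, x⟫ • e‖ ^ 2 := by
    have h1 : ⟪x, (⟪e, x⟫ : ℝ) • e⟫ = ⟪e, x⟫ ^ 2 := by
      rw [real_inner_smul_right, real_inner_comm]
      ring
    rw [norm_sub_sq_real, h1, norm_smul, he]
    simp
    ring
  set u : ℝ := ⟪e, x⟫ with hu
  set p : ℝ := ‖x - u • e‖ with hp
  have hp0 : 0 ≤ p := norm_nonneg _
  have hx0 : 0 ≤ ‖x‖ := norm_nonneg _
  have hs := sc_pos c
  have hs2 := sc_sq_mul c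
  change c * p ≤ u ↔ _
  rw [sub_nonneg]
  have hkey : (c * sc c * ‖x‖) ^ 2 = sc c ^ 2 * (c ^ 2 * u ^ 2 + (c * p) ^ 2) := by
    rw [mul_pow, hP]
    ring
  have hs3 : 0 < sc c ^ 2 := by positivity
  have hdiff : (c * sc c * ‖x‖) ^ 2 - u ^ 2 = sc c ^ 2 * ((c * p) ^ 2 - u ^ 2) := by
    rw [hkey]
    linear_combination u ^ 2 * hs2
  -- squares compare the same way
  have hcmp1 : (c * p) ^ 2 ≤ u ^ 2 ↔ (c * sc c * ‖x‖) ^ 2 ≤ u ^ 2 := by
    constructor
    · intro h
      nlinarith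
    · intro h
      by_contra h'
      have h1 : 0 < sc c ^ 2 * ((c * p) ^ 2 - u ^ 2) := mul_pos hs3 (by linarith)
      linarith
  have hcmp2 : u ^ 2 ≤ (c * p) ^ 2 ↔ u ^ 2 ≤ (c * sc c * ‖x‖) ^ 2 := by
    constructor
    · intro h
      have h1 : 0 ≤ sc c ^ 2 * ((c * p) ^ 2 - u ^ 2) := mul_nonneg hs3.le (by linarith)
      linarith
    · intro h
      by_contra h'
      have h1 : 0 < sc c ^ 2 * (u ^ 2 - (c * p) ^ 2) := mul_pos hs3 (by linarith)
      linarith
  rcases le_total 0 c with hc | hc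
  · have hA : 0 ≤ c * p := mul_nonneg hc hp0
    have hB : 0 ≤ c * sc c * ‖x‖ := by positivity
    constructor
    · intro h
      have hu0 : 0 ≤ u := hA.trans h
      exact (sq_le_sq₀ hB hu0).1 (hcmp1.1 ((sq_le_sq₀ hA hu0).2 h))
    · intro h
      have hu0 : 0 ≤ u := hB.trans h
      exact (sq_le_sq₀ hA hu0).1 (hcmp1.2 ((sq_le_sq₀ hB hu0).2 h))
  · have hA : 0 ≤ -(c * p) := by nlinarith
    have hB : 0 ≤ -(c * sc c * ‖x‖) := by
      have : 0 ≤ (-c) * (sc c * ‖x‖) := mul_nonneg (by linarith) (by positivity)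
      linarith
    rcases le_total 0 u with hu0 | hu0
    · constructor <;> intro _ <;> linarith
    · have hu1 : 0 ≤ -u := by linarith
      have e1 : (-u) ^ 2 ≤ (-(c * p)) ^ 2 ↔ (-u) ^ 2 ≤ (-(c * sc c * ‖x‖)) ^ 2 := by
        rw [neg_sq, neg_sq, neg_sq]
        exact hcmp2
      constructor
      · intro h
        have := (sq_le_sq₀ hu1 hB).1 (e1.1 ((sq_le_sq₀ hu1 hA).2 (by linarith)))
        linarith
      · intro h
        have := (sq_le_sq₀ hu1 hA).1 (e1.2 ((sq_le_sq₀ hu1 hB).2 (by linarith)))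
        linarith

omit [FiniteDimensional ℝ E] [MeasurableSpace E] [BorelSpace E] in
lemma isCone_CC (e : E) (c : ℝ) : IsCone (CC e c) := by
  intro x hx r hr
  change c * ‖r • x - ⟪e, r • x⟫ • e‖ ≤ ⟪e, r • x⟫
  change c * ‖x - ⟪e, x⟫ • e‖ ≤ ⟪e, x⟫ at hx
  have h1 : r • x - (⟪e, r • x⟫ : ℝ) • e = r • (x - (⟪e, x⟫ : ℝ) • e) := by
    rw [real_inner_smul_right]
    module
  rw [h1, norm_smul, Real.norm_eq_abs, abs_of_pos hr, real_inner_smul_right]
  nlinarith

/-- **bathtub** for cones -/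
theorem bathtub (A : Set E) (hA : MeasurableSet A) (hc : IsCone A) (e : E) (he : ‖e‖ = 1) (c : ℝ)
    (hg : (stdGaussian E).real A = (stdGaussian E).real (CC e c)) :
    ⟪e, mom A⟫ ≤ ⟪e, mom (CC e c)⟫ := by
  have hC : MeasurableSet (CC e c) := (isClosed_CC e c).measurableSet
  have hid : Integrable (fun x : E => x) (stdGaussian E) := IsGaussian.integrable_id
  have hin : Integrable (fun x : E => (⟪e, x⟫ : ℝ)) (stdGaussian E) := hid.const_inner e
  have hno : Integrable (fun x : E => ‖x‖) (stdGaussian E) := hid.norm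
  have hm : ∀ B : Set E, ⟪e, mom B⟫ = ∫ x in B, (⟪e, x⟫ : ℝ) ∂(stdGaussian E) := by
    intro B
    unfold mom
    rw [integral_inner hid.integrableOn]
  set k : ℝ := c * sc c with hk
  set h : E → ℝ := fun x => ⟪e, x⟫ - k * ‖x‖ with hh
  have hhi : Integrable h (stdGaussian E) := hin.sub (hno.const_mul k)
  have hCh : ∀ x, x ∈ CC e c ↔ 0 ≤ h x := fun x => mem_CC_iff e he c x
  have hle : ∫ x in A, h x ∂(stdGaussian E) ≤ ∫ x in CC e c, h x ∂(stdGaussian E) := by
    rw [← integral_indicator hA, ← integral_indicator hC]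
    apply integral_mono (hhi.indicator hA) (hhi.indicator hC)
    intro x
    simp only [Set.indicator]
    by_cases hx : x ∈ CC e c
    · rw [if_pos hx]
      have := (hCh x).1 hx
      split_ifs
      · exact le_refl _
      · exact this
    · rw [if_neg hx]
      have : h x < 0 := not_le.1 fun h' => hx ((hCh x).2 h')
      split_ifs
      · exact this.le
      · exact le_refl _
  have hsp : ∀ B : Set E, ∫ x in B, h x ∂(stdGaussian E)
      = ⟪e, mom B⟫ - k * ∫ x in B, ‖x‖ ∂(stdGaussian E) := by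
    intro B
    rw [hm B, hh, integral_sub hin.integrableOn (hno.const_mul k).integrableOn,
      integral_const_mul]
  rw [hsp, hsp, cone_norm A hA hc, cone_norm (CC e c) hC (isCone_CC e c), hg] at hle
  linarith

end P226
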