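import Vale.Agent.P226_h5.Defs

/-! P226: common definitions of the modules for 4, 5, 6 cells (verbatim from helper16's blueprint). -/

open MeasureTheory ProbabilityTheory Set
open scoped RealInnerProductSpace ENNReal

namespace P226

variable {E : Type*} [NormedAddCommGroup E] [InnerProductSpace ℝ E] [FiniteDimensional ℝ E]
  [MeasurableSpace E] [BorelSpace E]

/-- `A` is a cone -/
def IsCone (A : Set E) : Prop := ∀ x ∈ A, ∀ r : ℝ, 0 < r → r • x ∈ A

/-- `16 * (area of the triangle with squared sides a,b,c)` over 4 -/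
noncomputable def heron (a b c : ℝ) : ℝ := ((a + b + c) ^ 2 - 2 * (a ^ 2 + b ^ 2 + c ^ 2)) / 4

/-- squared moments of a critical frame -/
def IsQ {n : ℕ} [Nonempty (Fin n)] (C : Crit (Fin n) E) (q : Fin (n + 1) → ℝ) : Prop :=
  q 0 = C.m ^ 2 ∧ ∀ l : Fin n, q l.succ = C.m ^ 2 * (C.ε l ^ 2 + ‖C.V l‖ ^ 2)

end P226
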