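import Vale.Agent.P226_h5.OneD
import Vale.Agent.P226_h16.Defs16

/-! Module CONE: definitions (`IsCone` is in `Defs16`). -/

open MeasureTheory ProbabilityTheory Set
open scoped RealInnerProductSpace ENNReal

namespace P226

variable {E : Type*} [NormedAddCommGroup E] [InnerProductSpace ℝ E]

/-- the circular cone `{x | c * ‖x - ⟪e,x⟫ e‖ ≤ ⟪e,x⟫}` -/
def CC (e : E) (c : ℝ) : Set E := {x : E | c * ‖x - ⟪e, x⟫ • e‖ ≤ ⟪e, x⟫}

theorem isClosed_CC (e : E) (c : ℝ) : IsClosed (CC e c) :=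
  isClosed_le (by fun_prop) (by fun_prop)

end P226
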