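import Vale.Agent.P226_h16.ConeDefs

/-! Module CONE: Gaussian scaling. -/

open MeasureTheory ProbabilityTheory Set Module
open scoped RealInnerProductSpace ENNReal NNReal

namespace P226

variable {E : Type*} [NormedAddCommGroup E] [InnerProductSpace ℝ E] [FiniteDimensional ℝ E]
  [MeasurableSpace E] [BorelSpace E]

/-- `1/√(1+c²)` -/
noncomputable def sc (c : ℝ) : ℝ := (Real.sqrt (1 + c ^ 2))⁻¹

lemma sc_pos (c : ℝ) : 0 < sc c := by
  unfold sc
  positivity

lemma sc_sq (c : ℝ) : sc c ^ 2 = (1 + c ^ 2)⁻¹ := by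
  unfold sc
  rw [inv_pow, Real.sq_sqrt (by positivity)]

lemma sc_sq_mul (c : ℝ) : sc c ^ 2 * (1 + c ^ 2) = 1 := by
  rw [sc_sq, inv_mul_cancel₀ (by positivity)]

/-- variance `1/(1+c²)` -/
noncomputable def scv (c : ℝ) : ℝ≥0 := Real.toNNReal (sc c ^ 2)

lemma scv_coe (c : ℝ) : ((scv c : ℝ≥0) : ℝ) = sc c ^ 2 := Real.coe_toNNReal _ (sq_nonneg _)

lemma pdf_scale (c x : ℝ) :
    gaussianPDFReal 0 1 x * Real.exp (-c ^ 2 * x ^ 2 / 2)
      = sc c * gaussianPDFReal 0 (scv c) x := by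
  have hs := sc_pos c
  have hs2 := sc_sq_mul c
  simp only [gaussianPDFReal, sub_zero, NNReal.coe_one, mul_one, scv_coe]
  rw [mul_assoc, ← Real.exp_add]
  have h1 : Real.sqrt (2 * Real.pi * sc c ^ 2) = Real.sqrt (2 * Real.pi) * sc c := by
    rw [Real.sqrt_mul (by positivity), Real.sqrt_sq hs.le]
  have h2 : -x ^ 2 / 2 + -c ^ 2 * x ^ 2 / 2 = -x ^ 2 / (2 * sc c ^ 2) := by
    rw [sc_sq]
    field_simp
    ring
  rw [h1, h2]
  field_simp

lemma one_dim_factor (c τ : ℝ) :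
    ∫ x : ℝ, Complex.exp (τ * x * Complex.I) * (Real.exp (-c ^ 2 * x ^ 2 / 2) : ℝ)
      ∂(gaussianReal 0 1) = (sc c : ℂ) * Complex.exp (-(sc c ^ 2 * τ ^ 2) / 2) := by
  have hv : scv c ≠ 0 := by
    intro h
    have h1 := scv_coe c
    rw [h] at h1
    have hs := sc_pos c
    have h2 : 0 < sc c ^ 2 := by positivity
    rw [← h1] at h2
    exact lt_irrefl _ h2
  rw [integral_gaussianReal_eq_integral_smul one_ne_zero]
  have h1 : ∀ x : ℝ, gaussianPDFReal 0 1 x •
      (Complex.exp (τ * x * Complex.I) * (Real.exp (-c ^ 2 * x ^ 2 / 2) : ℝ))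
      = (sc c : ℂ) * (gaussianPDFReal 0 (scv c) x •
        Complex.exp (τ * x * Complex.I)) := by
    intro x
    have h := pdf_scale c x
    rw [Complex.real_smul, Complex.real_smul]
    have h' : ((gaussianPDFReal 0 1 x : ℝ) : ℂ) * ((Real.exp (-c ^ 2 * x ^ 2 / 2) : ℝ) : ℂ)
        = (sc c : ℂ) * ((gaussianPDFReal 0 (scv c) x : ℝ) : ℂ) := by
      exact_mod_cast h
    calc ((gaussianPDFReal 0 1 x : ℝ) : ℂ) * (Complex.exp (τ * x * Complex.I)
          * ((Real.exp (-c ^ 2 * x ^ 2 / 2) : ℝ) : ℂ))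
        = (((gaussianPDFReal 0 1 x : ℝ) : ℂ) * ((Real.exp (-c ^ 2 * x ^ 2 / 2) : ℝ) : ℂ))
          * Complex.exp (τ * x * Complex.I) := by ring
      _ = _ := by rw [h']; ring
  simp_rw [h1]
  rw [integral_const_mul, ← integral_gaussianReal_eq_integral_smul hv]
  have h2 := charFun_gaussianReal (μ := 0) (v := (scv c)) τ
  rw [charFun_apply_real] at h2
  rw [h2]
  congr 2
  have h3 : (((scv c : ℝ≥0) : ℝ) : ℂ) = (sc c : ℂ) ^ 2 := by
    rw [scv_coe]
    push_cast
    rfl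
  rw [h3]
  simp
  ring

lemma integral_std_basis {ι : Type*} [Fintype ι] (b : OrthonormalBasis ι ℝ E) (F : E → ℂ)
    (hF : Continuous F) :
    ∫ y, F y ∂(stdGaussian E)
      = ∫ x : ι → ℝ, F (∑ i, x i • b i) ∂(Measure.pi fun _ : ι => gaussianReal 0 1) := by
  rw [stdGaussian_eq_map_pi_orthonormalBasis b, integral_map]
  · exact (by fun_prop : Measurable fun x : ι → ℝ => ∑ i, x i • b i).aemeasurable
  · exact hF.aestronglyMeasurable

omit [FiniteDimensional ℝ E] [MeasurableSpace E] [BorelSpace E] in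
lemma norm_sum_basis {ι : Type*} [Fintype ι] (b : OrthonormalBasis ι ℝ E) (x : ι → ℝ) :
    ‖∑ i, x i • b i‖ ^ 2 = ∑ i, x i ^ 2 := by
  rw [← real_inner_self_eq_norm_sq, Orthonormal.inner_sum b.orthonormal]
  simp [sq]

lemma char_weighted (c : ℝ) (t : E) :
    ∫ y, Complex.exp ((⟪y, t⟫ : ℝ) * Complex.I) * (Real.exp (-c ^ 2 * ‖y‖ ^ 2 / 2) : ℝ)
      ∂(stdGaussian E)
      = (sc c : ℂ) ^ (finrank ℝ E) * Complex.exp (-(sc c ^ 2 * ‖t‖ ^ 2) / 2) := by
  set b := stdOrthonormalBasis ℝ E with hb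
  rw [integral_std_basis b _ (by fun_prop)]
  have h1 : ∀ x : Fin (finrank ℝ E) → ℝ,
      Complex.exp ((⟪∑ i, x i • b i, t⟫ : ℝ) * Complex.I)
        * (Real.exp (-c ^ 2 * ‖∑ i, x i • b i‖ ^ 2 / 2) : ℝ)
      = ∏ i, (Complex.exp ((⟪b i, t⟫ : ℝ) * (x i : ℝ) * Complex.I)
        * (Real.exp (-c ^ 2 * (x i) ^ 2 / 2) : ℝ)) := by
    intro x
    rw [Finset.prod_mul_distrib, ← Complex.exp_sum]
    congr 1
    · congr 1
      rw [sum_inner]
      push_cast
      rw [Finset.sum_mul]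
      apply Finset.sum_congr rfl
      intro i _
      rw [real_inner_smul_left]
      push_cast
      ring
    · rw [norm_sum_basis, ← Complex.ofReal_prod, ← Real.exp_sum]
      congr 2
      rw [Finset.mul_sum, Finset.sum_div]
  simp_rw [h1]
  rw [integral_fintype_prod_eq_prod (fun (i : Fin (finrank ℝ E)) (x : ℝ) =>
    Complex.exp ((⟪b i, t⟫ : ℝ) * (x : ℝ) * Complex.I) * (Real.exp (-c ^ 2 * x ^ 2 / 2) : ℝ))]
  simp_rw [one_dim_factor]
  rw [Finset.prod_mul_distrib, ← Complex.exp_sum]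
  congr 1
  · simp
  · congr 1
    have h2 : ‖t‖ ^ 2 = ∑ i, ⟪b i, t⟫ ^ 2 := (b.sum_sq_inner_right t).symm
    have h3 : ((‖t‖ : ℝ) : ℂ) ^ 2 = ∑ i, ((⟪b i, t⟫ : ℝ) : ℂ) ^ 2 := by
      exact_mod_cast congrArg (fun r : ℝ => (r : ℂ)) h2
    rw [h3, Finset.mul_sum, ← Finset.sum_neg_distrib, Finset.sum_div]

/-- **Gaussian scaling**, measure form -/
theorem gauss_scale_measure (c : ℝ) :
    (stdGaussian E).withDensity (fun y => ENNReal.ofReal (Real.exp (-c ^ 2 * ‖y‖ ^ 2 / 2)))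
      = ENNReal.ofReal (sc c ^ (finrank ℝ E)) • (stdGaussian E).map (fun y => sc c • y) := by
  have hs := sc_pos c
  have hdm : Measurable (fun y : E => ENNReal.ofReal (Real.exp (-c ^ 2 * ‖y‖ ^ 2 / 2))) := by
    fun_prop
  have hfin : IsFiniteMeasure ((stdGaussian E).withDensity
      (fun y => ENNReal.ofReal (Real.exp (-c ^ 2 * ‖y‖ ^ 2 / 2)))) := by
    apply isFiniteMeasure_withDensity
    have h1 : ∫⁻ y : E, ENNReal.ofReal (Real.exp (-c ^ 2 * ‖y‖ ^ 2 / 2)) ∂(stdGaussian E)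
        ≤ ∫⁻ _y : E, 1 ∂(stdGaussian E) := by
      apply lintegral_mono
      intro y
      simp only
      rw [ENNReal.ofReal_le_one, Real.exp_le_one_iff]
      have := mul_nonneg (sq_nonneg c) (sq_nonneg ‖y‖)
      nlinarith
    rw [lintegral_one, measure_univ] at h1
    exact ne_of_lt (lt_of_le_of_lt h1 ENNReal.one_lt_top)
  have hsm : Measurable (fun y : E => sc c • y) := by fun_prop
  have hmap : IsProbabilityMeasure ((stdGaussian E).map (fun y => sc c • y)) :=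
    Measure.isProbabilityMeasure_map hsm.aemeasurable
  have hfin2 : IsFiniteMeasure (ENNReal.ofReal (sc c ^ (finrank ℝ E)) •
      (stdGaussian E).map (fun y => sc c • y)) :=
    Measure.smul_finite _ ENNReal.ofReal_ne_top
  apply Measure.ext_of_charFun (E := E)
  ext t
  rw [charFun_apply, charFun_apply, integral_smul_measure]
  rw [integral_withDensity_eq_integral_toReal_smul hdm
    (Filter.Eventually.of_forall fun y => ENNReal.ofReal_lt_top)]
  have h1 : ∀ y : E, (ENNReal.ofReal (Real.exp (-c ^ 2 * ‖y‖ ^ 2 / 2))).toReal •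
      Complex.exp ((⟪y, t⟫ : ℝ) * Complex.I)
      = Complex.exp ((⟪y, t⟫ : ℝ) * Complex.I) * (Real.exp (-c ^ 2 * ‖y‖ ^ 2 / 2) : ℝ) := by
    intro y
    rw [ENNReal.toReal_ofReal (Real.exp_pos _).le, Complex.real_smul, mul_comm]
  simp_rw [h1]
  rw [char_weighted, ENNReal.toReal_ofReal (by positivity), Complex.real_smul]
  congr 1
  · push_cast
    rfl
  · rw [integral_map hsm.aemeasurable (by fun_prop)]
    have h2 : ∀ y : E, (⟪sc c • y, t⟫ : ℝ) = ⟪y, sc c • t⟫ := by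
      intro y
      rw [real_inner_smul_left, real_inner_smul_right]
    simp_rw [h2]
    rw [← charFun_apply, charFun_stdGaussian, norm_smul, Real.norm_eq_abs, abs_of_pos hs]
    congr 1
    push_cast
    ring

/-- **Gaussian scaling** -/
theorem gauss_scale (c : ℝ) {f : E → ℝ} (hf : Measurable f) :
    ∫ y, f y * Real.exp (-c ^ 2 * ‖y‖ ^ 2 / 2) ∂(stdGaussian E)
      = sc c ^ (finrank ℝ E) * ∫ y, f (sc c • y) ∂(stdGaussian E) := by
  have hs := sc_pos c
  have hdm : Measurable (fun y : E => ENNReal.ofReal (Real.exp (-c ^ 2 * ‖y‖ ^ 2 / 2))) := by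
    fun_prop
  have hsm : Measurable (fun y : E => sc c • y) := by fun_prop
  have h : ∫ y, f y ∂((stdGaussian E).withDensity
      (fun y => ENNReal.ofReal (Real.exp (-c ^ 2 * ‖y‖ ^ 2 / 2))))
      = ∫ y, f y ∂(ENNReal.ofReal (sc c ^ (finrank ℝ E)) •
        (stdGaussian E).map (fun y => sc c • y)) := by
    rw [gauss_scale_measure]
  rw [integral_withDensity_eq_integral_toReal_smul hdm
    (Filter.Eventually.of_forall fun y => ENNReal.ofReal_lt_top), integral_smul_measure,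
    integral_map hsm.aemeasurable hf.aestronglyMeasurable,
    ENNReal.toReal_ofReal (by positivity)] at h
  rw [smul_eq_mul] at h
  rw [← h]
  apply integral_congr_ae
  refine Filter.Eventually.of_forall fun y => ?_
  simp only
  rw [ENNReal.toReal_ofReal (Real.exp_pos _).le, smul_eq_mul, mul_comm]

end P226
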