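import Vale.Agent.P226_h16.NCDefs
import Vale.Agent.P226_h16.BBDefs

/-! P226 module FINRED: from the statements in the moments to the core statements. -/

open Set

namespace P226

namespace FR16

/-! ### profiles -/

/-- inverse of `x (2 - x)` on `[0,1]` -/
noncomputable def X (s : ℝ) : ℝ := 1 - Real.sqrt (1 - s)

theorem X_nonneg {s : ℝ} (h0 : 0 ≤ s) : 0 ≤ X s := by
  unfold X
  have : Real.sqrt (1 - s) ≤ 1 := by
    rw [Real.sqrt_le_iff]; constructor <;> linarith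
  linarith

theorem X_le_one (s : ℝ) : X s ≤ 1 := by
  unfold X
  have := Real.sqrt_nonneg (1 - s)
  linarith

theorem X_mul {s : ℝ} (h1 : s ≤ 1) : X s * (2 - X s) = s := by
  unfold X
  have := Real.sq_sqrt (sub_nonneg.2 h1)
  nlinarith

theorem X_mono {s s' : ℝ} (h : s ≤ s') : X s ≤ X s' := by
  unfold X
  have : Real.sqrt (1 - s') ≤ Real.sqrt (1 - s) := Real.sqrt_le_sqrt (by linarith)
  linarith

theorem X_le {s y : ℝ} (hs : s ≤ y * (2 - y)) : X s ≤ y := by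
  rcases le_total 1 y with h | h
  · exact (X_le_one s).trans h
  · unfold X
    have : 1 - y ≤ Real.sqrt (1 - s) := by
      apply Real.le_sqrt_of_sq_le
      nlinarith
    linarith

theorem G5_mono {x y : ℝ} (h0 : 0 ≤ x) (hxy : x ≤ y) (hy : y ≤ 2) : BB.G5 x ≤ BB.G5 y := by
  unfold BB.G5
  have h1 : x ^ 2 ≤ 2 * x := by nlinarith
  have h2 : y ^ 2 ≤ 2 * y := by nlinarith
  have h3 : x * y ≤ x + y := by nlinarith [mul_nonneg h0 (sub_nonneg.2 hy)]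
  nlinarith [mul_nonneg (sub_nonneg.2 hxy)
    (show 0 ≤ 3 * (x + y) - (x ^ 2 + x * y + y ^ 2) by linarith)]

theorem G3_mono {x y : ℝ} (hxy : x ≤ y) : BB.G3 x ≤ BB.G3 y := by
  unfold BB.G3
  linarith

theorem G4_mono' {x y : ℝ} (hxy : x ≤ y) : BB.G4 x ≤ BB.G4 y := by
  unfold BB.G4
  have h1 : Real.sin x * Real.cos x = Real.sin (2 * x) / 2 := by rw [Real.sin_two_mul]; ring
  have h2 : Real.sin y * Real.cos y = Real.sin (2 * y) / 2 := by rw [Real.sin_two_mul]; ring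
  have h3 := Real.abs_sin_sub_sin_le (2 * y) (2 * x)
  rw [abs_le] at h3
  have h4 : |2 * y - 2 * x| = 2 * y - 2 * x := abs_of_nonneg (by linarith)
  rw [h4] at h3
  rw [h1, h2]
  apply div_le_div_of_nonneg_right _ Real.pi_pos.le
  linarith [h3.2]

/-- generic choice of `x` for `d = 3, 5` -/
theorem choose_x {n k : ℕ} (hk : k ≠ 0) (Q t : Fin (n + 1) → ℝ) (hQ0 : ∀ i, 0 ≤ Q i)
    (hm : Monotone Q) (ht : ∀ i, t i ∈ Icc (-1 : ℝ) 1) (hQt : ∀ i, Q i ≤ (1 - t i ^ 2) ^ k) :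
    ∃ x : Fin (n + 1) → ℝ, (∀ i, 0 ≤ x i) ∧ Monotone x ∧ (∀ i, x i ≤ 1) ∧
      (∀ i, (x i * (2 - x i)) ^ k = Q i) ∧ ∀ i, x i ≤ 1 - t i := by
  have ht1 : ∀ i, 0 ≤ 1 - t i ^ 2 := fun i => by
    have := ht i
    nlinarith [this.1, this.2]
  set s : Fin (n + 1) → ℝ := fun i => Q i ^ ((k : ℝ)⁻¹) with hs
  have hs0 : ∀ i, 0 ≤ s i := fun i => Real.rpow_nonneg (hQ0 i) _
  have hsk : ∀ i, s i ^ k = Q i := fun i => Real.rpow_inv_natCast_pow (hQ0 i) hk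
  have hst : ∀ i, s i ≤ 1 - t i ^ 2 := fun i => by
    rw [← pow_le_pow_iff_left₀ (hs0 i) (ht1 i) hk, hsk]
    exact hQt i
  have hs1 : ∀ i, s i ≤ 1 := fun i => (hst i).trans (by nlinarith [sq_nonneg (t i)])
  refine ⟨fun i => X (s i), fun i => X_nonneg (hs0 i), fun i j hij => X_mono ?_,
    fun i => X_le_one _, fun i => ?_, fun i => X_le ?_⟩
  · exact Real.rpow_le_rpow (hQ0 i) (hm hij) (by positivity)
  · rw [X_mul (hs1 i), hsk]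
  · refine (hst i).trans (le_of_eq ?_)
    ring

/-- choice of `x` for `d = 4` -/
theorem choose_x4 {n : ℕ} (Q α : Fin (n + 1) → ℝ) (hQ0 : ∀ i, 0 ≤ Q i)
    (hm : Monotone Q) (hα : ∀ i, α i ∈ Icc (0 : ℝ) Real.pi)
    (hQα : ∀ i, Q i ≤ Real.sin (α i) ^ 6) :
    ∃ x : Fin (n + 1) → ℝ, (∀ i, 0 ≤ x i) ∧ Monotone x ∧ (∀ i, x i ≤ Real.pi / 2) ∧
      (∀ i, BB.P4 (x i) = Q i) ∧ ∀ i, x i ≤ α i := by
  have hα1 : ∀ i, 0 ≤ Real.sin (α i) := fun i => Real.sin_nonneg_of_mem_Icc (hα i)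
  set s : Fin (n + 1) → ℝ := fun i => Q i ^ (((6 : ℕ) : ℝ)⁻¹) with hs
  have hs0 : ∀ i, 0 ≤ s i := fun i => Real.rpow_nonneg (hQ0 i) _
  have hsk : ∀ i, s i ^ 6 = Q i := fun i => Real.rpow_inv_natCast_pow (hQ0 i) (by norm_num)
  have hst : ∀ i, s i ≤ Real.sin (α i) := fun i => by
    rw [← pow_le_pow_iff_left₀ (hs0 i) (hα1 i) (by norm_num : 6 ≠ 0), hsk]
    exact hQα i
  have hs1 : ∀ i, s i ≤ 1 := fun i => (hst i).trans (Real.sin_le_one _)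
  refine ⟨fun i => Real.arcsin (s i), fun i => Real.arcsin_nonneg.2 (hs0 i),
    fun i j hij => Real.monotone_arcsin ?_, fun i => Real.arcsin_le_pi_div_two _,
    fun i => ?_, fun i => ?_⟩
  · exact Real.rpow_le_rpow (hQ0 i) (hm hij) (by positivity)
  · unfold BB.P4
    rw [Real.sin_arcsin (by linarith [hs0 i]) (hs1 i), hsk]
  · show Real.arcsin (s i) ≤ α i
    rcases le_total (Real.pi / 2) (α i) with h | h
    · exact (Real.arcsin_le_pi_div_two _).trans h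
    · rw [← Real.arcsin_sin (by linarith [(hα i).1, Real.pi_pos]) h]
      exact Real.monotone_arcsin (hst i)

theorem pi_sq_gt : (9.8696 : ℝ) < Real.pi ^ 2 := by
  have := Real.pi_gt_d6
  nlinarith

theorem num6b (Q0 L : ℝ) (hQ0 : 0 < Q0) (hb : L < 432 / Real.pi ^ 2 * Q0) : L < 43.78 * Q0 := by
  have hπ2 := pi_sq_gt
  refine hb.trans_le ?_
  apply mul_le_mul_of_nonneg_right _ hQ0.le
  rw [div_le_iff₀ (by positivity)]
  linarith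

theorem num5 (Q0 L : ℝ) (hQ0 : 0 < Q0) (hb : L < 2500 / (12 * Real.pi ^ 2) * Q0) :
    L < 21.11 * Q0 := by
  have hπ2 := pi_sq_gt
  refine hb.trans_le ?_
  apply mul_le_mul_of_nonneg_right _ hQ0.le
  rw [div_le_iff₀ (by positivity)]
  linarith

theorem num4 (Q0 L : ℝ) (hQ0 : 0 < Q0) (hb : L < 256 / (9 * Real.pi ^ 2) * Q0) :
    L < 2.8821 * Q0 := by
  have hπ2 := pi_sq_gt
  refine hb.trans_le ?_
  apply mul_le_mul_of_nonneg_right _ hQ0.le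
  rw [div_le_iff₀ (by positivity)]
  linarith

theorem num6a (Q0 Q1 : ℝ) (hQ0 : 0 < Q0) (h01 : Q0 ≤ Q1) (h6 : Q1 ≤ 6 * Q0) :
    50 / (3456 * Real.pi ^ 2) * ((25 * Q0 + Q1) ^ 3 / Q0 ^ 2) ≤ 22.2 * Q0 + 3.61 * Q1 := by
  have hπ2 := pi_sq_gt
  have hpoly : (25 * Q0 + Q1) ^ 3 / Q0 ^ 2 ≤ 15133 * Q0 + 2443 * Q1 := by
    rw [div_le_iff₀ (by positivity)]
    have : 0 ≤ (Q1 - Q0) * (6 * Q0 - Q1) * (Q1 + 82 * Q0) := by
      have h1 : 0 ≤ Q1 - Q0 := by linarith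
      have h2 : 0 ≤ 6 * Q0 - Q1 := by linarith
      have h3 : 0 ≤ Q1 + 82 * Q0 := by linarith
      positivity
    have e : (15133 * Q0 + 2443 * Q1) * Q0 ^ 2 = (25 * Q0 + Q1) ^ 3 +
        (Q1 - Q0) * (6 * Q0 - Q1) * (Q1 + 82 * Q0) := by ring
    rw [e]
    linarith
  have hcst : 50 / (3456 * Real.pi ^ 2) ≤ 0.001466 := by
    rw [div_le_iff₀ (by positivity)]
    linarith
  have h1 : 50 / (3456 * Real.pi ^ 2) * ((25 * Q0 + Q1) ^ 3 / Q0 ^ 2) ≤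
      0.001466 * (15133 * Q0 + 2443 * Q1) := by
    apply mul_le_mul hcst hpoly _ (by norm_num)
    have : 0 ≤ 25 * Q0 + Q1 := by linarith
    positivity
  linarith

theorem scale6 (Q0 Q1 : ℝ) (hQ0 : 0 < Q0) :
    25 / (3456 * Real.pi ^ 3) * (25 * (Q0 / (2 * Real.pi)) + Q1 / (2 * Real.pi)) ^ 3 /
      (Q0 / (2 * Real.pi)) ^ 2 * (2 * Real.pi) ^ 2 =
      50 / (3456 * Real.pi ^ 2) * ((25 * Q0 + Q1) ^ 3 / Q0 ^ 2) := by
  have hπ : 0 < Real.pi := Real.pi_pos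
  field_simp
  ring

theorem scaleL6 (p a b c d e f : ℝ) (hp : 0 < p) :
    (c / p + d / p + e / p + f / p) ^ 2 / 4 + (c / p + d / p + e / p + f / p) * (d / p) / 2 -
      ((c / p) ^ 2 + (d / p) ^ 2 + (e / p) ^ 2 + (f / p) ^ 2) / 2 -
      (c / p + d / p + e / p + f / p) * (a / p + b / p) =
    ((c + d + e + f) ^ 2 / 4 + (c + d + e + f) * d / 2 -
      (c ^ 2 + d ^ 2 + e ^ 2 + f ^ 2) / 2 - (c + d + e + f) * (a + b)) / p ^ 2 := by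
  field_simp

end FR16

open FR16

theorem fin6_of_core (hcore : BB.Core6) (q t : Fin 6 → ℝ) (hq0 : 0 < q 0) (hm : Monotone q)
    (ht : ∀ i, t i ∈ Icc (-1 : ℝ) 1) (hqt : ∀ i, q i ≤ (1 - t i ^ 2) ^ 4 / (2 * Real.pi))
    (hsum : ∑ i, (2 - 3 * t i + t i ^ 3) / 4 = 1) (hV : 9 / (8 * Real.pi) < ∑ i, q i)
    (ha : (q 2 + q 3 + q 4 + q 5) ^ 2 / 4 + (q 2 + q 3 + q 4 + q 5) * q 3 / 2 -
      (q 2 ^ 2 + q 3 ^ 2 + q 4 ^ 2 + q 5 ^ 2) / 2 - (q 2 + q 3 + q 4 + q 5) * (q 0 + q 1) <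
      25 / (3456 * Real.pi ^ 3) * (25 * q 0 + q 1) ^ 3 / q 0 ^ 2)
    (hb : (q 2 + q 3 + q 4 + q 5) ^ 2 / 4 + (q 2 + q 3 + q 4 + q 5) * q 3 / 2 -
      (q 2 ^ 2 + q 3 ^ 2 + q 4 ^ 2 + q 5 ^ 2) / 2 - (q 2 + q 3 + q 4 + q 5) * (q 0 + q 1) <
      216 / Real.pi ^ 3 * q 0) : False := by
  have hπ : 0 < Real.pi := Real.pi_pos
  have hπ2 := pi_sq_gt
  set Q : Fin 6 → ℝ := fun i => 2 * Real.pi * q i with hQ
  have hq : ∀ i, q i = Q i / (2 * Real.pi) := fun i => by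
    rw [hQ]; field_simp
  have hqpos : ∀ i, 0 < q i := fun i => hq0.trans_le (hm (Fin.zero_le i))
  have hQpos : ∀ i, 0 < Q i := fun i => by have := hqpos i; positivity
  have hQm : Monotone Q := fun i j hij => by
    have := hm hij
    show 2 * Real.pi * q i ≤ 2 * Real.pi * q j
    gcongr
  have hQt : ∀ i, Q i ≤ (1 - t i ^ 2) ^ 4 := fun i => by
    have := hqt i
    rw [le_div_iff₀ (by positivity)] at this
    show 2 * Real.pi * q i ≤ _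
    linarith
  obtain ⟨x, hx0, hxm, hx1, hxQ, hxt⟩ := choose_x (by norm_num : 4 ≠ 0) Q t
    (fun i => (hQpos i).le) hQm ht hQt
  have hP : ∀ i, BB.P5 (x i) = Q i := hxQ
  have hG : ∀ i, BB.G5 (x i) ≤ (2 - 3 * t i + t i ^ 3) / 4 := fun i => by
    refine (G5_mono (hx0 i) (hxt i) (by linarith [(ht i).1])).trans (le_of_eq ?_)
    unfold BB.G5
    ring
  have hGsum : BB.G5 (x 0) + BB.G5 (x 1) + BB.G5 (x 2) + BB.G5 (x 3) + BB.G5 (x 4) +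
      BB.G5 (x 5) ≤ 1 := by
    rw [← hsum]
    simp only [Fin.sum_univ_six]
    have h0 := hG 0; have h1 := hG 1; have h2 := hG 2
    have h3 := hG 3; have h4 := hG 4; have h5 := hG 5
    linarith
  have hVQ : 9 / 4 < Q 0 + Q 1 + Q 2 + Q 3 + Q 4 + Q 5 := by
    rw [Fin.sum_univ_six, div_lt_iff₀ (by positivity)] at hV
    simp only [hQ]
    linarith
  have h01 : (0 : Fin 6) ≤ 1 := by decide
  have h12 : (1 : Fin 6) ≤ 2 := by decide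
  have h23 : (2 : Fin 6) ≤ 3 := by decide
  have h34 : (3 : Fin 6) ≤ 4 := by decide
  have h45 : (4 : Fin 6) ≤ 5 := by decide
  have hc := hcore (x 0) (x 1) (x 2) (x 3) (x 4) (x 5) (hx0 0) (hxm h01) (hxm h12) (hxm h23)
    (hxm h34) (hxm h45) (hx1 5) hGsum (by simp only [hP]; exact hVQ)
  simp only [hP] at hc
  have hQ0 := hQpos 0
  have hQ01 : Q 0 ≤ Q 1 := hQm h01
  rw [hq 0, hq 1, hq 2, hq 3, hq 4, hq 5, scaleL6 _ _ _ _ _ _ _ (by positivity),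
    div_lt_iff₀ (by positivity)] at ha hb
  rw [scale6 _ _ hQ0] at ha
  have hb' : 216 / Real.pi ^ 3 * (Q 0 / (2 * Real.pi)) * (2 * Real.pi) ^ 2 =
      432 / Real.pi ^ 2 * Q 0 := by
    field_simp; ring
  rw [hb'] at hb
  have hb2 := num6b _ _ hQ0 hb
  rcases hc with hc | hc
  · rcases le_total (Q 1) (6 * Q 0) with h6 | h6
    · exact absurd (ha.trans_le (num6a _ _ hQ0 hQ01 h6)) (not_lt.2 hc)
    · linarith
  · linarith

theorem fin5_of_core (hcore : BB.Core5) (q α : Fin 5 → ℝ) (hq0 : 0 < q 0) (hm : Monotone q)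
    (hα : ∀ i, α i ∈ Icc (0 : ℝ) Real.pi) (hqt : ∀ i, q i ≤ Real.sin (α i) ^ 6 / (2 * Real.pi))
    (hsum : ∑ i, (α i - Real.sin (α i) * Real.cos (α i)) / Real.pi = 1)
    (hV : 9 / (8 * Real.pi) < ∑ i, q i)
    (ha : (q 1 + q 2 + q 3 + q 4) ^ 2 / 4 + (q 1 + q 2 + q 3 + q 4) * q 2 / 2 -
      (q 1 ^ 2 + q 2 ^ 2 + q 3 ^ 2 + q 4 ^ 2) / 2 - (q 1 + q 2 + q 3 + q 4) * q 0 <
      1250 / (12 * Real.pi ^ 3) * q 0) : False := by
  have hπ : 0 < Real.pi := Real.pi_pos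
  have hπ2 := pi_sq_gt
  set Q : Fin 5 → ℝ := fun i => 2 * Real.pi * q i with hQ
  have hq : ∀ i, q i = Q i / (2 * Real.pi) := fun i => by
    rw [hQ]; field_simp
  have hqpos : ∀ i, 0 < q i := fun i => hq0.trans_le (hm (Fin.zero_le i))
  have hQpos : ∀ i, 0 < Q i := fun i => by have := hqpos i; positivity
  have hQm : Monotone Q := fun i j hij => by
    have := hm hij
    show 2 * Real.pi * q i ≤ 2 * Real.pi * q j
    gcongr
  have hQt : ∀ i, Q i ≤ Real.sin (α i) ^ 6 := fun i => by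
    have := hqt i
    rw [le_div_iff₀ (by positivity)] at this
    show 2 * Real.pi * q i ≤ _
    linarith
  obtain ⟨x, hx0, hxm, hx1, hxQ, hxt⟩ := choose_x4 Q α (fun i => (hQpos i).le) hQm hα hQt
  have hG : ∀ i, BB.G4 (x i) ≤ (α i - Real.sin (α i) * Real.cos (α i)) / Real.pi :=
    fun i => G4_mono' (hxt i)
  have hGsum : BB.G4 (x 0) + BB.G4 (x 1) + BB.G4 (x 2) + BB.G4 (x 3) + BB.G4 (x 4) ≤ 1 := by
    rw [← hsum]
    simp only [Fin.sum_univ_five]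
    have h0 := hG 0; have h1 := hG 1; have h2 := hG 2
    have h3 := hG 3; have h4 := hG 4
    linarith
  have hVQ : 9 / 4 < Q 0 + Q 1 + Q 2 + Q 3 + Q 4 := by
    rw [Fin.sum_univ_five, div_lt_iff₀ (by positivity)] at hV
    simp only [hQ]
    linarith
  have h01 : (0 : Fin 5) ≤ 1 := by decide
  have h12 : (1 : Fin 5) ≤ 2 := by decide
  have h23 : (2 : Fin 5) ≤ 3 := by decide
  have h34 : (3 : Fin 5) ≤ 4 := by decide
  have hc := hcore (x 0) (x 1) (x 2) (x 3) (x 4) (hx0 0) (hxm h01) (hxm h12) (hxm h23)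
    (hxm h34) (hx1 4) hGsum (by simp only [hxQ]; exact hVQ)
  simp only [hxQ] at hc
  set L : ℝ := (Q 1 + Q 2 + Q 3 + Q 4) ^ 2 / 4 + (Q 1 + Q 2 + Q 3 + Q 4) * Q 2 / 2 -
      (Q 1 ^ 2 + Q 2 ^ 2 + Q 3 ^ 2 + Q 4 ^ 2) / 2 - (Q 1 + Q 2 + Q 3 + Q 4) * Q 0 with hL
  have hLq : (q 1 + q 2 + q 3 + q 4) ^ 2 / 4 + (q 1 + q 2 + q 3 + q 4) * q 2 / 2 -
      (q 1 ^ 2 + q 2 ^ 2 + q 3 ^ 2 + q 4 ^ 2) / 2 - (q 1 + q 2 + q 3 + q 4) * q 0 =
      L / (2 * Real.pi) ^ 2 := by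
    rw [hL, hq 0, hq 1, hq 2, hq 3, hq 4]
    field_simp
  rw [hLq, div_lt_iff₀ (by positivity)] at ha
  have ha' : 1250 / (12 * Real.pi ^ 3) * q 0 * (2 * Real.pi) ^ 2 =
      2500 / (12 * Real.pi ^ 2) * Q 0 := by
    rw [hq 0]; field_simp; ring
  rw [ha'] at ha
  exact absurd (num5 _ _ (hQpos 0) ha) (not_lt.2 hc)

theorem fr_tan1 (t : ℝ) (a : 0 ≤ t) (b : t ≤ 0.7247) : (1 - t ^ 2) ^ 2 ≤ 21 / 16 - 3 * t / 2 := by
  have h0 : 0 ≤ 5 / 4 - t - t ^ 2 := by nlinarith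
  have h1 : 0 ≤ (t - 1 / 2) ^ 2 * (5 / 4 - t - t ^ 2) := mul_nonneg (sq_nonneg _) h0
  have e : 21 / 16 - 3 * t / 2 = (1 - t ^ 2) ^ 2 + (t - 1 / 2) ^ 2 * (5 / 4 - t - t ^ 2) := by ring
  rw [e]
  linarith

theorem fr_tan2 (s t : ℝ) (hs1 : 0.394516 ≤ s) (hs2 : s ≤ 0.4251) (a : 0 ≤ t)
    (b : t ≤ 2 - 3 * s) :
    (1 - t ^ 2) ^ 2 ≤ (1 - s ^ 2) ^ 2 - 4 * s * (1 - s ^ 2) * (t - s) := by
  have h2 : t ^ 2 ≤ (2 - 3 * s) ^ 2 := pow_le_pow_left₀ a b 2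
  have h3 : s * t ≤ s * (2 - 3 * s) := mul_le_mul_of_nonneg_left b (by linarith)
  have h4 : 0 ≤ (3 * s - 1) * (1 - s) := mul_nonneg (by linarith) (by linarith)
  have h0 : 0 ≤ 2 - t ^ 2 - 2 * s * t - 3 * s ^ 2 := by linarith
  have h1 : 0 ≤ (t - s) ^ 2 * (2 - t ^ 2 - 2 * s * t - 3 * s ^ 2) := mul_nonneg (sq_nonneg _) h0
  have e : (1 - s ^ 2) ^ 2 - 4 * s * (1 - s ^ 2) * (t - s) =
      (1 - t ^ 2) ^ 2 + (t - s) ^ 2 * (2 - t ^ 2 - 2 * s * t - 3 * s ^ 2) := by ring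
  rw [e]
  linarith

theorem fr_end (s : ℝ) (hs1 : 0.394516 ≤ s) (hs2 : s ≤ 0.4251) :
    (1 - (2 - 3 * s) ^ 2) ^ 2 + 3 * (1 - s ^ 2) ^ 2 ≤ 9 / 4 := by
  have h5 : 84 * s ^ 2 - 132 * s + 39 ≤ 0 := by nlinarith
  have h6 : 0 ≤ (s - 1 / 2) ^ 2 * -(84 * s ^ 2 - 132 * s + 39) :=
    mul_nonneg (sq_nonneg _) (neg_nonneg.2 h5)
  have e : (1 - (2 - 3 * s) ^ 2) ^ 2 + 3 * (1 - s ^ 2) ^ 2 =
      9 / 4 - (s - 1 / 2) ^ 2 * -(84 * s ^ 2 - 132 * s + 39) := by ring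
  rw [e]
  linarith

/-- the smallest cell is small (`d = 3`), in `t = 1 - x` -/
theorem fr_small' (t0 t1 t2 t3 : ℝ) (g3 : 0 ≤ t3) (g23 : t3 ≤ t2) (g12 : t2 ≤ t1) (g01 : t1 ≤ t0)
    (g0 : t0 < 0.81645) (gS : 2 ≤ t0 + t1 + t2 + t3) :
    (1 - t0 ^ 2) ^ 2 + (1 - t1 ^ 2) ^ 2 + (1 - t2 ^ 2) ^ 2 + (1 - t3 ^ 2) ^ 2 ≤ 9 / 4 := by
  rcases le_total t0 0.7247 with hc | hc
  · have k0 := fr_tan1 t0 (by linarith) hc
    have k1 := fr_tan1 t1 (by linarith) (by linarith)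
    have k2 := fr_tan1 t2 (by linarith) (by linarith)
    have k3 := fr_tan1 t3 (by linarith) (by linarith)
    linarith
  · obtain ⟨s, hs⟩ : ∃ s : ℝ, s = (2 - t0) / 3 := ⟨_, rfl⟩
    have hts : t0 = 2 - 3 * s := by rw [hs]; ring
    have hs1 : 0.394516 ≤ s := by rw [hs]; linarith
    have hs2 : s ≤ 0.4251 := by rw [hs]; linarith
    have k1 := fr_tan2 s t1 hs1 hs2 (by linarith) (by linarith)
    have k2 := fr_tan2 s t2 hs1 hs2 (by linarith) (by linarith)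
    have k3 := fr_tan2 s t3 hs1 hs2 (by linarith) (by linarith)
    have hsum3 : 0 ≤ t1 + t2 + t3 - 3 * s := by linarith
    have hneg : 0 ≤ 4 * s * (1 - s ^ 2) := by
      apply mul_nonneg (by linarith)
      nlinarith
    have h7 := mul_nonneg hneg hsum3
    have h4 := fr_end s hs1 hs2
    have e : 4 * s * (1 - s ^ 2) * (t1 + t2 + t3 - 3 * s) =
        4 * s * (1 - s ^ 2) * (t1 - s) + 4 * s * (1 - s ^ 2) * (t2 - s) +
          4 * s * (1 - s ^ 2) * (t3 - s) := by ring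
    rw [e] at h7
    rw [hts]
    linarith

/-- the smallest cell is small (`d = 3`) -/
theorem fr_small (x0 x1 x2 x3 : ℝ) (h01 : x0 ≤ x1) (h12 : x1 ≤ x2) (h23 : x2 ≤ x3)
    (h3 : x3 ≤ 1) (hS : x0 + x1 + x2 + x3 ≤ 2)
    (hV : 9 / 4 < BB.P3 x0 + BB.P3 x1 + BB.P3 x2 + BB.P3 x3) : x0 ≤ 0.18355 := by
  by_contra hcon
  rw [not_le] at hcon
  have hp : ∀ x : ℝ, BB.P3 x = (1 - (1 - x) ^ 2) ^ 2 := fun x => by unfold BB.P3; ring
  simp only [hp] at hV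
  have := fr_small' (1 - x0) (1 - x1) (1 - x2) (1 - x3) (by linarith) (by linarith) (by linarith)
    (by linarith) (by linarith) (by linarith)
  linarith

theorem fin4_of_core (hcore : BB.Core4) (q t : Fin 4 → ℝ) (hq0 : 0 < q 0) (hm : Monotone q)
    (ht : ∀ i, t i ∈ Icc (-1 : ℝ) 1) (hqt : ∀ i, q i ≤ (1 - t i ^ 2) ^ 2 / (2 * Real.pi))
    (hsum : ∑ i, (1 - t i) / 2 = 1) (hV : 9 / (8 * Real.pi) < ∑ i, q i)
    (h4 : heron (q 1) (q 2) (q 3) - (q 1 + q 2 + q 3 - 2 * q 1) / 2 * q 0 - q 0 ^ 2 / 4 <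
      128 / (9 * Real.pi ^ 3) * q 0) : False := by
  have hπ : 0 < Real.pi := Real.pi_pos
  have hπ2 := pi_sq_gt
  set Q : Fin 4 → ℝ := fun i => 2 * Real.pi * q i with hQ
  have hq : ∀ i, q i = Q i / (2 * Real.pi) := fun i => by
    rw [hQ]; field_simp
  have hqpos : ∀ i, 0 < q i := fun i => hq0.trans_le (hm (Fin.zero_le i))
  have hQpos : ∀ i, 0 < Q i := fun i => by have := hqpos i; positivity
  have hQm : Monotone Q := fun i j hij => by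
    have := hm hij
    show 2 * Real.pi * q i ≤ 2 * Real.pi * q j
    gcongr
  have hQt : ∀ i, Q i ≤ (1 - t i ^ 2) ^ 2 := fun i => by
    have := hqt i
    rw [le_div_iff₀ (by positivity)] at this
    show 2 * Real.pi * q i ≤ _
    linarith
  obtain ⟨x, hx0, hxm, hx1, hxQ, hxt⟩ := choose_x (by norm_num : 2 ≠ 0) Q t
    (fun i => (hQpos i).le) hQm ht hQt
  have hP : ∀ i, BB.P3 (x i) = Q i := hxQ
  have hSx : x 0 + x 1 + x 2 + x 3 ≤ 2 := by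
    rw [Fin.sum_univ_four] at hsum
    have h0 := hxt 0; have h1 := hxt 1; have h2 := hxt 2; have h3 := hxt 3
    linarith
  have hGsum : BB.G3 (x 0) + BB.G3 (x 1) + BB.G3 (x 2) + BB.G3 (x 3) ≤ 1 := by
    unfold BB.G3
    linarith
  have hVQ : 9 / 4 < Q 0 + Q 1 + Q 2 + Q 3 := by
    rw [Fin.sum_univ_four, div_lt_iff₀ (by positivity)] at hV
    simp only [hQ]
    linarith
  have h01 : (0 : Fin 4) ≤ 1 := by decide
  have h12 : (1 : Fin 4) ≤ 2 := by decide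
  have h23 : (2 : Fin 4) ≤ 3 := by decide
  have hVP : 9 / 4 < BB.P3 (x 0) + BB.P3 (x 1) + BB.P3 (x 2) + BB.P3 (x 3) := by
    simp only [hP]; exact hVQ
  have hsmall := fr_small (x 0) (x 1) (x 2) (x 3) (hxm h01) (hxm h12) (hxm h23)
    (hx1 3) hSx hVP
  have hc := hcore (x 0) (x 1) (x 2) (x 3) (hx0 0) (hxm h01) (hxm h12) (hxm h23)
    (hx1 3) hsmall hGsum hVP
  simp only [hP] at hc
  set L : ℝ := (Q 1 + Q 2 + Q 3) ^ 2 / 4 - (Q 1 ^ 2 + Q 2 ^ 2 + Q 3 ^ 2) / 2 -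
      (Q 1 + Q 2 + Q 3) * Q 0 / 2 + Q 1 * Q 0 - Q 0 ^ 2 / 4 with hL
  have hLq : heron (q 1) (q 2) (q 3) - (q 1 + q 2 + q 3 - 2 * q 1) / 2 * q 0 - q 0 ^ 2 / 4 =
      L / (2 * Real.pi) ^ 2 := by
    unfold heron
    rw [hL, hq 0, hq 1, hq 2, hq 3]
    field_simp
    ring
  rw [hLq, div_lt_iff₀ (by positivity)] at h4
  have ha' : 128 / (9 * Real.pi ^ 3) * q 0 * (2 * Real.pi) ^ 2 =
      256 / (9 * Real.pi ^ 2) * Q 0 := by
    rw [hq 0]; field_simp; ring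
  rw [ha'] at h4
  exact absurd (num4 _ _ (hQpos 0) h4) (not_lt.2 hc)

end P226
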