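import Vale.Agent.P226_h16.Defs16

/-! P226: definitions for the modules NC4, NC5, ASM, FIN4-6 are in `Defs16`. -/
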