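import Vale.Agent.P226_h16.NCDefs
import Vale.Agent.P226_h16.Area

/-! P226: common lemmas of the modules NC4, NC5. -/

open MeasureTheory ProbabilityTheory Set
open scoped RealInnerProductSpace ENNReal

namespace P226

section real

theorem heron_sub_ge {a b c d1 d2 d3 D : ℝ} (hab : a ≤ b) (hbc : b ≤ c) (ha : 0 ≤ a)
    (h1 : 0 ≤ d1) (h2 : 0 ≤ d2) (h3 : 0 ≤ d3) (hD : d1 + d2 + d3 ≤ D) :
    heron a b c - (a + b + c - 2 * a) / 2 * D - D ^ 2 / 4 ≤ heron (a - d1) (b - d2) (c - d3) := by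
  have e : heron (a - d1) (b - d2) (c - d3) = heron a b c
      - (d1 * (b + c - a) + d2 * (a + c - b) + d3 * (a + b - c)) / 2
      + ((d1 + d2 + d3) ^ 2 - 2 * (d1 ^ 2 + d2 ^ 2 + d3 ^ 2)) / 4 := by
    unfold heron; ring
  have e1 : d1 * (b + c - a) + d2 * (a + c - b) + d3 * (a + b - c)
      ≤ (b + c - a) * D := by
    have x1 : d2 * (a + c - b) ≤ d2 * (b + c - a) := mul_le_mul_of_nonneg_left (by linarith) h2
    have x2 : d3 * (a + b - c) ≤ d3 * (b + c - a) := mul_le_mul_of_nonneg_left (by linarith) h3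
    have x3 : (b + c - a) * (d1 + d2 + d3) ≤ (b + c - a) * D :=
      mul_le_mul_of_nonneg_left hD (by linarith)
    nlinarith
  have e2 : d1 ^ 2 + d2 ^ 2 + d3 ^ 2 ≤ (d1 + d2 + d3) ^ 2 := by
    nlinarith [mul_nonneg h1 h2, mul_nonneg h1 h3, mul_nonneg h2 h3]
  have e3 : (d1 + d2 + d3) ^ 2 ≤ D ^ 2 := pow_le_pow_left₀ (by linarith) hD 2
  rw [e]
  nlinarith

theorem net4_ge_aux1 {a0 a1 a2 a3 d0 d1 d2 d3 : ℝ}
    (hd0 : 0 ≤ d0) (hd1 : 0 ≤ d1) (hd2 : 0 ≤ d2) (hd3 : 0 ≤ d3)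
    (ha01 : a0 ≤ a1) (ha12 : a1 ≤ a2) (ha23 : a2 ≤ a3) :
    ∃ e, d1 ≤ e ∧ d2 ≤ e ∧ d3 ≤ e ∧
      a1 * e + a0 * (d0 + d1 + d2 + d3 - e) ≤ a0 * d0 + a1 * d1 + a2 * d2 + a3 * d3 ∧
      e ≤ d0 + d1 + d2 + d3 := by
  have p1 : a0 * d1 ≤ a1 * d1 := mul_le_mul_of_nonneg_right ha01 hd1
  have p2 : a0 * d2 ≤ a2 * d2 := mul_le_mul_of_nonneg_right (by linarith) hd2
  have p3 : a0 * d3 ≤ a3 * d3 := mul_le_mul_of_nonneg_right (by linarith) hd3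
  have p2' : a1 * d2 ≤ a2 * d2 := mul_le_mul_of_nonneg_right (by linarith) hd2
  have p3' : a1 * d3 ≤ a3 * d3 := mul_le_mul_of_nonneg_right (by linarith) hd3
  rcases le_total d1 d2 with h | h
  · rcases le_total d2 d3 with h' | h'
    · refine ⟨d3, by linarith, h', le_rfl, ?_, by linarith⟩
      have : a1 * d3 + a0 * (d0 + d1 + d2 + d3 - d3) = a1 * d3 + a0 * d0 + a0 * d1 + a0 * d2 := by
        ring
      linarith
    · refine ⟨d2, h, le_rfl, h', ?_, by linarith⟩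
      have : a1 * d2 + a0 * (d0 + d1 + d2 + d3 - d2) = a1 * d2 + a0 * d0 + a0 * d1 + a0 * d3 := by
        ring
      linarith
  · rcases le_total d1 d3 with h' | h'
    · refine ⟨d3, h', by linarith, le_rfl, ?_, by linarith⟩
      have : a1 * d3 + a0 * (d0 + d1 + d2 + d3 - d3) = a1 * d3 + a0 * d0 + a0 * d1 + a0 * d2 := by
        ring
      linarith
    · refine ⟨d1, le_rfl, h, h', ?_, by linarith⟩
      have : a1 * d1 + a0 * (d0 + d1 + d2 + d3 - d1) = a1 * d1 + a0 * d0 + a0 * d2 + a0 * d3 := by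
        ring
      linarith

theorem net4_ge_aux2 {g01 g02 g03 g12 g13 g23 M : ℝ}
    (h01 : 0 ≤ g01) (h02 : 0 ≤ g02) (h03 : 0 ≤ g03) (h12 : 0 ≤ g12) (h13 : 0 ≤ g13)
    (h23 : 0 ≤ g23) (x01 : g01 ≤ M) (x02 : g02 ≤ M) (x03 : g03 ≤ M) (x12 : g12 ≤ M)
    (x13 : g13 ≤ M) (x23 : g23 ≤ M) :
    g01 ^ 2 + g02 ^ 2 + g03 ^ 2 + g12 ^ 2 + g13 ^ 2 + g23 ^ 2
      ≤ (g01 + g02 + g03 + g12 + g13 + g23) * M := by
  have z01 := mul_le_mul_of_nonneg_left x01 h01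
  have z02 := mul_le_mul_of_nonneg_left x02 h02
  have z03 := mul_le_mul_of_nonneg_left x03 h03
  have z12 := mul_le_mul_of_nonneg_left x12 h12
  have z13 := mul_le_mul_of_nonneg_left x13 h13
  have z23 := mul_le_mul_of_nonneg_left x23 h23
  have y : (g01 + g02 + g03 + g12 + g13 + g23) * M = g01 * M + g02 * M + g03 * M
      + g12 * M + g13 * M + g23 * M := by ring
  rw [y]
  simp only [pow_two]
  linarith

theorem net4_ge_aux3 {A D D0 a0 a1 e q S : ℝ} (hA : A * D ≤ A * D0)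
    (hq : q ≤ D ^ 2) (hD0 : 0 ≤ D) (he0 : 0 ≤ e) (heD : e ≤ D)
    (k1 : 0 ≤ A - a1 - 3 * a0) (k2 : 0 ≤ a1 - a0) (k3 : 0 ≤ 2 * a0 - D)
    (hS : a1 * e + a0 * (D - e) ≤ S) :
    0 ≤ A * D0 - A * D / 2 - A * e / 2 + D ^ 2 / 4 - D * a1 / 2 + D * e / 2 + S - q / 2 := by
  obtain ⟨r, hr⟩ : ∃ r, r = D - e := ⟨_, rfl⟩
  have hr0 : 0 ≤ r := by rw [hr]; linarith
  have hDre : D = r + e := by rw [hr]; ring
  subst hDre
  have m1 := mul_nonneg hr0 k1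
  have m2 := mul_nonneg he0 k2
  have m3 := mul_nonneg hr0 k3
  have m4 := mul_nonneg he0 k3
  have m5 := mul_nonneg hD0 hr0
  nlinarith

theorem net4_ge_aux4 (a0 a1 a2 a3 d0 d1 d2 d3 e : ℝ) :
    (a0 - d0) * (a1 - d1) + (a0 - d0) * (a2 - d2) + (a0 - d0) * (a3 - d3)
      + (a1 - d1) * (a2 - d2) + (a1 - d1) * (a3 - d3) + (a2 - d2) * (a3 - d3)
      - ((a0 + a1 + a2 + a3) - (d0 + d1 + d2 + d3)) / 2 *
        (((a0 + a1 + a2 + a3) - (d0 + d1 + d2 + d3)) / 2 - a1 + e)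
      = ((a0 + a1 + a2 + a3) ^ 2 / 4 + (a0 + a1 + a2 + a3) * a1 / 2
          - (a0 ^ 2 + a1 ^ 2 + a2 ^ 2 + a3 ^ 2) / 2)
        - (a0 + a1 + a2 + a3) * (d0 + d1 + d2 + d3) / 2 - (a0 + a1 + a2 + a3) * e / 2
        + (d0 + d1 + d2 + d3) ^ 2 / 4 - (d0 + d1 + d2 + d3) * a1 / 2
        + (d0 + d1 + d2 + d3) * e / 2
        + (a0 * d0 + a1 * d1 + a2 * d2 + a3 * d3)
        - (d0 ^ 2 + d1 ^ 2 + d2 ^ 2 + d3 ^ 2) / 2 := by
  ring

/-- lower bound of the second symmetric function of a network with four nodes -/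
theorem net4_ge {g01 g02 g03 g12 g13 g23 a0 a1 a2 a3 d0 d1 d2 d3 D0 : ℝ}
    (h01 : 0 ≤ g01) (h02 : 0 ≤ g02) (h03 : 0 ≤ g03) (h12 : 0 ≤ g12) (h13 : 0 ≤ g13)
    (h23 : 0 ≤ g23) (hd0 : 0 ≤ d0) (hd1 : 0 ≤ d1) (hd2 : 0 ≤ d2) (hd3 : 0 ≤ d3)
    (ha01 : a0 ≤ a1) (ha12 : a1 ≤ a2) (ha23 : a2 ≤ a3)
    (s0 : a0 - d0 = g01 + g02 + g03) (s1 : a1 - d1 = g01 + g12 + g13)
    (s2 : a2 - d2 = g02 + g12 + g23) (s3 : a3 - d3 = g03 + g13 + g23)
    (hD : d0 + d1 + d2 + d3 ≤ D0) (hDa : d0 + d1 + d2 + d3 ≤ 2 * a0) :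
    (a0 + a1 + a2 + a3) ^ 2 / 4 + (a0 + a1 + a2 + a3) * a1 / 2
      - (a0 ^ 2 + a1 ^ 2 + a2 ^ 2 + a3 ^ 2) / 2 - (a0 + a1 + a2 + a3) * D0
    ≤ (a0 - d0) * (a1 - d1) + (a0 - d0) * (a2 - d2) + (a0 - d0) * (a3 - d3)
      + (a1 - d1) * (a2 - d2) + (a1 - d1) * (a3 - d3) + (a2 - d2) * (a3 - d3)
      - (g01 ^ 2 + g02 ^ 2 + g03 ^ 2 + g12 ^ 2 + g13 ^ 2 + g23 ^ 2) := by
  obtain ⟨e, he1, he2, he3, hea, hee⟩ := net4_ge_aux1 (a0 := a0) (a1 := a1) (a2 := a2) (a3 := a3)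
    hd0 hd1 hd2 hd3 ha01 ha12 ha23
  have he0 : 0 ≤ e := hd1.trans he1
  have hH : g01 + g02 + g03 + g12 + g13 + g23
      = ((a0 + a1 + a2 + a3) - (d0 + d1 + d2 + d3)) / 2 := by linarith
  have hG := net4_ge_aux2 (M := g01 + g02 + g03 + g12 + g13 + g23 - a1 + e) h01 h02 h03 h12 h13 h23
    (by linarith) (by linarith) (by linarith) (by linarith) (by linarith) (by linarith)
  rw [hH] at hG
  have hq : d0 ^ 2 + d1 ^ 2 + d2 ^ 2 + d3 ^ 2 ≤ (d0 + d1 + d2 + d3) ^ 2 := by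
    have m01 := mul_nonneg hd0 hd1
    have m02 := mul_nonneg hd0 hd2
    have m03 := mul_nonneg hd0 hd3
    have m12 := mul_nonneg hd1 hd2
    have m13 := mul_nonneg hd1 hd3
    have m23 := mul_nonneg hd2 hd3
    have : (d0 + d1 + d2 + d3) ^ 2 = d0 ^ 2 + d1 ^ 2 + d2 ^ 2 + d3 ^ 2
      + 2 * (d0 * d1 + d0 * d2 + d0 * d3 + d1 * d2 + d1 * d3 + d2 * d3) := by ring
    linarith
  have hD0 : 0 ≤ d0 + d1 + d2 + d3 := by linarith
  have ha0 : 0 ≤ a0 := by linarith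
  have hAD : (a0 + a1 + a2 + a3) * (d0 + d1 + d2 + d3) ≤ (a0 + a1 + a2 + a3) * D0 :=
    mul_le_mul_of_nonneg_left hD (by linarith)
  have hkey := net4_ge_aux3 (a0 := a0) (a1 := a1) hAD hq hD0 he0 hee (by linarith) (by linarith)
    (by linarith) hea
  have hid := net4_ge_aux4 a0 a1 a2 a3 d0 d1 d2 d3 e
  linarith

end real

variable {E : Type*} [NormedAddCommGroup E] [InnerProductSpace ℝ E]

/-- Gram determinant of two vectors -/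
noncomputable def gd (u v : E) : ℝ := ‖u‖ ^ 2 * ‖v‖ ^ 2 - ⟪u, v⟫ ^ 2

theorem gd_comm (u v : E) : gd u v = gd v u := by
  unfold gd; rw [real_inner_comm]; ring

/-- sum of the Gram determinants of four vectors with sum zero -/
theorem gd_sum (v0 v1 v2 v3 : E) (h : v0 + v1 + v2 + v3 = 0) :
    gd v0 v1 + gd v0 v2 + gd v0 v3 + gd v1 v2 + gd v1 v3 + gd v2 v3
      = gd (v0 + v1) (v0 + v2) + gd (v0 + v1) (v0 + v3) + gd (v0 + v2) (v0 + v3) := by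
  have h3 : v3 = -(v0 + v1 + v2) := by
    rw [eq_neg_iff_add_eq_zero, ← h]; abel
  subst h3
  unfold gd
  simp only [← real_inner_self_eq_norm_sq]
  simp only [inner_add_left, inner_add_right, inner_neg_left, inner_neg_right]
  rw [real_inner_comm v0 v1, real_inner_comm v0 v2, real_inner_comm v1 v2]
  ring

theorem gd_pos {u v : E} (h1 : -⟪u, v⟫ < ‖u‖ ^ 2) (h2 : -⟪u, v⟫ < ‖v‖ ^ 2) (h : ⟪u, v⟫ < 0) :
    0 < gd u v := by
  unfold gd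
  nlinarith [mul_pos (sub_pos.mpr h1) (sub_pos.mpr h2)]

theorem inf'_perm {n : ℕ} [Nonempty (Fin n)] (σ : Equiv.Perm (Fin n)) (f : Fin n → ℝ) :
    Finset.univ.inf' Finset.univ_nonempty (fun l => f (σ l))
      = Finset.univ.inf' Finset.univ_nonempty f := by
  apply le_antisymm
  · apply Finset.le_inf'
    intro l _
    exact (Finset.inf'_le (fun l => f (σ l)) (Finset.mem_univ (σ.symm l))).trans_eq (by simp)
  · apply Finset.le_inf'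
    intro l _
    exact Finset.inf'_le f (Finset.mem_univ (σ l))

variable [FiniteDimensional ℝ E] [MeasurableSpace E] [BorelSpace E]

/-- `area4` after a permutation of the labels -/
theorem area4_max (e W : E) (V' : Fin 4 → E) (c o : Fin 4 → ℝ) (he : ‖e‖ = 1) (hWe : ⟪W, e⟫ = 0)
    (hVe : ∀ l, ⟪V' l, e⟫ = 0) (hVW : ∀ l, ⟪V' l, W⟫ = 0) (hs : ∑ l, V' l = 0)
    (hc : (∑ l, c l) • W = -W)
    (hpos : 0 < gd (V' 0) (V' 1) + gd (V' 0) (V' 2) + gd (V' 0) (V' 3) + gd (V' 1) (V' 2)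
      + gd (V' 1) (V' 3) + gd (V' 2) (V' 3)) :
    ∃ δ : ℝ, 0 < δ ∧ gd (V' 0) (V' 1) + gd (V' 0) (V' 2) + gd (V' 0) (V' 3) + gd (V' 1) (V' 2)
      + gd (V' 1) (V' 3) + gd (V' 2) (V' 3) ≤ 3 * δ ^ 2 ∧
    (∫⁻ x, ENNReal.ofReal (Finset.univ.inf' Finset.univ_nonempty
        (fun l : Fin 4 => o l * ⟪e, x⟫ - ⟪V' l + c l • W, x⟫)) ∂(stdGaussian E) ≤
      ENNReal.ofReal (Real.sqrt (2 / Real.pi) *
        (Real.sqrt ((∑ l, o l) ^ 2 + ‖W‖ ^ 2)) ^ 3 / (48 * Real.pi * δ))) ∧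
    (∀ o5 : ℝ, 0 ≤ (∑ l, o l) + o5 →
    ∫⁻ x, ENNReal.ofReal (min (o5 * ⟪e, x⟫ - ⟪W, x⟫) (Finset.univ.inf' Finset.univ_nonempty
        (fun l : Fin 4 => o l * ⟪e, x⟫ - ⟪V' l + c l • W, x⟫))) ∂(stdGaussian E) ≤
      ENNReal.ofReal (Real.sqrt (2 / Real.pi) *
        ((∑ l, o l) + o5) ^ 3 / (60 * Real.pi * δ))) := by
  have hs' : V' 0 + V' 1 + V' 2 + V' 3 = 0 := by
    rw [← hs, Fin.sum_univ_four]
  have hsum := gd_sum (V' 0) (V' 1) (V' 2) (V' 3) hs'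
  have key : ∀ σ : Equiv.Perm (Fin 4),
      gd (V' (σ 0) + V' (σ 1)) (V' (σ 0) + V' (σ 3))
        ≤ gd (V' (σ 0) + V' (σ 1)) (V' (σ 0) + V' (σ 2)) →
      0 < gd (V' (σ 0) + V' (σ 1)) (V' (σ 0) + V' (σ 2)) →
      gd (V' 0) (V' 1) + gd (V' 0) (V' 2) + gd (V' 0) (V' 3) + gd (V' 1) (V' 2)
        + gd (V' 1) (V' 3) + gd (V' 2) (V' 3)
        ≤ 3 * gd (V' (σ 0) + V' (σ 1)) (V' (σ 0) + V' (σ 2)) →
      ∃ δ : ℝ, 0 < δ ∧ gd (V' 0) (V' 1) + gd (V' 0) (V' 2) + gd (V' 0) (V' 3) + gd (V' 1) (V' 2)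
      + gd (V' 1) (V' 3) + gd (V' 2) (V' 3) ≤ 3 * δ ^ 2 ∧
    (∫⁻ x, ENNReal.ofReal (Finset.univ.inf' Finset.univ_nonempty
        (fun l : Fin 4 => o l * ⟪e, x⟫ - ⟪V' l + c l • W, x⟫)) ∂(stdGaussian E) ≤
      ENNReal.ofReal (Real.sqrt (2 / Real.pi) *
        (Real.sqrt ((∑ l, o l) ^ 2 + ‖W‖ ^ 2)) ^ 3 / (48 * Real.pi * δ))) ∧
    (∀ o5 : ℝ, 0 ≤ (∑ l, o l) + o5 →
    ∫⁻ x, ENNReal.ofReal (min (o5 * ⟪e, x⟫ - ⟪W, x⟫) (Finset.univ.inf' Finset.univ_nonempty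
        (fun l : Fin 4 => o l * ⟪e, x⟫ - ⟪V' l + c l • W, x⟫))) ∂(stdGaussian E) ≤
      ENNReal.ofReal (Real.sqrt (2 / Real.pi) *
        ((∑ l, o l) + o5) ^ 3 / (60 * Real.pi * δ))) := by
    intro σ h1 h2 h3
    set δ : ℝ := Real.sqrt (gd (V' (σ 0) + V' (σ 1)) (V' (σ 0) + V' (σ 2))) with hδ
    have hδ2 : δ ^ 2 = gd (V' (σ 0) + V' (σ 1)) (V' (σ 0) + V' (σ 2)) := Real.sq_sqrt h2.le
    have hδ0 : 0 < δ := Real.sqrt_pos.mpr h2
    have hso : ∑ l, o (σ l) = ∑ l, o l := Equiv.sum_comp σ o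
    have hsc : (∑ l, c (σ l)) • W = -W := by rw [Equiv.sum_comp σ c]; exact hc
    have hsV : ∑ l, V' (σ l) = 0 := by rw [Equiv.sum_comp σ V']; exact hs
    refine ⟨δ, hδ0, by rw [hδ2]; exact h3, ?_, ?_⟩
    · have hmain := area4 e W (fun l => V' (σ l)) (fun l => c (σ l)) (fun l => o (σ l)) he hWe
        (fun l => hVe (σ l)) (fun l => hVW (σ l)) hsV hsc δ hδ0 hδ2 (by rw [hδ2]; exact h1)
      rw [hso] at hmain
      refine le_trans (le_of_eq ?_) hmain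
      congr 1
      funext x
      rw [inf'_perm σ (fun l => o l * ⟪e, x⟫ - ⟪V' l + c l • W, x⟫)]
    · intro o5 ho5
      have hmain := area4crude e W (fun l => V' (σ l)) (fun l => c (σ l)) (fun l => o (σ l)) o5
        he hWe (fun l => hVe (σ l)) (fun l => hVW (σ l)) hsV hsc δ hδ0 hδ2 (by rw [hδ2]; exact h1)
        (by rw [hso]; exact ho5)
      rw [hso] at hmain
      refine le_trans (le_of_eq ?_) hmain
      congr 1
      funext x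
      rw [inf'_perm σ (fun l => o l * ⟪e, x⟫ - ⟪V' l + c l • W, x⟫)]
  set A := gd (V' 0 + V' 1) (V' 0 + V' 2) with hA
  set B := gd (V' 0 + V' 1) (V' 0 + V' 3) with hB
  set Cc := gd (V' 0 + V' 2) (V' 0 + V' 3) with hCc
  rcases le_total A B with hAB | hAB
  · rcases le_total B Cc with hBC | hBC
    · -- Cc largest: permutation 1 → 2 → 3 → 1
      have hσ : ∃ σ : Equiv.Perm (Fin 4), σ 0 = 0 ∧ σ 1 = 2 ∧ σ 2 = 3 ∧ σ 3 = 1 := by decide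
      obtain ⟨σ, s0, s1, s2, s3⟩ := hσ
      apply key σ
      · rw [s0, s1, s2, s3, gd_comm (V' 0 + V' 2) (V' 0 + V' 1), ← hA, ← hCc]; linarith
      · rw [s0, s1, s2, ← hCc]; linarith
      · rw [s0, s1, s2, ← hCc]; linarith
    · -- B largest
      have hσ : ∃ σ : Equiv.Perm (Fin 4), σ 0 = 0 ∧ σ 1 = 1 ∧ σ 2 = 3 ∧ σ 3 = 2 := by decide
      obtain ⟨σ, s0, s1, s2, s3⟩ := hσ
      apply key σ
      · rw [s0, s1, s2, s3, ← hA, ← hB]; linarith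
      · rw [s0, s1, s2, ← hB]; linarith
      · rw [s0, s1, s2, ← hB]; linarith
  · rcases le_total A Cc with hAC | hAC
    · have hσ : ∃ σ : Equiv.Perm (Fin 4), σ 0 = 0 ∧ σ 1 = 2 ∧ σ 2 = 3 ∧ σ 3 = 1 := by decide
      obtain ⟨σ, s0, s1, s2, s3⟩ := hσ
      apply key σ
      · rw [s0, s1, s2, s3, gd_comm (V' 0 + V' 2) (V' 0 + V' 1), ← hA, ← hCc]; linarith
      · rw [s0, s1, s2, ← hCc]; linarith
      · rw [s0, s1, s2, ← hCc]; linarith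
    · apply key (Equiv.refl _)
      · simp only [Equiv.refl_apply]; rw [← hA, ← hB]; linarith
      · simp only [Equiv.refl_apply]; rw [← hA]; linarith
      · simp only [Equiv.refl_apply]; rw [← hA]; linarith

/-- passage from the Lebesgue integral of the positive part to the Bochner integral on `K` -/
theorem setIntegral_le_of_lintegral {f : E → ℝ} (K : Set E) {B : ℝ} (hB : 0 ≤ B)
    (h : ∫⁻ x, ENNReal.ofReal (f x) ∂(stdGaussian E) ≤ ENNReal.ofReal B) :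
    ∫ x in K, f x ∂(stdGaussian E) ≤ B := by
  by_cases hf : Integrable f ((stdGaussian E).restrict K)
  · rw [integral_eq_lintegral_pos_part_sub_lintegral_neg_part hf]
    have h1 : (∫⁻ x in K, ENNReal.ofReal (f x) ∂(stdGaussian E)).toReal ≤ B := by
      have h2 : ∫⁻ x in K, ENNReal.ofReal (f x) ∂(stdGaussian E) ≤ ENNReal.ofReal B :=
        (setLIntegral_le_lintegral K _).trans h
      have h3 := ENNReal.toReal_mono ENNReal.ofReal_ne_top h2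
      rwa [ENNReal.toReal_ofReal hB] at h3
    have h4 : 0 ≤ (∫⁻ x in K, ENNReal.ofReal (-f x) ∂(stdGaussian E)).toReal :=
      ENNReal.toReal_nonneg
    linarith
  · rw [integral_undef hf]; exact hB

end P226
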