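import Vale.Agent.P226_h16.NCLib

/-! P226: common lemmas of the modules NC4, NC5, second part. -/

open MeasureTheory ProbabilityTheory Set
open scoped RealInnerProductSpace ENNReal

namespace P226

theorem sq_step {k m δ T Q : ℝ} (hk : 0 < k) (hm : 0 < m) (hδ : 0 < δ) (hQ : 0 < Q)
    (h : k * m < Real.sqrt (2 / Real.pi) * T / (Q * Real.pi * δ)) :
    k ^ 2 * Q ^ 2 * (m ^ 2 * δ ^ 2) < 2 * T ^ 2 / Real.pi ^ 3 := by
  have hpi := Real.pi_pos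
  have hd : 0 < Q * Real.pi * δ := by positivity
  rw [lt_div_iff₀ hd] at h
  have h0 : 0 ≤ k * m * (Q * Real.pi * δ) := by positivity
  have h2 := pow_lt_pow_left₀ h h0 two_ne_zero
  rw [mul_pow (Real.sqrt (2 / Real.pi)), Real.sq_sqrt (by positivity)] at h2
  rw [lt_div_iff₀ (by positivity)]
  have e1 : 2 / Real.pi * T ^ 2 * Real.pi = 2 * T ^ 2 := by
    field_simp
  have h3 := mul_lt_mul_of_pos_right h2 hpi
  rw [e1] at h3
  calc k ^ 2 * Q ^ 2 * (m ^ 2 * δ ^ 2) * Real.pi ^ 3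
      = (k * m * (Q * Real.pi * δ)) ^ 2 * Real.pi := by ring
    _ < 2 * T ^ 2 := h3

theorem sqrt_cube_sq {R : ℝ} (hR : 0 ≤ R) : ((Real.sqrt R) ^ 3) ^ 2 = R ^ 3 := by
  rw [← pow_mul, mul_comm 3 2, pow_mul, Real.sq_sqrt hR]

section inner

variable {E : Type*} [NormedAddCommGroup E] [InnerProductSpace ℝ E]

theorem three_gd (u v w : E) (h : u + v + w = 0) :
    gd u v = heron (‖u‖ ^ 2) (‖v‖ ^ 2) (‖w‖ ^ 2) := by
  have h3 : w = -(u + v) := by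
    rw [eq_neg_iff_add_eq_zero, ← h]; abel
  subst h3
  unfold gd heron
  simp only [← real_inner_self_eq_norm_sq]
  simp only [inner_add_left, inner_add_right, inner_neg_left, inner_neg_right]
  rw [real_inner_comm u v]
  ring

theorem three_pos {u v w : E} (h : u + v + w = 0) (huv : ⟪u, v⟫ < 0) (huw : ⟪u, w⟫ < 0)
    (hvw : ⟪v, w⟫ < 0) : 0 < gd u v := by
  have h3 : w = -(u + v) := by
    rw [eq_neg_iff_add_eq_zero, ← h]; abel
  subst h3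
  apply gd_pos _ _ huv
  · rw [← real_inner_self_eq_norm_sq]
    simp only [inner_add_right, inner_neg_right] at huw
    linarith
  · rw [← real_inner_self_eq_norm_sq]
    simp only [inner_add_right, inner_neg_right] at hvw
    rw [real_inner_comm u v] at hvw
    rw [real_inner_comm v u]
    rw [real_inner_comm v u] at hvw
    linarith

/-- squared norm of a vector in a family with sum zero -/
theorem four_norm {u v w z : E} (h : u + v + w + z = 0) :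
    ‖u‖ ^ 2 = -⟪u, v⟫ - ⟪u, w⟫ - ⟪u, z⟫ := by
  have h3 : z = -(u + v + w) := by
    rw [eq_neg_iff_add_eq_zero, ← h]; abel
  subst h3
  rw [← real_inner_self_eq_norm_sq]
  simp only [inner_add_right, inner_neg_right]
  ring

theorem four_pos {u v w z : E} (h : u + v + w + z = 0) (huv : ⟪u, v⟫ < 0) (huw : ⟪u, w⟫ < 0)
    (huz : ⟪u, z⟫ < 0) (hvw : ⟪v, w⟫ < 0) (hvz : ⟪v, z⟫ < 0) : 0 < gd u v := by
  apply gd_pos _ _ huv
  · rw [four_norm h]; linarith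
  · have h' : v + u + w + z = 0 := by rw [← h]; abel
    rw [four_norm h', real_inner_comm u v]; linarith

end inner

variable {E : Type*} [NormedAddCommGroup E] [InnerProductSpace ℝ E] [FiniteDimensional ℝ E]
  [MeasurableSpace E] [BorelSpace E]

theorem removal_lt {n : ℕ} [Nonempty (Fin n)] (C : Crit (Fin n) E) {g : E → ℝ} {B : ℝ}
    (hB : 0 ≤ B) (hg : ∀ x, C.toFrame.minL x ≤ g x)
    (h : ∫⁻ x, ENNReal.ofReal (g x) ∂(stdGaussian E) ≤ ENNReal.ofReal B) :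
    ((n : ℝ) + 1) / (2 * n) * C.m < B := by
  have h1 := C.removal
  rw [Fintype.card_fin] at h1
  refine h1.trans_le (setIntegral_le_of_lintegral _ hB (le_trans ?_ h))
  exact lintegral_mono (fun x => ENNReal.ofReal_le_ofReal (hg x))

/-- minimum over a subfamily -/
theorem minL_le_inf' {n k : ℕ} [Nonempty (Fin n)] [Nonempty (Fin k)] (C : Crit (Fin n) E)
    (f : Fin k → Fin n) (x : E) :
    C.toFrame.minL x ≤ Finset.univ.inf' Finset.univ_nonempty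
      (fun l : Fin k => C.toFrame.o (f l) * ⟪C.e, x⟫ - ⟪C.V (f l), x⟫) := by
  apply Finset.le_inf'
  intro l _
  exact Finset.inf'_le (fun l => C.toFrame.o l * ⟪C.e, x⟫ - C.toFrame.Z l x)
    (Finset.mem_univ (f l))

/-- projection orthogonal to `W` of a family with sum `-W` -/
theorem proj_family {k : ℕ} (W : E) (U : Fin k → E) (hW : W ≠ 0) (hs : ∑ l, U l = -W)
    (hUW : ∀ l, ⟪U l, W⟫ < 0) :
    ∃ (V' : Fin k → E) (c : Fin k → ℝ), (∀ l, U l = V' l + c l • W) ∧ (∀ l, ⟪V' l, W⟫ = 0) ∧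
      ∑ l, V' l = 0 ∧ (∑ l, c l) • W = -W ∧
      (∀ i j, ⟪V' i, V' j⟫ = ⟪U i, U j⟫ - ⟪U i, W⟫ * ⟪U j, W⟫ / ‖W‖ ^ 2) ∧
      (∀ l, ‖V' l‖ ^ 2 = ‖U l‖ ^ 2 - ⟪U l, W⟫ ^ 2 / ‖W‖ ^ 2) ∧
      (∑ l, ⟪U l, W⟫ ^ 2 / ‖W‖ ^ 2 ≤ ‖W‖ ^ 2) ∧
      (∀ e : E, ⟪W, e⟫ = 0 → (∀ l, ⟪U l, e⟫ = 0) → ∀ l, ⟪V' l, e⟫ = 0) := by
  have hWn : 0 < ‖W‖ ^ 2 := by positivity
  have hWi : ⟪W, W⟫ = ‖W‖ ^ 2 := real_inner_self_eq_norm_sq W
  have hin : ∀ i j, ⟪U i - (⟪U i, W⟫ / ‖W‖ ^ 2) • W, U j - (⟪U j, W⟫ / ‖W‖ ^ 2) • W⟫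
      = ⟪U i, U j⟫ - ⟪U i, W⟫ * ⟪U j, W⟫ / ‖W‖ ^ 2 := by
    intro i j
    simp only [inner_sub_left, inner_sub_right, inner_smul_left, inner_smul_right,
      RCLike.conj_to_real]
    rw [hWi, real_inner_comm (U j) W]
    field_simp
    ring
  have hsum : ∑ l, ⟪U l, W⟫ = -‖W‖ ^ 2 := by
    rw [← sum_inner, hs, inner_neg_left, hWi]
  have hcs : (∑ l, ⟪U l, W⟫ / ‖W‖ ^ 2) = -1 := by
    rw [← Finset.sum_div, hsum]; field_simp
  refine ⟨fun l => U l - (⟪U l, W⟫ / ‖W‖ ^ 2) • W, fun l => ⟪U l, W⟫ / ‖W‖ ^ 2, ?_, ?_, ?_, ?_,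
    hin, ?_, ?_, ?_⟩
  · intro l; simp
  · intro l
    rw [inner_sub_left, inner_smul_left, hWi]
    simp only [RCLike.conj_to_real]
    field_simp
    ring
  · rw [Finset.sum_sub_distrib, ← Finset.sum_smul, hcs, hs]; simp
  · rw [hcs]; simp
  · intro l
    have := hin l l
    rw [real_inner_self_eq_norm_sq, real_inner_self_eq_norm_sq] at this
    rw [this]; ring
  · rw [← Finset.sum_div, div_le_iff₀ hWn]
    have h1 : ∑ l, ⟪U l, W⟫ ^ 2 = ∑ l, (-⟪U l, W⟫) ^ 2 := by simp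
    have h2 : ∑ l, (-⟪U l, W⟫) ^ 2 ≤ (∑ l, -⟪U l, W⟫) ^ 2 :=
      Finset.sum_sq_le_sq_sum_of_nonneg (fun l _ => by have := hUW l; linarith)
    rw [h1]
    refine h2.trans (le_of_eq ?_)
    rw [Finset.sum_neg_distrib, hsum]; ring
  · intro e hWe hUe l
    simp only []
    rw [inner_sub_left, inner_smul_left, hWe, hUe l]
    simp

theorem proj_neg {k : ℕ} (W : E) (U V' : Fin k → E)
    (hin : ∀ i j, ⟪V' i, V' j⟫ = ⟪U i, U j⟫ - ⟪U i, W⟫ * ⟪U j, W⟫ / ‖W‖ ^ 2)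
    (hneg : ∀ i j, i ≠ j → ⟪U i, U j⟫ < 0) (hUW : ∀ l, ⟪U l, W⟫ < 0) :
    ∀ i j, i ≠ j → ⟪V' i, V' j⟫ < 0 := by
  intro i j hij
  rw [hin]
  have h1 := hneg i j hij
  have h2 : 0 ≤ ⟪U i, W⟫ * ⟪U j, W⟫ / ‖W‖ ^ 2 :=
    div_nonneg (mul_nonneg_of_nonpos_of_nonpos (hUW i).le (hUW j).le) (by positivity)
  linarith

end P226
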