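import Vale.Agent.P226_h5.OneD

/-! P226 module 16-PLANE: double split with the bound `phi ≤ phi 0`; cubes. -/

open MeasureTheory ProbabilityTheory Set Filter Topology
open scoped RealInnerProductSpace ENNReal

namespace P226

variable {E : Type*} [NormedAddCommGroup E] [InnerProductSpace ℝ E] [FiniteDimensional ℝ E]
  [MeasurableSpace E] [BorelSpace E]

theorem pl_split (v : E) (hv : ‖v‖ = 1) {f : E → ℝ≥0∞} (hf : Measurable f) :
    ∫⁻ y, f y ∂(stdGaussian E) =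
      ∫⁻ y, (∫⁻ u, f (u • v + (y - ⟪v, y⟫ • v)) ∂(gaussianReal 0 1)) ∂(stdGaussian E) := by
  have hc : Continuous (fun p : ℝ × E => p.1 • v + (p.2 - ⟪v, p.2⟫ • v)) := by fun_prop
  conv_lhs => rw [← stdGaussian_split v hv]
  rw [lintegral_map hf hc.measurable, lintegral_prod_symm']
  exact hf.comp hc.measurable

theorem pl_gauss_le {g : ℝ → ℝ≥0∞} (hg : Measurable g) :
    ∫⁻ u, g u ∂(gaussianReal 0 1) ≤
      ENNReal.ofReal ((Real.sqrt (2 * Real.pi))⁻¹) * ∫⁻ u, g u := by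
  rw [gaussianReal_eq_phi, lintegral_withDensity_eq_lintegral_mul _
    (by unfold phi; fun_prop) hg, ← lintegral_const_mul _ hg]
  refine lintegral_mono fun u => ?_
  simp only [Pi.mul_apply]
  gcongr
  have h := phi_le_phi_zero u
  have h0 : phi 0 = (Real.sqrt (2 * Real.pi))⁻¹ := by unfold phi; simp
  rw [h0] at h
  exact h

theorem pl_one (v : E) (hv : ‖v‖ = 1) {f : E → ℝ≥0∞} (hf : Measurable f) :
    ∫⁻ y, f y ∂(stdGaussian E) ≤ ENNReal.ofReal ((Real.sqrt (2 * Real.pi))⁻¹) *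
      ∫⁻ y, (∫⁻ b : ℝ, f (b • v + (y - ⟪v, y⟫ • v))) ∂(stdGaussian E) := by
  rw [pl_split v hv hf]
  have hm : Measurable fun y : E => ∫⁻ b : ℝ, f (b • v + (y - ⟪v, y⟫ • v)) := by
    refine Measurable.lintegral_prod_right' (f := fun x : E × ℝ =>
      f (x.2 • v + (x.1 - ⟪v, x.1⟫ • v))) ?_
    exact hf.comp (by fun_prop : Continuous fun x : E × ℝ =>
      x.2 • v + (x.1 - ⟪v, x.1⟫ • v)).measurable
  rw [← lintegral_const_mul _ hm]
  refine lintegral_mono fun y => ?_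
  exact pl_gauss_le (hf.comp (by fun_prop : Continuous fun b : ℝ =>
    b • v + (y - ⟪v, y⟫ • v)).measurable)

theorem lintegral_le_plane (u v : E) (hu : ‖u‖ = 1) (hv : ‖v‖ = 1) (huv : ⟪u, v⟫ = 0)
    {f : E → ℝ≥0∞} (hf : Measurable f) :
    ∫⁻ x, f x ∂(stdGaussian E) ≤ ENNReal.ofReal (1 / (2 * Real.pi)) *
      ∫⁻ y, (∫⁻ a : ℝ, ∫⁻ b : ℝ, f (a • u + b • v + (y - ⟪u, y⟫ • u - ⟪v, y⟫ • v)))
        ∂(stdGaussian E) := by
  have hvu : ⟪v, u⟫ = 0 := by rw [real_inner_comm]; exact huv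
  set G : E → ℝ≥0∞ := fun y => ∫⁻ b : ℝ, f (b • v + (y - ⟪v, y⟫ • v)) with hG
  have hGm : Measurable G := by
    refine Measurable.lintegral_prod_right' (f := fun x : E × ℝ =>
      f (x.2 • v + (x.1 - ⟪v, x.1⟫ • v))) ?_
    exact hf.comp (by fun_prop : Continuous fun x : E × ℝ =>
      x.2 • v + (x.1 - ⟪v, x.1⟫ • v)).measurable
  have h1 := pl_one v hv hf
  have h2 := pl_one u hu hGm
  have h3 : ENNReal.ofReal (1 / (2 * Real.pi)) = ENNReal.ofReal ((Real.sqrt (2 * Real.pi))⁻¹) *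
      ENNReal.ofReal ((Real.sqrt (2 * Real.pi))⁻¹) := by
    rw [← ENNReal.ofReal_mul (by positivity), ← mul_inv, Real.mul_self_sqrt (by positivity),
      one_div]
  refine h1.trans ?_
  rw [h3, mul_assoc]
  refine mul_le_mul_right ?_ _
  refine h2.trans (le_of_eq ?_)
  congr 1
  refine lintegral_congr fun y => ?_
  refine lintegral_congr fun a => ?_
  simp only [hG]
  refine lintegral_congr fun b => ?_
  congr 1
  have h4 : ⟪v, a • u + (y - ⟪u, y⟫ • u)⟫ = ⟪v, y⟫ := by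
    rw [inner_add_right, inner_sub_right, inner_smul_right, inner_smul_right, hvu]; ring
  rw [h4]
  abel

theorem pl_cube_Ioi : ∫ t in Ioi (0:ℝ), t ^ 3 * phi t = 2 * (Real.sqrt (2 * Real.pi))⁻¹ := by
  have h := integral_rpow_mul_exp_neg_mul_rpow (p := 2) (q := 3) (b := 1 / 2)
    (by norm_num) (by norm_num) (by norm_num)
  have h1 : ∫ t in Ioi (0:ℝ), t ^ 3 * phi t = (Real.sqrt (2 * Real.pi))⁻¹ *
      ∫ x in Ioi (0:ℝ), x ^ (3:ℝ) * Real.exp (-(1 / 2) * x ^ (2:ℝ)) := by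
    rw [← integral_const_mul]
    refine setIntegral_congr_fun measurableSet_Ioi fun t _ => ?_
    have e1 : t ^ (3:ℝ) = t ^ 3 := by exact_mod_cast Real.rpow_natCast t 3
    have e2 : t ^ (2:ℝ) = t ^ 2 := by exact_mod_cast Real.rpow_natCast t 2
    rw [e1, e2]
    unfold phi
    have e3 : -t ^ 2 / 2 = -(1 / 2) * t ^ 2 := by ring
    rw [e3]; ring
  rw [h1, h]
  have e4 : ((3:ℝ) + 1) / 2 = 2 := by norm_num
  have e5 : -((3:ℝ) + 1) / 2 = -2 := by norm_num
  rw [e4, e5]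
  have e6 : Real.Gamma 2 = 1 := Real.Gamma_two
  have e7 : ((1:ℝ) / 2) ^ (-2:ℝ) = 4 := by
    rw [Real.rpow_neg (by norm_num)]
    have : ((1:ℝ) / 2) ^ (2:ℝ) = (1 / 2) ^ 2 := by exact_mod_cast Real.rpow_natCast (1/2:ℝ) 2
    rw [this]; norm_num
  rw [e6, e7]; ring

theorem pl_cube_int : IntegrableOn (fun t : ℝ => t ^ 3 * phi t) (Ioi 0) := by
  by_contra hcon
  have h := integral_undef hcon
  rw [pl_cube_Ioi] at h
  have : 0 < 2 * (Real.sqrt (2 * Real.pi))⁻¹ := by positivity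
  linarith

theorem pl_cube_gauss (c : ℝ) (hc : 0 ≤ c) :
    ∫⁻ t, ENNReal.ofReal ((max (c * t) 0) ^ 3) ∂(gaussianReal 0 1) =
      ENNReal.ofReal (Real.sqrt (2 / Real.pi) * c ^ 3) := by
  rw [gaussianReal_eq_phi, lintegral_withDensity_eq_lintegral_mul _
    (by unfold phi; fun_prop) (by fun_prop)]
  have h1 : ∀ t : ℝ, ((fun x => ENNReal.ofReal (phi x)) * fun t => ENNReal.ofReal
      ((max (c * t) 0) ^ 3)) t = (Ioi (0:ℝ)).indicator
      (fun t => ENNReal.ofReal (c ^ 3 * (t ^ 3 * phi t))) t := by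
    intro t
    simp only [Pi.mul_apply]
    rw [← ENNReal.ofReal_mul (phi_nonneg t)]
    by_cases ht : 0 < t
    · rw [indicator_of_mem (by exact ht), max_eq_left (by positivity)]
      congr 1; ring
    · rw [indicator_of_notMem (by exact ht), max_eq_right (by
        rw [not_lt] at ht; exact mul_nonpos_of_nonneg_of_nonpos hc ht)]
      simp
  rw [lintegral_congr h1, lintegral_indicator measurableSet_Ioi,
    ← ofReal_integral_eq_lintegral_ofReal]
  · rw [integral_const_mul, pl_cube_Ioi]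
    congr 1
    have e : Real.sqrt (2 / Real.pi) = 2 * (Real.sqrt (2 * Real.pi))⁻¹ := by
      rw [Real.sqrt_eq_iff_mul_self_eq (by positivity) (by positivity)]
      have : (Real.sqrt (2 * Real.pi))⁻¹ * (Real.sqrt (2 * Real.pi))⁻¹ = (2 * Real.pi)⁻¹ := by
        rw [← mul_inv, Real.mul_self_sqrt (by positivity)]
      symm
      calc 2 * (Real.sqrt (2 * Real.pi))⁻¹ * (2 * (Real.sqrt (2 * Real.pi))⁻¹)
          = 4 * ((Real.sqrt (2 * Real.pi))⁻¹ * (Real.sqrt (2 * Real.pi))⁻¹) := by ring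
        _ = 2 / Real.pi := by rw [this]; field_simp; ring
    rw [e]; ring
  · exact pl_cube_int.const_mul _
  · refine (ae_restrict_iff' measurableSet_Ioi).2 (Eventually.of_forall fun t ht => ?_)
    have ht' : 0 < t := ht
    have := phi_nonneg t
    show 0 ≤ c ^ 3 * (t ^ 3 * phi t)
    positivity

theorem lintegral_cube (v : E) :
    ∫⁻ y, ENNReal.ofReal ((max ⟪v, y⟫ 0) ^ 3) ∂(stdGaussian E) =
      ENNReal.ofReal (Real.sqrt (2 / Real.pi) * ‖v‖ ^ 3) := by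
  by_cases hv : v = 0
  · subst hv; simp
  · have hn : ‖v‖ ≠ 0 := norm_ne_zero_iff.2 hv
    obtain ⟨u, hu1, hvu⟩ : ∃ u : E, ‖u‖ = 1 ∧ v = ‖v‖ • u := by
      refine ⟨(‖v‖)⁻¹ • v, ?_, ?_⟩
      · rw [norm_smul, norm_inv, norm_norm, inv_mul_cancel₀ hn]
      · rw [smul_smul, mul_inv_cancel₀ hn, one_smul]
    have huu : ⟪u, u⟫ = 1 := by rw [real_inner_self_eq_norm_sq, hu1]; norm_num
    rw [pl_split u hu1 (by fun_prop)]
    have h1 : ∀ y : E, ∫⁻ t : ℝ, ENNReal.ofReal ((max ⟪v, t • u + (y - ⟪u, y⟫ • u)⟫ 0) ^ 3)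
        ∂(gaussianReal 0 1) = ENNReal.ofReal (Real.sqrt (2 / Real.pi) * ‖v‖ ^ 3) := by
      intro y
      rw [← pl_cube_gauss ‖v‖ (norm_nonneg v)]
      refine lintegral_congr fun t => ?_
      have e0 : ⟪u, t • u + (y - ⟪u, y⟫ • u)⟫ = t := by
        rw [inner_add_right, inner_sub_right, inner_smul_right, inner_smul_right, huu]
        ring
      have e : ⟪v, t • u + (y - ⟪u, y⟫ • u)⟫ = ‖v‖ * t := by
        have e2 : ⟪v, t • u + (y - ⟪u, y⟫ • u)⟫ = ⟪‖v‖ • u, t • u + (y - ⟪u, y⟫ • u)⟫ := by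
          rw [← hvu]
        rw [e2, real_inner_smul_left, e0]
      rw [e]
    simp only [h1, lintegral_const, measure_univ, mul_one]

end P226
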